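import Vale.Agent.P233Z.ATrig

/-!
# P233Z: first consequences of the local `(1+3)`-point comparison
-/

open Real Set Topology Filter Metric

universe u

namespace Vale.Agent.P233Z

open Vale.Agent.P233 Vale.Agent.P233.AB Vale.Agent.P233.H616 Vale.Agent.P233.Str

variable {M : Type u} [MetricSpace M] {κ ρ : ℝ} {o : M}

theorem LQ.mono (h : LQ M κ o ρ) {o' : M} {ρ' : ℝ} (hρ : 0 < ρ') (hle : ρ' ≤ ρ)
    (hsub : ball o' ρ' ⊆ ball o ρ) : LQ M κ o' ρ' :=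
  ⟨hρ, Sml.mono' h.sml (by linarith), h.len, fun z hz x₁ h₁ x₂ h₂ x₃ h₃ =>
    h.sum z (hsub hz) x₁ (hsub h₁) x₂ (hsub h₂) x₃ (hsub h₃)⟩

theorem sn_pos_of_mem_ball (hs : Sml κ (2 * ρ)) {x y : M} (hx : x ∈ ball o ρ) (hy : y ∈ ball o ρ)
    (hxy : x ≠ y) : 0 < sn κ (dist x y) := by
  have h1 := dist_lt_of_mem_ball hx hy
  have h2 : 0 < dist x y := dist_pos.2 hxy
  exact (ad_of_sml hs (by linarith)).sn_pos h2

theorem neg_one_le_cc (hs : Sml κ (2 * ρ)) {z x y : M} (hz : z ∈ ball o ρ) (hx : x ∈ ball o ρ)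
    (hy : y ∈ ball o ρ) (hzx : z ≠ x) (hzy : z ≠ y) : -1 ≤ cc κ z x y := by
  refine neg_one_le_cvA (sn_pos_of_mem_ball hs hz hx hzx) (sn_pos_of_mem_ball hs hz hy hzy)
    dist_nonneg (dist_triangle_left _ _ _) (small_of_mem_ball hs hz hx hy).le

theorem cc_le_one (hs : Sml κ (2 * ρ)) {z x y : M} (hz : z ∈ ball o ρ) (hx : x ∈ ball o ρ)
    (hy : y ∈ ball o ρ) (hzx : z ≠ x) (hzy : z ≠ y) : cc κ z x y ≤ 1 := by
  refine cvA_le_one (sn_pos_of_mem_ball hs hz hx hzx) (sn_pos_of_mem_ball hs hz hy hzy) ?_ ?_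
  · rw [dist_comm z x, dist_comm z y]
    exact abs_dist_sub_le x y z
  · have h1 := dist_lt_of_mem_ball hx hy
    have h2 : 0 ≤ dist x y := dist_nonneg
    exact le_of_lt (ad_of_sml hs (by linarith))

/-- If `x₁`, `x₃` are almost opposite at `z`, then the angles to a further point are almost
supplementary. -/
theorem LQ.cc_sum (h : LQ M κ o ρ) {z x₁ x₂ x₃ : M} (hz : z ∈ ball o ρ) (h₁ : x₁ ∈ ball o ρ)
    (h₂ : x₂ ∈ ball o ρ) (h₃ : x₃ ∈ ball o ρ) (n₁ : z ≠ x₁) (n₂ : z ≠ x₂) (n₃ : z ≠ x₃) {δ : ℝ}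
    (hδ : cc κ z x₁ x₃ ≤ -1 + δ) : -√(2 * δ) ≤ cc κ z x₁ x₂ + cc κ z x₃ x₂ := by
  have h1 := h.sum z hz x₁ h₁ x₂ h₂ x₃ h₃ n₁ n₂ n₃
  have h2 := cos_add_cos_ge (Real.arccos_nonneg _) (Real.arccos_le_pi _) (Real.arccos_nonneg _)
    (Real.arccos_le_pi _) (Real.arccos_nonneg _) (Real.arccos_le_pi _) h1
  have c1 := cos_arccos_le (le_refl (cc κ z x₁ x₂)) (neg_one_le_cc h.sml hz h₁ h₂ n₁ n₂)
  have c2 := cos_arccos_le (le_refl (cc κ z x₂ x₃)) (neg_one_le_cc h.sml hz h₂ h₃ n₂ n₃)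
  have c3 := cos_arccos_le (le_refl (cc κ z x₁ x₃)) (neg_one_le_cc h.sml hz h₁ h₃ n₁ n₃)
  have c4 : √(2 * (1 + cos (arccos (cc κ z x₁ x₃)))) ≤ √(2 * δ) :=
    Real.sqrt_le_sqrt (by linarith)
  rw [cc_comm κ z x₃ x₂]
  linarith

/-- `d_a + d_b` is almost constant if `a`, `b` are almost opposite -/
theorem LQ.sum_DD (h : LQ M κ o ρ) {R ℓ ε t₀ δ : ℝ} (hA : Apx κ R ℓ ε t₀) (hℓ : 0 < ℓ)
    {p a b z : M} (hp : p ∈ ball o ρ) (hao : a ∈ ball o ρ) (hbo : b ∈ ball o ρ)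
    (hzo : z ∈ ball o ρ) (ha : ℓ ≤ dist p a) (hb : ℓ ≤ dist p b) (haR : dist p a ≤ R)
    (hbR : dist p b ≤ R) (hab : cc κ p a b ≤ -1 + δ) (hpz : p ≠ z) (hz : dist p z ≤ t₀) :
    -(√(2 * δ) + 2 * ε) ≤ DD p a z + DD p b z := by
  have hpa : p ≠ a := dist_pos.1 (by linarith)
  have hpb : p ≠ b := dist_pos.1 (by linarith)
  have h1 := h.cc_sum hp hao hzo hbo hpa hpz hpb hab
  have e1 := abs_le.1 (hA.abs_le ha haR hpz hz)
  have e2 := abs_le.1 (hA.abs_le hb hbR hpz hz)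
  linarith [e1.2, e2.2]

/-- In a ball with the `(1+3)`-point comparison, triangle comparison holds. -/
theorem LQ.cmp (h : LQ M κ o ρ) {p x y w : M} (hp : p ∈ ball o ρ) (hx : x ∈ ball o ρ)
    (hy : y ∈ ball o ρ) (hw : w ∈ ball o ρ) (hxy : dist x w + dist w y = dist x y) :
    T.Cmp κ (dist p x) (dist p y) (dist x w) (dist w y) (dist p w) := by
  rcases eq_or_ne w x with rfl | nx
  · rw [cmp_iff]
    simp
  rcases eq_or_ne w y with rfl | ny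
  · rw [cmp_iff]
    simp
  rcases eq_or_ne w p with rfl | np
  · rw [cmp_iff, dist_comm x w]
    simp
  have s1 := sn_pos_of_mem_ball h.sml hw hx nx
  have s2 := sn_pos_of_mem_ball h.sml hw hy ny
  have s3 := sn_pos_of_mem_ball h.sml hw hp np
  have h1 : cc κ w x y ≤ -1 + 0 := by
    unfold cc
    rw [← hxy, dist_comm x w, cvA_add s1 s2, add_zero]
  have h2 := h.cc_sum hw hx hp hy nx np ny h1
  rw [mul_zero, Real.sqrt_zero, neg_zero] at h2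
  rw [dist_comm x w, dist_comm p w]
  refine cmp_of_mS s1.le s2.le s3.le (le_of_eq ?_) (le_of_eq ?_) h2
  · unfold cc
    rw [mS_cvA _ s1 s3, dist_comm]
  · unfold cc
    rw [mS_cvA _ s2 s3, dist_comm]

theorem LQ.toLC (h : LQ M κ o ρ) (hg : ∀ x y : M, ∀ s t : ℝ, 0 ≤ s → 0 ≤ t → s + t = dist x y →
    ∃ w, dist x w = s ∧ dist w y = t) : LC M κ o ρ :=
  ⟨h.pos, h.sml, fun x _ y _ => hg x y, fun _ hp _ hx _ hy _ hw hxy => h.cmp hp hx hy hw hxy⟩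

end Vale.Agent.P233Z
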