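import Vale.Agent.P233Z.Defs
import Vale.Agent.P233.H992.Proper
import Vale.Agent.P233.H416.GeoCurve

/-!
# Length spaces, geodesic spaces, and the theorem of Hopf and Rinow
-/

open Real Filter Topology Set Metric
open scoped ENNReal NNReal

universe u

namespace Vale.Agent.P233Z

open Vale.Agent.P233 Vale.Agent.P233.H992

variable {M : Type u} [MetricSpace M]

theorem IsLength.isLen (h : IsLength M) : IsLen M := by
  intro x y s t hs ht hst ε hε
  obtain ⟨γ, hc, h0, h1, hv⟩ := h x y ε hε
  have hc' : ContinuousOn (fun u => dist x (γ u)) (Icc 0 1) :=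
    continuous_dist.comp_continuousOn (continuousOn_const.prodMk hc)
  obtain ⟨u, hu, hus⟩ : s ∈ (fun u => dist x (γ u)) '' Icc 0 1 := by
    refine intermediate_value_Icc zero_le_one hc' ⟨?_, ?_⟩
    · simp only [h0, dist_self]
      exact hs
    · simp only [h1]
      linarith
  simp only at hus
  refine ⟨γ u, by linarith, ?_⟩
  have e := eVariationOn.Icc_add_Icc γ (s := Icc (0 : ℝ) 1) hu.1 hu.2 hu
  have e1 := eVariationOn.edist_le γ (s := Icc (0 : ℝ) 1 ∩ Icc 0 u) (x := 0) (y := u)
    ⟨⟨le_rfl, zero_le_one⟩, le_rfl, hu.1⟩ ⟨hu, hu.1, le_rfl⟩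
  have e2 := eVariationOn.edist_le γ (s := Icc (0 : ℝ) 1 ∩ Icc u 1) (x := u) (y := 1)
    ⟨hu, le_rfl, hu.2⟩ ⟨⟨zero_le_one, le_rfl⟩, hu.2, le_rfl⟩
  rw [inter_self] at e
  have e3 := (add_le_add e1 e2).trans (e.le.trans hv)
  rw [h0, h1, edist_dist, edist_dist, ← ENNReal.ofReal_add dist_nonneg dist_nonneg,
    ENNReal.ofReal_le_ofReal_iff (by positivity)] at e3
  linarith

theorem isLength_of_geo [CompleteSpace M] (hgeo : ∀ x y : M, ∀ s t : ℝ, 0 ≤ s → 0 ≤ t →
    s + t = dist x y → ∃ w, dist x w = s ∧ dist w y = t) : IsLength M := by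
  intro x y ε hε
  obtain ⟨γ, h0, h1, h2⟩ := H416.exists_geo hgeo x y
  have hd : 0 ≤ dist x y := dist_nonneg
  have hl : LipschitzOnWith (nndist x y) (fun u => γ (u * dist x y)) (Icc 0 1) := by
    refine LipschitzOnWith.of_dist_le_mul fun u hu v hv => ?_
    rw [h2 _ ⟨mul_nonneg hu.1 hd, mul_le_of_le_one_left hd hu.2⟩ _
      ⟨mul_nonneg hv.1 hd, mul_le_of_le_one_left hd hv.2⟩, ← sub_mul, abs_mul, abs_of_nonneg hd,
      Real.dist_eq, mul_comm]
    rfl
  refine ⟨fun u => γ (u * dist x y), hl.continuousOn, by simp [h0], by simp [h1], ?_⟩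
  have h3 := hl.comp_eVariationOn_le (g := id) (s := Icc (0 : ℝ) 1) (mapsTo_id _)
  rw [eVariationOn_id_Icc, sub_zero, ENNReal.ofReal_one, mul_one] at h3
  refine h3.trans ?_
  rw [← edist_nndist, edist_dist]
  exact ENNReal.ofReal_le_ofReal (le_add_of_nonneg_right hε.le)

theorem near_ball (h : IsLen M) {x z : M} {R δ : ℝ} (hR : 0 < R) (hδ : 0 < δ)
    (hz : dist x z < R + δ) : ∃ w, dist x w < R ∧ dist w z < 2 * δ := by
  rcases lt_or_ge (dist x z) R with h1 | h1
  · exact ⟨z, h1, by rw [dist_self]; positivity⟩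
  have hm : 0 < min R δ := lt_min hR hδ
  have m1 := min_le_left R δ
  have m2 := min_le_right R δ
  obtain ⟨w, h2, h3⟩ := h x z (R - min R δ / 2) (dist x z - R + min R δ / 2) (by linarith)
    (by linarith) (by ring) (min R δ / 4) (by positivity)
  exact ⟨w, by linarith, by linarith⟩

/-- Hopf and Rinow: a complete locally compact length space is proper -/
theorem proper_of_locallyCompact [CompleteSpace M] [LocallyCompactSpace M] (h : IsLen M) :
    ProperSpace M := by
  have hloc : ∀ y : M, ∃ r > 0, TotallyBounded (ball y r) := fun y => by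
    obtain ⟨r, hr, hK⟩ := exists_isCompact_closedBall y
    exact ⟨r, hr, hK.totallyBounded.subset ball_subset_closedBall⟩
  have key : ∀ (x : M) (R : ℝ), TotallyBounded (ball x R) := by
    intro x R
    by_contra hR
    let S : Set ℝ := {r | TotallyBounded (ball x r)}
    have hb : BddAbove S := ⟨R, fun r hr => by
      by_contra hc
      exact hR (TotallyBounded.subset (ball_subset_ball (not_le.1 hc).le) hr)⟩
    obtain ⟨r₀, hr₀, h₀⟩ := hloc x
    have hρ : 0 < sSup S := hr₀.trans_le (le_csSup hb h₀)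
    have hlt : ∀ r < sSup S, TotallyBounded (ball x r) := fun r hr => by
      obtain ⟨r', h1, h2⟩ := exists_lt_of_lt_csSup ⟨r₀, h₀⟩ hr
      exact TotallyBounded.subset (ball_subset_ball h2.le) h1
    -- the closed ball of radius `sSup S` is compact
    have hc : TotallyBounded (closedBall x (sSup S)) := by
      refine Metric.totallyBounded_iff.2 fun ε hε => ?_
      have hm : 0 < min (sSup S) ε := lt_min hρ hε
      have m1 := min_le_left (sSup S) ε
      have m2 := min_le_right (sSup S) ε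
      obtain ⟨t, ht, htc⟩ := Metric.totallyBounded_iff.1
        (hlt (sSup S - min (sSup S) ε / 8) (by linarith)) (ε / 2) (by positivity)
      refine ⟨t, ht, fun z hz => ?_⟩
      rw [mem_closedBall'] at hz
      obtain ⟨w, h1, h2⟩ := near_ball h (x := x) (z := z) (R := sSup S - min (sSup S) ε / 8)
        (δ := min (sSup S) ε / 4) (by linarith) (by positivity) (by linarith)
      obtain ⟨y, hy, hwy⟩ := mem_iUnion₂.1 (htc (mem_ball'.2 h1))
      refine mem_iUnion₂.2 ⟨y, hy, ?_⟩
      rw [mem_ball] at hwy ⊢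
      have := dist_triangle z w y
      rw [dist_comm z w] at this
      linarith
    have hK : IsCompact (closedBall x (sSup S)) := hc.isCompact_of_isClosed isClosed_closedBall
    choose r hr hrT using hloc
    obtain ⟨δ, hδ, hδ'⟩ := lebesgue_number_lemma_of_metric hK (c := fun y => ball y (r y))
      (fun _ => isOpen_ball) fun y _ => mem_iUnion.2 ⟨y, mem_ball_self (hr y)⟩
    obtain ⟨t, hts, ht, htc⟩ := hK.finite_cover_balls (e := δ / 3) (by positivity)
    have hT : TotallyBounded (ball x (sSup S + δ / 3)) := by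
      refine TotallyBounded.subset (s₂ := ⋃ y ∈ t, ball y δ) (fun z hz => ?_)
        ((totallyBounded_biUnion ht).2 fun y hy => ?_)
      · obtain ⟨w, h1, h2⟩ := near_ball h hρ (show 0 < δ / 3 by positivity) (mem_ball'.1 hz)
        obtain ⟨y, hy, hwy⟩ := mem_iUnion₂.1 (htc (mem_closedBall'.2 h1.le))
        refine mem_iUnion₂.2 ⟨y, hy, ?_⟩
        rw [mem_ball] at hwy ⊢
        have := dist_triangle z w y
        rw [dist_comm z w] at this
        linarith
      · obtain ⟨i, hi⟩ := hδ' y (hts hy)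
        exact (hrT i).subset hi
    have := le_csSup hb hT
    linarith
  exact ⟨fun x r => ((key x (r + 1)).subset
    (closedBall_subset_ball (by linarith))).isCompact_of_isClosed isClosed_closedBall⟩

variable {κ : ℝ}

theorem triCmp_of (hA : T.IsAlexandrov M κ) : TriCmp M κ := by
  intro p x y α β γ _ _ hγ hp s hs
  have e1 : dist x (γ s) = s := by
    have := hγ.2.2 0 ⟨le_rfl, dist_nonneg⟩ s hs
    rwa [hγ.1, zero_sub, abs_neg, abs_of_nonneg hs.1] at this
  have e2 : dist (γ s) y = dist x y - s := by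
    have := hγ.2.2 s hs _ ⟨dist_nonneg, le_rfl⟩
    rwa [hγ.2.1, abs_sub_comm, abs_of_nonneg (sub_nonneg.2 hs.2)] at this
  have := hA.comparison p x y (γ s) (by rw [e1, e2]; ring) hp
  rwa [e1, e2] at this

theorem isAlexandrov_of_triCmp [CompleteSpace M] (hgeo : ∀ x y : M, ∀ s t : ℝ, 0 ≤ s → 0 ≤ t →
    s + t = dist x y → ∃ w, dist x w = s ∧ dist w y = t) (h : TriCmp M κ) :
    T.IsAlexandrov M κ := by
  refine ⟨hgeo, fun p x y w hw hp => ?_⟩
  obtain ⟨α, hα⟩ := H416.exists_geo hgeo p x
  obtain ⟨β, hβ⟩ := H416.exists_geo hgeo p y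
  obtain ⟨γ, g1, g2, g3, g4⟩ := H416.exists_geo_through hgeo hw
  have := h p x y α β γ hα hβ ⟨g1, g3, g4⟩ hp (dist x w)
    ⟨dist_nonneg, by linarith [dist_nonneg (x := w) (y := y)]⟩
  rwa [g2, show dist x y - dist x w = dist w y by linarith] at this

end Vale.Agent.P233Z
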