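import Vale.Agent.P233Z.Four
import Vale.Agent.P233Z.Len
import Vale.Agent.P233Y.AProper
import Vale.Agent.P233.H636.Final

/-!
# P233: the textbook definitions of an `n`-dimensional Alexandrov space are equivalent
-/

open Real Set Topology Metric

universe u

namespace Vale.Agent.P233Z

open Vale.Agent.P233

variable {M : Type u} [MetricSpace M] {κ : ℝ} {n : ℕ}

theorem quadOn_of_four {U : Set M} (h : FourPoint U κ) : P233Y.QuadOn κ U := by
  intro p hp x hx y hy z hz n₁ n₂ n₃ s₁ s₂ s₃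
  have := h ⟨p, hp⟩ ⟨x, hx⟩ ⟨y, hy⟩ ⟨z, hz⟩ (fun e => n₁ (congrArg Subtype.val e).symm)
    (fun e => n₂ (congrArg Subtype.val e).symm) (fun e => n₃ (congrArg Subtype.val e).symm) s₁ s₂
    (by
      unfold P233Y.Small at s₃
      simp only [Subtype.dist_eq]
      rw [dist_comm x z, add_comm (dist p x)]
      exact s₃)
  rw [P233Y.ang_comm κ p z x]
  simp only [ang_eq, Subtype.dist_eq] at this
  exact this

theorem FourPoint.subtype (h : FourPoint M κ) (U : Set M) : FourPoint U κ :=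
  fun p x y z n₁ n₂ n₃ => h p x y z (fun e => n₁ (Subtype.ext e)) (fun e => n₂ (Subtype.ext e))
    fun e => n₃ (Subtype.ext e)

theorem TriCmp.subtype (h : TriCmp M κ) (U : Set M) : TriCmp U κ :=
  fun p x y α β γ hα hβ hγ => h p x y (fun t => α t) (fun t => β t) (fun t => γ t)
    ⟨congrArg Subtype.val hα.1, congrArg Subtype.val hα.2.1, hα.2.2⟩
    ⟨congrArg Subtype.val hβ.1, congrArg Subtype.val hβ.2.1, hβ.2.2⟩
    ⟨congrArg Subtype.val hγ.1, congrArg Subtype.val hγ.2.1, hγ.2.2⟩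

theorem exists_LC_of_subtype {o : M} {U : Set M} (hU : U ∈ 𝓝 o)
    (hg : ∀ x y : U, ∃ γ : ℝ → U, IsSeg γ x y) (ht : TriCmp U κ) : ∃ ρ, P233Y.LC M κ o ρ := by
  obtain ⟨ρ, hρ, hs, hsub⟩ := P233Y.exists_ball_sml κ hU
  refine ⟨ρ, hρ, hs, fun x hx y hy s t h1 h2 h3 => ?_, fun p hp x hx y hy w hw h => ?_⟩
  · obtain ⟨γ, hγ⟩ := hg ⟨x, hsub hx⟩ ⟨y, hsub hy⟩
    obtain ⟨w, hw⟩ := P233Y.IsGeod.exists_between hγ h1 h2 h3
    exact ⟨w, hw⟩
  · have hsm : P233Y.Small κ p x y := P233Y.small_of_mem_ball hs hp hx hy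
    exact P233Y.cmp_of_triOn (M := U) (U := univ) (fun x _ y _ => hg x y)
      (fun p _ x _ y _ => ht p x y) (p := ⟨p, hsub hp⟩) (x := ⟨x, hsub hx⟩) (y := ⟨y, hsub hy⟩)
      (w := ⟨w, hsub hw⟩) trivial trivial trivial trivial h hsm

theorem dim_lt_top (h : dimH (univ : Set M) = n) : dimH (univ : Set M) < ⊤ := by
  rw [h]
  exact ENNReal.natCast_lt_top n

variable [CompleteSpace M]

/-- A complete finite dimensional length space with the local `(1+3)`-point comparison is proper. -/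
theorem proper_of_locFour (hl : IsLength M) (h4 : ∀ o : M, ∃ U ∈ 𝓝 o, FourPoint U κ)
    (hd : dimH (univ : Set M) < ⊤) : ProperSpace M :=
  P233Y.properSpace_of_LQ hl.isLen
    (fun o => let ⟨_, hU, h⟩ := h4 o; P233Y.exists_LQ hl.isLen hU (quadOn_of_four h)) hd

theorem proper_of_four (hl : IsLength M) (h4 : FourPoint M κ) (hd : dimH (univ : Set M) ≠ ⊤) :
    ProperSpace M :=
  proper_of_locFour hl (fun _ => ⟨univ, Filter.univ_mem, h4.subtype _⟩) hd.lt_top

theorem proper_of_isAlexN (h : T.IsAlexN M n κ) : ProperSpace M :=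
  proper_of_four (isLength_of_geo h.1.geodesic) (fourPoint_of h.1) (dim_lt_top h.2).ne

/-- The definitions of an `n`-dimensional Alexandrov space with curvature `≥ κ`: geodesic space with
triangle comparison; length space with the `(1+3)`-point comparison; locally compact length space
with comparison for geodesic triangles; length space with the local `(1+3)`-point comparison; length
space covered by geodesic neighbourhoods with comparison for the triangles in them; length space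
with comparison for geodesic triangles in which geodesics exist locally. -/
theorem alex_tfae6 (M : Type u) [MetricSpace M] [CompleteSpace M] (n : ℕ) (κ : ℝ) :
    List.TFAE [T.IsAlexN M n κ,
      IsLength M ∧ FourPoint M κ ∧ dimH (univ : Set M) = n,
      IsLength M ∧ LocallyCompactSpace M ∧ TriCmp M κ ∧ dimH (univ : Set M) = n,
      IsLength M ∧ (∀ o : M, ∃ U ∈ 𝓝 o, FourPoint U κ) ∧ dimH (univ : Set M) = n,
      IsLength M ∧ (∀ o : M, ∃ U ∈ 𝓝 o, (∀ x y : U, ∃ γ : ℝ → U, IsSeg γ x y) ∧ TriCmp U κ) ∧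
        dimH (univ : Set M) = n,
      IsLength M ∧ (∀ o : M, ∃ U ∈ 𝓝 o, ∀ x ∈ U, ∀ y ∈ U, ∃ γ : ℝ → M, IsSeg γ x y) ∧
        TriCmp M κ ∧ dimH (univ : Set M) = n] := by
  tfae_have 1 → 2 := fun h => ⟨isLength_of_geo h.1.geodesic, fourPoint_of h.1, h.2⟩
  tfae_have 2 → 4 := fun h => ⟨h.1, fun _ => ⟨univ, Filter.univ_mem, h.2.1.subtype _⟩, h.2.2⟩
  tfae_have 4 → 1 := fun h => ⟨P233Y.isAlexandrov_of_LQ h.1.isLen
    (fun o => let ⟨_, hU, h4⟩ := h.2.1 o; P233Y.exists_LQ h.1.isLen hU (quadOn_of_four h4))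
    (dim_lt_top h.2.2), h.2.2⟩
  tfae_have 1 → 3 := fun h => by
    have := proper_of_isAlexN h
    exact ⟨isLength_of_geo h.1.geodesic, inferInstance, triCmp_of h.1, h.2⟩
  tfae_have 3 → 1 := fun h => by
    have := h.2.1
    have := proper_of_locallyCompact h.1.isLen
    exact ⟨isAlexandrov_of_triCmp h.1.isLen.geodesic h.2.2.1, h.2.2.2⟩
  tfae_have 1 → 5 := fun h => by
    refine ⟨isLength_of_geo h.1.geodesic, fun _ => ⟨univ, Filter.univ_mem, fun x y => ?_,
      (triCmp_of h.1).subtype _⟩, h.2⟩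
    obtain ⟨γ, h1, h2, h3⟩ := H416.exists_geo h.1.geodesic (x : M) y
    exact ⟨fun t => ⟨γ t, trivial⟩, Subtype.ext h1, Subtype.ext h2, h3⟩
  tfae_have 5 → 1 := fun h => ⟨P233Y.isAlexandrov_of_LC h.1.isLen
    (fun o => let ⟨_, hU, hg, ht⟩ := h.2.1 o; exists_LC_of_subtype hU hg ht)
    (dim_lt_top h.2.2), h.2.2⟩
  tfae_have 1 → 6 := fun h => ⟨isLength_of_geo h.1.geodesic,
    fun _ => ⟨univ, Filter.univ_mem, fun x _ y _ => H416.exists_geo h.1.geodesic x y⟩,
    triCmp_of h.1, h.2⟩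
  tfae_have 6 → 1 := fun h => ⟨P233Y.isAlexandrov_of_LC h.1.isLen
    (fun o => let ⟨_, hU, hg⟩ := h.2.1 o
      P233Y.exists_LC hU hg fun p _ x _ y _ => h.2.2.1 p x y)
    (dim_lt_top h.2.2.2), h.2.2.2⟩
  tfae_finish

theorem alex_tfae (M : Type u) [MetricSpace M] [CompleteSpace M] (n : ℕ) (κ : ℝ) :
    List.TFAE [IsLength M ∧ FourPoint M κ ∧ dimH (univ : Set M) = n,
      IsLength M ∧ LocallyCompactSpace M ∧ TriCmp M κ ∧ dimH (univ : Set M) = n,
      T.IsAlexN M n κ] := by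
  have h := alex_tfae6 M n κ
  tfae_have 1 ↔ 3 := h.out 1 0
  tfae_have 2 ↔ 3 := h.out 2 0
  tfae_finish

end Vale.Agent.P233Z
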