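import Vale.Agent.P233Z.AMain

/-!
# P233: the weakest local form of the triangle comparison
-/

open Real Set Topology Metric

universe u

namespace Vale.Agent.P233Z

open Vale.Agent.P233

variable {M : Type u} [MetricSpace M] {κ : ℝ} {n : ℕ}

/-- a geodesic of `M` which stays in `U` is a geodesic of `U` -/
theorem IsSeg.lift {U : Set M} {γ : ℝ → M} {x y : M} (h : IsSeg γ x y) (hx : x ∈ U) (hy : y ∈ U)
    (hU : ∀ s ∈ Icc 0 (dist x y), γ s ∈ U) :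
    ∃ γ' : ℝ → U, IsSeg γ' ⟨x, hx⟩ ⟨y, hy⟩ ∧ ∀ s ∈ Icc 0 (dist x y), (γ' s : M) = γ s := by
  classical
  have e : ∀ s ∈ Icc 0 (dist x y),
      ((if hs : γ s ∈ U then (⟨γ s, hs⟩ : U) else ⟨x, hx⟩ : U) : M) = γ s := fun s hs => by
    rw [dif_pos (hU s hs)]
  refine ⟨fun s => if hs : γ s ∈ U then ⟨γ s, hs⟩ else ⟨x, hx⟩, ⟨Subtype.ext ?_, Subtype.ext ?_,
    fun s hs t ht => ?_⟩, e⟩
  · exact (e 0 ⟨le_rfl, dist_nonneg⟩).trans h.1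
  · exact (e _ ⟨dist_nonneg, le_rfl⟩).trans h.2.1
  · rw [Subtype.dist_eq, e s hs, e t ht]
    exact h.2.2 s hs t ht

theorem exists_LC_of_seven {o : M} {U : Set M} (hU : U ∈ 𝓝 o)
    (hg : ∀ x ∈ U, ∀ y ∈ U, ∃ γ : ℝ → M, IsSeg γ x y) (ht : TriCmp U κ) :
    ∃ ρ, P233Y.LC M κ o ρ := by
  obtain ⟨ρ, hρ, hs, hsub⟩ := P233Y.exists_ball_sml κ hU
  have hs' : AB.Sml κ (2 * (ρ / 3)) := P233Y.Sml.mono' hs (by linarith)
  have hsub' : ball o (ρ / 3) ⊆ U := (ball_subset_ball (by linarith)).trans hsub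
  have stay : ∀ {γ : ℝ → M} {x y : M}, IsSeg γ x y → x ∈ ball o (ρ / 3) → y ∈ ball o (ρ / 3) →
      ∀ s ∈ Icc 0 (dist x y), γ s ∈ U := by
    intro γ x y hγ hx hy s hs
    refine hsub ?_
    have h1 := P233Y.IsGeod.dist_left hγ hs.1 hs.2
    have h2 := P233Y.dist_lt_of_mem_ball hx hy
    have h3 := dist_triangle_left (γ s) o x
    rw [mem_ball] at hx ⊢
    linarith [hs.2]
  refine ⟨ρ / 3, by linarith, hs', fun x hx y hy s t h1 h2 h3 => ?_,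
    fun p hp x hx y hy w hw h => ?_⟩
  · obtain ⟨γ, hγ⟩ := hg x (hsub' hx) y (hsub' hy)
    exact P233Y.IsGeod.exists_between hγ h1 h2 h3
  · obtain ⟨α, hα⟩ := hg p (hsub' hp) x (hsub' hx)
    obtain ⟨β, hβ⟩ := hg p (hsub' hp) y (hsub' hy)
    obtain ⟨γ₁, h₁⟩ := hg x (hsub' hx) w (hsub' hw)
    obtain ⟨γ₂, h₂⟩ := hg w (hsub' hw) y (hsub' hy)
    obtain ⟨γ, hγ, hγw⟩ := P233Y.IsGeod.concat h₁ h₂ h
    obtain ⟨α', hα', -⟩ := hα.lift (hsub' hp) (hsub' hx) (stay hα hp hx)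
    obtain ⟨β', hβ', -⟩ := hβ.lift (hsub' hp) (hsub' hy) (stay hβ hp hy)
    obtain ⟨γ', hγ', e⟩ := IsSeg.lift hγ (hsub' hx) (hsub' hy) (stay hγ hx hy)
    have hsm : P233Y.Small κ p x y := P233Y.small_of_mem_ball hs' hp hx hy
    have hm : dist x w ∈ Icc 0 (dist x y) :=
      ⟨dist_nonneg, by linarith [dist_nonneg (x := w) (y := y)]⟩
    have := ht _ _ _ α' β' γ' hα' hβ' hγ' hsm (dist x w) hm
    simp only [Subtype.dist_eq] at this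
    rwa [e _ hm, hγw, show dist x y - dist x w = dist w y by linarith] at this

variable [CompleteSpace M]

theorem alex_of_4 (h : IsLength M ∧ (∀ o : M, ∃ U ∈ 𝓝 o, FourPoint U κ) ∧
    dimH (univ : Set M) = n) : T.IsAlexN M n κ :=
  ((alex_tfae6 M n κ).out 3 0).1 h

theorem alex_of_7 (h : IsLength M ∧ (∀ o : M, ∃ U ∈ 𝓝 o,
    (∀ x ∈ U, ∀ y ∈ U, ∃ γ : ℝ → M, IsSeg γ x y) ∧ TriCmp U κ) ∧ dimH (univ : Set M) = n) :
    T.IsAlexN M n κ :=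
  ⟨P233Y.isAlexandrov_of_LC h.1.isLen
    (fun o => let ⟨_, hU, hg, ht⟩ := h.2.1 o; exists_LC_of_seven hU hg ht) (dim_lt_top h.2.2),
    h.2.2⟩

theorem seven_of_alex (h : T.IsAlexN M n κ) : IsLength M ∧ (∀ o : M, ∃ U ∈ 𝓝 o,
    (∀ x ∈ U, ∀ y ∈ U, ∃ γ : ℝ → M, IsSeg γ x y) ∧ TriCmp U κ) ∧ dimH (univ : Set M) = n :=
  ⟨isLength_of_geo h.1.geodesic, fun _ => ⟨univ, Filter.univ_mem,
    fun x _ y _ => H416.exists_geo h.1.geodesic x y, (triCmp_of h.1).subtype _⟩, h.2⟩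

theorem four_of_alex (h : T.IsAlexN M n κ) : IsLength M ∧ (∀ o : M, ∃ U ∈ 𝓝 o, FourPoint U κ) ∧
    dimH (univ : Set M) = n :=
  ((alex_tfae6 M n κ).out 0 3).1 h

end Vale.Agent.P233Z
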