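import Vale.Agent.P233Z.A1

/-!
# P233Z: strainer maps are open in a length space with the local quadruple comparison
-/

open Real Set Topology Filter Metric

universe u

namespace Vale.Agent.P233Z

open Vale.Agent.P233 Vale.Agent.P233.AB Vale.Agent.P233.H616 Vale.Agent.P233.Str

variable {M : Type u} [MetricSpace M] {κ ρ : ℝ} {o : M}

namespace OpenAux

/-- an approximate step of length `v` from `x` towards `c` -/
theorem move (hl : H992.IsLen M) {x c : M} {v ε : ℝ} (hv : 0 < v) (hvc : v ≤ dist x c)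
    (hε : 0 < ε) (hε1 : ε < 1) : ∃ z, z ≠ x ∧ dist x z ≤ v ∧ (1 - ε) * v ≤ dist x z ∧
      dist z c ≤ dist x c - (1 - ε) * v ∧ DD z c x ≤ -1 + ε := by
  have h0 : 0 < ε * v := mul_pos hε hv
  have h1 : 0 < (1 - ε) * v := mul_pos (by linarith) hv
  obtain ⟨z, h2, h3⟩ := hl x c (v - ε * v / 2) (dist x c - v + ε * v / 2) (by linarith)
    (by linarith) (by ring) (ε * v / 2) (by linarith)
  have h4 := dist_triangle x z c
  have h5 : 0 < dist z x := by rw [dist_comm]; linarith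
  refine ⟨z, dist_pos.1 h5, by linarith, by linarith, by linarith, ?_⟩
  unfold DD
  rw [div_le_iff₀ h5, dist_comm z x]
  have h6 : (1 - ε) * dist x z ≤ (1 - ε) * v :=
    mul_le_mul_of_nonneg_left (by linarith) (by linarith)
  linarith

/-- moving almost towards `c`: the change of the distance from `e` -/
theorem DD_le (h : LQ M κ o ρ) {R ℓ η t₀ : ℝ} (hA : Apx κ R ℓ (η ^ 2) t₀) (hℓ : 0 < ℓ)
    (hη : 0 ≤ η) {x z c e : M} (hx : x ∈ ball o ρ) (hz : z ∈ ball o ρ) (hc : c ∈ ball o ρ)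
    (he : e ∈ ball o ρ) (c1 : ℓ ≤ dist z c) (c2 : dist z c ≤ R) (e1 : ℓ ≤ dist z e)
    (e2 : dist z e ≤ R) (hzx : z ≠ x) (ht : dist z x ≤ t₀) (hD : DD z c x ≤ -1 + η ^ 2) :
    DD x e z ≤ cc κ z c e + η ^ 2 + 2 * η := by
  have hzc : z ≠ c := dist_pos.1 (by linarith)
  have hze : z ≠ e := dist_pos.1 (by linarith)
  have f1 := (abs_le.1 (hA.abs_le c1 c2 hzx ht)).2
  have f2 := (abs_le.1 (hA.abs_le e1 e2 hzx ht)).2
  have f3 := h.cc_sum hz hx he hc hzx hze hzc (δ := 2 * η ^ 2) (by rw [cc_comm]; linarith)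
  rw [show 2 * (2 * η ^ 2) = (2 * η) ^ 2 by ring, Real.sqrt_sq (by linarith), cc_comm κ z x e] at f3
  rw [DD_swap x e z] at f2
  linarith

end OpenAux

open OpenAux

/-- **Strainer maps are open.** -/
theorem LQ.open_stm [CompleteSpace M] (h : LQ M κ o ρ) {δ : ℝ} {k : ℕ} {a b : Fin k → M} {p : M}
    (hp : p ∈ ball o (ρ / 4)) (hS : IsStr κ (ρ / 4) δ a b p) (hδ : 0 ≤ δ)
    (hk : k * (δ + √(2 * δ)) < 1 / 2) :
    ∀ s > 0, ∃ c > 0, ball (stm a p) c ⊆ stm a '' ball p s := by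
  intro s hs
  have hρ := h.pos
  have hsm : Sml κ (ρ / 4) := Sml.mono' h.sml (by linarith)
  obtain ⟨r, hr, ℓ, hℓ, hU⟩ := exists_unif hsm hS
  have near : ∀ y, dist p y < ρ / 4 → y ∈ ball o ρ := fun y hy => by
    have := dist_triangle y p o
    rw [mem_ball] at hp ⊢
    rw [dist_comm y p] at this
    linarith
  have hao : ∀ i, a i ∈ ball o ρ := fun i => near _ (hS.haρ i)
  have hbo : ∀ i, b i ∈ ball o ρ := fun i => near _ (hS.hbρ i)
  -- the error `η`
  obtain ⟨η, ⟨hkη, hη1⟩, hη⟩ : ∃ η : ℝ, (k * (δ + √(2 * δ) + 5 * η) < 1 / 2 ∧ η < 1) ∧ 0 < η := by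
    have h1 : ∀ᶠ η : ℝ in 𝓝 0, k * (δ + √(2 * δ) + 5 * η) < 1 / 2 :=
      (show ContinuousAt (fun η : ℝ => k * (δ + √(2 * δ) + 5 * η)) 0 by
        fun_prop).eventually_lt_const (by simpa using hk)
    exact ((eventually_nhdsWithin_of_eventually_nhds (s := Ioi (0 : ℝ))
      (h1.and (gt_mem_nhds one_pos))).and self_mem_nhdsWithin).exists
  set θ := δ + √(2 * δ) + 5 * η with hθ
  have hsq : 0 ≤ √(2 * δ) := Real.sqrt_nonneg _
  have hθ0 : 0 ≤ θ := by positivity
  have hε : 0 < η ^ 2 := by positivity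
  have hεη : η ^ 2 ≤ η := by nlinarith
  obtain ⟨t₀, ht₀, hA⟩ := cvA_approx κ hsm hℓ hε
  have hA : Apx κ (ρ / 4) ℓ (η ^ 2) t₀ := hA
  set r₁ := min r (ρ / 4) / 2 with hr₁
  have hr₁0 : 0 < r₁ := half_pos (lt_min hr (by linarith))
  have hr₁r : 2 * r₁ ≤ r := by rw [hr₁]; linarith [min_le_left r (ρ / 4)]
  have hr₁ρ : 2 * r₁ ≤ ρ / 4 := by rw [hr₁]; linarith [min_le_right r (ρ / 4)]
  set s₀ := min t₀ (min ℓ r₁) with hs₀
  have hs₀0 : 0 < s₀ := lt_min ht₀ (lt_min hℓ hr₁0)
  have step : ∀ x ∈ ball p (min r₁ s), ∀ i, ∀ u : ℝ, |u| ≤ s₀ → ∃ z, dist x z ≤ |u| ∧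
      |stm a z i - stm a x i - u| ≤ θ * |u| ∧ ∀ j, j ≠ i → |stm a z j - stm a x j| ≤ θ * |u| := by
    intro x hx i u hu
    have hx1 : dist x p < r₁ := (mem_ball.1 hx).trans_le (min_le_left _ _)
    obtain ⟨hSx, hℓa, hℓb⟩ := hU x (mem_ball.2 (by linarith))
    have hxo : x ∈ ball o ρ := near x (by rw [dist_comm]; linarith)
    rcases eq_or_ne u 0 with hu0 | hu0
    · subst hu0
      exact ⟨x, by simp, by simp, fun j _ => by simp⟩
    have hupos : 0 < |u| := abs_pos.2 hu0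
    have hut : |u| ≤ t₀ := hu.trans (min_le_left _ _)
    have huℓ : |u| ≤ ℓ := hu.trans ((min_le_right _ _).trans (min_le_left _ _))
    have hur : |u| ≤ r₁ := hu.trans ((min_le_right _ _).trans (min_le_right _ _))
    have zp : ∀ z, dist x z ≤ |u| → dist z p < 2 * r₁ := fun z hz => by
      have := dist_triangle z x p
      rw [dist_comm z x] at this
      linarith
    -- estimates valid for every `z` at distance `≤ |u|`
    have main : ∀ z, z ≠ x → dist x z ≤ |u| → ∀ j, DD x (a j) z ≤ δ + η ^ 2 + 2 * η →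
        DD x (b j) z ≤ δ + η ^ 2 + 2 * η → |stm a z j - stm a x j| ≤ θ * |u| := by
      intro z hzx hz j h1 h2
      have hzo : z ∈ ball o ρ := near z (by rw [dist_comm]; linarith [zp z hz])
      have h3 := h.sum_DD hA hℓ hxo (hao j) (hbo j) hzo (hℓa j) (hℓb j) (hSx.haρ j).le
        (hSx.hbρ j).le (hSx.opp j).le hzx.symm (hz.trans hut)
      have h4 : |DD x (a j) z| ≤ θ := by
        rw [abs_le]
        constructor <;> rw [hθ] <;> linarith
      unfold stm
      rw [DD_mul hzx.symm, abs_neg, abs_mul, abs_of_nonneg dist_nonneg, mul_comm]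
      exact mul_le_mul h4 hz dist_nonneg hθ0
    have hθε : η ^ 2 * |u| ≤ θ * |u| :=
      mul_le_mul_of_nonneg_right (by rw [hθ]; linarith) hupos.le
    rcases lt_or_gt_of_ne hu0 with hneg | hpos
    · -- towards `a i`
      obtain ⟨z, hzx, hz1, -, hz3, hz4⟩ := move h.len hupos (huℓ.trans (hℓa i)) hε (by linarith)
      obtain ⟨hSz, za, zb⟩ := hU z (mem_ball.2 (by linarith [zp z hz1]))
      have hzo : z ∈ ball o ρ := near z (by rw [dist_comm]; linarith [zp z hz1])
      have hzt : dist z x ≤ t₀ := by rw [dist_comm]; exact hz1.trans hut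
      refine ⟨z, hz1, ?_, fun j hj => main z hzx hz1 j ?_ ?_⟩
      · unfold stm
        have h1 := dist_triangle x z (a i)
        have h2 := abs_of_neg hneg
        have h3 := mul_nonneg hθ0 hupos.le
        rw [abs_le]
        constructor <;> linarith
      · have := DD_le h hA hℓ hη.le hxo hzo (hao i) (hao j) (za i) (hSz.haρ i).le (za j)
          (hSz.haρ j).le hzx hzt hz4
        linarith [hSz.aa i j hj.symm]
      · have := DD_le h hA hℓ hη.le hxo hzo (hao i) (hbo j) (za i) (hSz.haρ i).le (zb j)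
          (hSz.hbρ j).le hzx hzt hz4
        linarith [hSz.ab i j hj.symm]
    · -- towards `b i`
      obtain ⟨z, hzx, hz1, hz2, -, hz4⟩ := move h.len hupos (huℓ.trans (hℓb i)) hε (by linarith)
      obtain ⟨hSz, za, zb⟩ := hU z (mem_ball.2 (by linarith [zp z hz1]))
      have hzo : z ∈ ball o ρ := near z (by rw [dist_comm]; linarith [zp z hz1])
      have hzt : dist z x ≤ t₀ := by rw [dist_comm]; exact hz1.trans hut
      refine ⟨z, hz1, ?_, fun j hj => main z hzx hz1 j ?_ ?_⟩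
      · have h1 := DD_le h hA hℓ hη.le hxo hzo (hbo i) (hao i) (zb i) (hSz.hbρ i).le (za i)
          (hSz.haρ i).le hzx hzt hz4
        rw [cc_comm] at h1
        have h2 := hSz.opp i
        have h3 := (abs_le.1 (abs_DD_le x (a i) z)).1
        have h4 := abs_of_pos hpos
        have h5 : dist x z * (DD x (a i) z + 1) ≤ |u| * (δ + η ^ 2 + 2 * η) :=
          mul_le_mul hz1 (by linarith) (by linarith) hupos.le
        have h6 : 0 ≤ dist x z * (DD x (a i) z + 1) := mul_nonneg dist_nonneg (by linarith)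
        have h7 : (δ + 2 * η ^ 2 + 2 * η) * |u| ≤ θ * |u| :=
          mul_le_mul_of_nonneg_right (by rw [hθ]; linarith) hupos.le
        have h8 := mul_nonneg hθ0 hupos.le
        unfold stm
        rw [DD_mul hzx.symm, abs_le]
        constructor <;> linarith
      · have := DD_le h hA hℓ hη.le hxo hzo (hbo i) (hao j) (zb i) (hSz.hbρ i).le (za j)
          (hSz.haρ j).le hzx hzt hz4
        rw [cc_comm] at this
        linarith [hSz.ab j i hj]
      · have := DD_le h hA hℓ hη.le hxo hzo (hbo i) (hbo j) (zb i) (hSz.hbρ i).le (zb j)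
          (hSz.hbρ j).le hzx hzt hz4
        linarith [hSz.bb i j hj.symm]
  have hr' : 0 < min r₁ s := lt_min hr₁0 hs
  obtain ⟨c, ⟨hc1, hc2⟩, hc⟩ : ∃ c : ℝ, (k * c < s₀ ∧ 2 * k * (k * c) < min r₁ s) ∧ 0 < c := by
    have h1 : ∀ᶠ c : ℝ in 𝓝 0, k * c < s₀ :=
      (show ContinuousAt (fun c : ℝ => k * c) 0 by fun_prop).eventually_lt_const
        (by simpa using hs₀0)
    have h2 : ∀ᶠ c : ℝ in 𝓝 0, 2 * k * (k * c) < min r₁ s :=
      (show ContinuousAt (fun c : ℝ => 2 * k * (k * c)) 0 by fun_prop).eventually_lt_const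
        (by simpa only [mul_zero] using hr')
    exact ((eventually_nhdsWithin_of_eventually_nhds (s := Ioi (0 : ℝ))
      (h1.and h2)).and self_mem_nhdsWithin).exists
  refine ⟨c, hc, fun v hv => ?_⟩
  have hsum : ∑ i, |v i - stm a p i| ≤ k * c := by
    have h1 : ∀ i ∈ Finset.univ, |v i - stm a p i| ≤ c := fun i _ => by
      have := (dist_le_pi_dist v (stm a p) i).trans (mem_ball.1 hv).le
      rwa [Real.dist_eq] at this
    have := Finset.sum_le_card_nsmul Finset.univ _ _ h1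
    simpa using this
  obtain ⟨x, hx, hxv⟩ := exists_eq_of_step (f := stm a) (lipschitz_stm a).continuous hθ0 hkη.le step
    (v := v) (hsum.trans hc1.le)
    (lt_of_le_of_lt (mul_le_mul_of_nonneg_left hsum (by positivity)) hc2) hr'
  exact ⟨x, ball_subset_ball (min_le_right _ _) hx, hxv⟩

end Vale.Agent.P233Z
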