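import Vale.Agent.P233Z.A0

/-!
# P233Z: triangle comparison in a ball gives the `(1+3)`-point comparison in a smaller ball
-/

open Vale.Agent.P233 Vale.Agent.P233.AB Real Set Topology Metric Filter

universe u

namespace Vale.Agent.P233Z

/-- Geodesics from the base point `o` and triangle comparison for the points at distance `≤ R`
from `o`. -/
structure LB (M : Type u) [MetricSpace M] (κ : ℝ) (o : M) (R : ℝ) : Prop where
  sml : Sml κ R
  geo : ∀ x, dist o x ≤ R → ∀ s t : ℝ, 0 ≤ s → 0 ≤ t → s + t = dist o x →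
    ∃ w, dist o w = s ∧ dist w x = t
  cmp : ∀ p x y w : M, dist o p ≤ R → dist o x ≤ R → dist o y ≤ R → dist o w ≤ R →
    dist x w + dist w y = dist x y →
    AB.Cmp κ (dist p x) (dist p y) (dist x w) (dist w y) (dist p w)

variable {M : Type u} [MetricSpace M] {κ R : ℝ}

theorem LC.lb {ρ : ℝ} {o q : M} (h : LC M κ o ρ) (hq : dist o q < 3 * ρ / 8) :
    LB M κ q (ρ / 2) := by
  have hρ := h.pos
  have hin : ∀ x, dist q x ≤ ρ / 2 → x ∈ ball o ρ := by
    intro x hx
    have := dist_triangle o q x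
    rw [mem_ball, dist_comm]
    linarith
  have hqq : q ∈ ball o ρ := hin q (by rw [dist_self]; linarith)
  refine ⟨Sml.mono' h.sml (by linarith), fun x hx s t hs ht hst => h.geo q hqq x (hin x hx) s t hs ht hst,
    fun p x y w hp hx hy hw e => ?_⟩
  exact h.cmp p (hin p hp) x (hin x hx) y (hin y hy) w (hin w hw) e

theorem LB.mono_cv {o : M} (h : LB M κ o R) {p x w : M}
    (hw : dist o w + dist w x = dist o x) (how : 0 < dist o w) (hop : 0 < dist o p)
    (hox : dist o x ≤ R) (hopR : dist o p ≤ R) :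
    cvA κ (dist o w) (dist o p) (dist w p) ≤ cvA κ (dist o x) (dist o p) (dist x p) := by
  have hR0 : 0 < R := lt_of_lt_of_le hop hopR
  have hwR : dist o w ≤ R := by linarith [dist_nonneg (x := w) (y := x)]
  have hC := h.cmp p o x w hopR (by rw [dist_self]; exact hR0.le) hox hwR hw
  have h1 := cvA_mono h.sml how dist_nonneg (q := dist p o) (by rw [dist_comm]; exact hop)
    (by rw [hw]; linarith) (by rw [dist_comm]; linarith) hC
  rw [hw, dist_comm p o, dist_comm p x, dist_comm p w] at h1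
  exact h1

theorem LB.adj_ang {o : M} (h : LB M κ o R) {p x y : M}
    (hxy : dist x o + dist o y = dist x y) (hox : 0 < dist o x) (hoy : 0 < dist o y)
    (hop : 0 < dist o p) (hoxR : dist o x ≤ R) (hoyR : dist o y ≤ R) (hopR : dist o p ≤ R) :
    cang κ (dist o x) (dist o p) (dist x p) + cang κ (dist o y) (dist o p) (dist y p) ≤ π := by
  have hR0 : 0 < R := lt_of_lt_of_le hop hopR
  have hC := h.cmp p x y o hopR hoxR hoyR (by rw [dist_self]; exact hR0.le) hxy
  have h1 := cvA_adj h.sml (s := dist x o) (t := dist o y) (r := dist p o)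
    (by rw [dist_comm]; exact hox) hoy (by rw [dist_comm]; exact hop)
    (by rw [dist_comm]; linarith) (by linarith) (by rw [dist_comm]; linarith) hC
  rw [cang_eq_arccos, cang_eq_arccos]
  apply arccos_add_le_pi
  rw [dist_comm x o, dist_comm p o, dist_comm p x, dist_comm p y] at h1
  exact h1

theorem LB.tri {o : M} (h : LB M κ o R) {z x y : M} {α β : ℝ}
    (hoz : 0 < dist o z) (hox : 0 < dist o x) (hoy : 0 < dist o y)
    (hozR : dist o z ≤ R) (hoxR : dist o x ≤ R) (hoyR : dist o y ≤ R)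
    (hα : ∀ c b, dist o c + dist c z = dist o z → dist o b + dist b x = dist o x →
      0 < dist o c → 0 < dist o b → cang κ (dist o c) (dist o b) (dist c b) ≤ α)
    (hβ : ∀ c b, dist o c + dist c z = dist o z → dist o b + dist b y = dist o y →
      0 < dist o c → 0 < dist o b → cang κ (dist o c) (dist o b) (dist c b) ≤ β) :
    cang κ (dist o x) (dist o y) (dist x y) ≤ α + β := by
  have cnn : ∀ a b c, 0 ≤ cang κ a b c := by
    intro a b c; rw [cang_eq_arccos]; exact Real.arccos_nonneg _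
  have hα0 : 0 ≤ α := (cnn _ _ _).trans (hα z x (by simp) (by simp) hoz hox)
  have hβ0 : 0 ≤ β := (cnn _ _ _).trans (hβ z y (by simp) (by simp) hoz hoy)
  rcases le_or_gt π (α + β) with hπ | hπ
  · rw [cang_eq_arccos]; exact (Real.arccos_le_pi _).trans hπ
  obtain ⟨l, D₂, D₃, hl, hD₂, hD₃, e₂, e₃, e₂₃⟩ := planar_split hα0 hβ0 hπ
  have hRp : 0 < R := lt_of_lt_of_le hoz hozR
  obtain ⟨m, hm⟩ : ∃ m, m = min (dist o z / l) (min (dist o x) (dist o y)) := ⟨_, rfl⟩
  have hm0 : 0 < m := by rw [hm]; exact lt_min (by positivity) (lt_min hox hoy)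
  have hmz : l * m ≤ dist o z := by
    have : m ≤ dist o z / l := by rw [hm]; exact min_le_left _ _
    rw [le_div_iff₀ hl] at this; linarith
  have hmx : m ≤ dist o x := by rw [hm]; exact (min_le_right _ _).trans (min_le_left _ _)
  have hmy : m ≤ dist o y := by rw [hm]; exact (min_le_right _ _).trans (min_le_right _ _)
  let ρ : ℕ → ℝ := fun n => m * (1 / ((n : ℝ) + 1))
  have hρ0 : ∀ n, 0 < ρ n := fun n => by positivity
  have hρm : ∀ n, ρ n ≤ m := by
    intro n
    have : 1 / ((n : ℝ) + 1) ≤ 1 := by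
      rw [div_le_one (by positivity)]; linarith [Nat.cast_nonneg (α := ℝ) n]
    calc m * (1 / ((n : ℝ) + 1)) ≤ m * 1 := mul_le_mul_of_nonneg_left this hm0.le
      _ = m := mul_one m
  have hρt : Tendsto ρ atTop (𝓝 0) := by
    have := (tendsto_one_div_add_atTop_nhds_zero_nat (𝕜 := ℝ)).const_mul m
    rwa [mul_zero] at this
  have ex1 : ∀ n, ∃ c, dist o c = l * ρ n ∧ dist c z = dist o z - l * ρ n := fun n =>
    h.geo z hozR _ _ (by have := hρ0 n; positivity)
      (by linarith only [mul_le_mul_of_nonneg_left (hρm n) hl.le, hmz]) (by ring)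
  have ex2 : ∀ n, ∃ b, dist o b = ρ n ∧ dist b x = dist o x - ρ n := fun n =>
    h.geo x hoxR _ _ (hρ0 n).le (by linarith [hρm n]) (by ring)
  have ex3 : ∀ n, ∃ b, dist o b = ρ n ∧ dist b y = dist o y - ρ n := fun n =>
    h.geo y hoyR _ _ (hρ0 n).le (by linarith [hρm n]) (by ring)
  choose c hc1 hc2 using ex1
  choose b hb1 hb2 using ex2
  choose d hd1 hd2 using ex3
  let F : ℕ → ℝ × ℝ × ℝ := fun n => (dist (c n) (b n) / ρ n, dist (c n) (d n) / ρ n,
    dist (b n) (d n) / ρ n)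
  have hF : ∀ n, F n ∈ Set.Icc (0:ℝ) (l + 1) ×ˢ (Set.Icc (0:ℝ) (l + 1) ×ˢ Set.Icc (0:ℝ) 2) := by
    intro n
    have hρn := hρ0 n
    refine ⟨⟨by positivity, ?_⟩, ⟨by positivity, ?_⟩, ⟨by positivity, ?_⟩⟩
    · show dist (c n) (b n) / ρ n ≤ l + 1
      rw [div_le_iff₀ hρn]
      have := dist_triangle (c n) o (b n)
      rw [dist_comm (c n) o, hc1, hb1] at this; linarith
    · show dist (c n) (d n) / ρ n ≤ l + 1
      rw [div_le_iff₀ hρn]
      have := dist_triangle (c n) o (d n)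
      rw [dist_comm (c n) o, hc1, hd1] at this; linarith
    · show dist (b n) (d n) / ρ n ≤ 2
      rw [div_le_iff₀ hρn]
      have := dist_triangle (b n) o (d n)
      rw [dist_comm (b n) o, hb1, hd1] at this; linarith
  obtain ⟨⟨ξ, η, ζ⟩, -, φ, hφ, hlim⟩ :=
    (isCompact_Icc.prod (isCompact_Icc.prod isCompact_Icc)).tendsto_subseq hF
  have hl1 : Tendsto (fun n => dist (c (φ n)) (b (φ n)) / ρ (φ n)) atTop (𝓝 ξ) :=
    (continuous_fst.tendsto _).comp hlim
  have hl2 : Tendsto (fun n => dist (c (φ n)) (d (φ n)) / ρ (φ n)) atTop (𝓝 η) :=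
    ((continuous_fst.comp continuous_snd).tendsto _).comp hlim
  have hl3 : Tendsto (fun n => dist (b (φ n)) (d (φ n)) / ρ (φ n)) atTop (𝓝 ζ) :=
    ((continuous_snd.comp continuous_snd).tendsto _).comp hlim
  have hρφ : Tendsto (fun n => ρ (φ n)) atTop (𝓝 0) := hρt.comp hφ.tendsto_atTop
  have hρne : ∀ n, ρ (φ n) ≠ 0 := fun n => (hρ0 _).ne'
  have q1 : cos α ≤ (l ^ 2 + 1 ^ 2 - ξ ^ 2) / (2 * l * 1) := by
    refine ge_of_tendsto (tendsto_cvA (κ := κ) hl one_pos hρφ hρne hl1) (Eventually.of_forall ?_)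
    intro n
    have h1 := hα (c (φ n)) (b (φ n)) (by rw [hc1, hc2]; ring) (by rw [hb1, hb2]; ring)
      (by rw [hc1]; have := hρ0 (φ n); positivity) (by rw [hb1]; exact hρ0 _)
    rw [hc1, hb1, cang_eq_arccos] at h1
    rw [one_mul, div_mul_cancel₀ _ (hρne n)]
    have hρn := hρ0 (φ n)
    refine cos_le_of_arccos_le ?_ (by linarith) h1
    refine cvA_ge h.sml (by positivity) hρn dist_nonneg ?_ ?_ ?_
    · have := dist_triangle (c (φ n)) o (b (φ n))
      rw [dist_comm (c (φ n)) o, hc1, hb1] at this; exact this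
    · linarith only [mul_le_mul_of_nonneg_left (hρm (φ n)) hl.le, hmz, hRp, hozR]
    · linarith [hρm (φ n)]
  have q2 : cos β ≤ (l ^ 2 + 1 ^ 2 - η ^ 2) / (2 * l * 1) := by
    refine ge_of_tendsto (tendsto_cvA (κ := κ) hl one_pos hρφ hρne hl2) (Eventually.of_forall ?_)
    intro n
    have h1 := hβ (c (φ n)) (d (φ n)) (by rw [hc1, hc2]; ring) (by rw [hd1, hd2]; ring)
      (by rw [hc1]; have := hρ0 (φ n); positivity) (by rw [hd1]; exact hρ0 _)
    rw [hc1, hd1, cang_eq_arccos] at h1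
    rw [one_mul, div_mul_cancel₀ _ (hρne n)]
    have hρn := hρ0 (φ n)
    refine cos_le_of_arccos_le ?_ (by linarith) h1
    refine cvA_ge h.sml (by positivity) hρn dist_nonneg ?_ ?_ ?_
    · have := dist_triangle (c (φ n)) o (d (φ n))
      rw [dist_comm (c (φ n)) o, hc1, hd1] at this; exact this
    · linarith only [mul_le_mul_of_nonneg_left (hρm (φ n)) hl.le, hmz, hRp, hozR]
    · linarith [hρm (φ n)]
  have q3 : (1 ^ 2 + 1 ^ 2 - ζ ^ 2) / (2 * 1 * 1) ≤ cvA κ (dist o x) (dist o y) (dist x y) := by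
    refine le_of_tendsto (tendsto_cvA (κ := κ) one_pos one_pos hρφ hρne hl3)
      (Eventually.of_forall ?_)
    intro n
    have hρn := hρ0 (φ n)
    rw [one_mul, div_mul_cancel₀ _ (hρne n)]
    have m1 := h.mono_cv (p := y) (x := x) (w := b (φ n))
      (by rw [hb1, hb2]; ring) (by rw [hb1]; exact hρn) hoy hoxR hoyR
    have m2 := h.mono_cv (p := b (φ n)) (x := y) (w := d (φ n))
      (by rw [hd1, hd2]; ring) (by rw [hd1]; exact hρn) (by rw [hb1]; exact hρn) hoyR
      (by rw [hb1]; linarith [hρm (φ n)])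
    rw [hb1] at m1 m2
    rw [hd1, dist_comm (d (φ n)), dist_comm y (b (φ n)), cvA_comm κ (dist o y)] at m2
    exact m2.trans m1
  have q4 : ζ ≤ ξ + η := by
    refine le_of_tendsto_of_tendsto' hl3 (hl1.add hl2) ?_
    intro n
    have hρn := hρ0 (φ n)
    rw [← add_div]
    apply div_le_div_of_nonneg_right _ hρn.le
    have := dist_triangle (b (φ n)) (c (φ n)) (d (φ n))
    rw [dist_comm (b (φ n)) (c (φ n))] at this
    exact this
  have hξ0 : 0 ≤ ξ := ge_of_tendsto' hl1 fun n => by have := hρ0 (φ n); positivity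
  have hη0 : 0 ≤ η := ge_of_tendsto' hl2 fun n => by have := hρ0 (φ n); positivity
  have hζ0 : 0 ≤ ζ := ge_of_tendsto' hl3 fun n => by have := hρ0 (φ n); positivity
  have r1 : ξ ≤ D₂ := by
    rw [le_div_iff₀ (by positivity)] at q1
    apply abs_le_of_sq_le_sq' _ hD₂ |>.2
    linarith only [q1, e₂]
  have r2 : η ≤ D₃ := by
    rw [le_div_iff₀ (by positivity)] at q2
    apply abs_le_of_sq_le_sq' _ hD₃ |>.2
    linarith only [q2, e₃]
  have r3 : ζ ≤ 2 * sin ((α + β) / 2) := by linarith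
  have r4 : cos (α + β) ≤ cvA κ (dist o x) (dist o y) (dist x y) := by
    refine le_trans ?_ q3
    have e : cos (α + β) = 1 - 2 * sin ((α + β) / 2) ^ 2 := by
      have : α + β = 2 * ((α + β) / 2) := by ring
      rw [this, Real.cos_two_mul, Real.cos_sq']
      have : 2 * ((α + β) / 2) / 2 = (α + β) / 2 := by ring
      rw [this]; ring
    rw [e]
    have : ζ ^ 2 ≤ (2 * sin ((α + β) / 2)) ^ 2 := pow_le_pow_left₀ hζ0 r3 2
    linarith only [this]
  rw [cang_eq_arccos]
  have := Real.antitone_arccos r4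
  rwa [Real.arccos_cos (by linarith) hπ.le] at this

theorem LB.sum_at {o : M} (h : LB M κ o R) {z x₁ x₂ x₃ : M}
    (hb : dist z o + dist o x₁ = dist z x₁)
    (hoz : 0 < dist o z) (ho1 : 0 < dist o x₁) (ho2 : 0 < dist o x₂) (ho3 : 0 < dist o x₃)
    (hozR : dist o z ≤ R) (ho1R : dist o x₁ ≤ R) (ho2R : dist o x₂ ≤ R) (ho3R : dist o x₃ ≤ R) :
    cang κ (dist o x₁) (dist o x₂) (dist x₁ x₂) + cang κ (dist o x₂) (dist o x₃) (dist x₂ x₃)
      + cang κ (dist o x₁) (dist o x₃) (dist x₁ x₃) ≤ 2 * π := by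
  have key : ∀ x, 0 < dist o x → dist o x ≤ R → ∃ α,
      (∀ c b, dist o c + dist c z = dist o z → dist o b + dist b x = dist o x →
        0 < dist o c → 0 < dist o b → cang κ (dist o c) (dist o b) (dist c b) ≤ α) ∧
      cang κ (dist o x₁) (dist o x) (dist x₁ x) ≤ π - α := by
    intro x hx hxR
    let S : Set ℝ := {θ | ∃ c b, dist o c + dist c z = dist o z ∧ dist o b + dist b x = dist o x ∧
        0 < dist o c ∧ 0 < dist o b ∧ θ = cang κ (dist o c) (dist o b) (dist c b)}
    have hne : S.Nonempty := ⟨_, z, x, by simp, by simp, hoz, hx, rfl⟩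
    have hub : ∀ θ ∈ S, θ ≤ π - cang κ (dist o x₁) (dist o x) (dist x₁ x) := by
      rintro θ ⟨c, b, hc, hbx, hc0, hb0, rfl⟩
      have hcz : dist o c ≤ dist o z := by linarith [dist_nonneg (x := c) (y := z)]
      have hbx' : dist o b ≤ dist o x := by linarith [dist_nonneg (x := b) (y := x)]
      have h1 : dist c o + dist o x₁ = dist c x₁ := by
        apply le_antisymm
        · have := dist_triangle z c x₁
          rw [dist_comm z c] at this
          rw [dist_comm z o] at hb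
          rw [dist_comm c o]
          linarith
        · exact dist_triangle c o x₁
      have h2 := h.adj_ang (p := b) (x := c) (y := x₁) h1 hc0 ho1 hb0
        (by linarith) ho1R (by linarith)
      have h3 := h.mono_cv (p := x₁) (x := x) (w := b) hbx hb0 ho1 hxR ho1R
      have h4 := Real.antitone_arccos h3
      rw [← cang_eq_arccos, ← cang_eq_arccos, cang_comm κ (dist o x), cang_comm κ (dist o b),
        dist_comm x x₁, dist_comm b x₁] at h4
      linarith
    have hbdd : BddAbove S := ⟨_, hub⟩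
    refine ⟨sSup S, ?_, ?_⟩
    · intro c b hc hbx hc0 hb0
      exact le_csSup hbdd ⟨c, b, hc, hbx, hc0, hb0, rfl⟩
    · have := csSup_le hne hub
      linarith
  obtain ⟨α, hα, hα'⟩ := key x₂ ho2 ho2R
  obtain ⟨β, hβ, hβ'⟩ := key x₃ ho3 ho3R
  have := h.tri hoz ho2 ho3 hozR ho2R ho3R hα hβ
  linarith

theorem LC.angle_sum {ρ : ℝ} {o : M} (h : LC M κ o ρ) {z x₁ x₂ x₃ : M}
    (hz : z ∈ ball o (ρ / 8)) (h₁ : x₁ ∈ ball o (ρ / 8)) (h₂ : x₂ ∈ ball o (ρ / 8))
    (h₃ : x₃ ∈ ball o (ρ / 8)) (n1 : z ≠ x₁) (n2 : z ≠ x₂) (n3 : z ≠ x₃) :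
    cang κ (dist z x₁) (dist z x₂) (dist x₁ x₂) + cang κ (dist z x₂) (dist z x₃) (dist x₂ x₃)
      + cang κ (dist z x₁) (dist z x₃) (dist x₁ x₃) ≤ 2 * π := by
  have hρ := h.pos
  have hr : Sml κ (ρ / 2) := Sml.mono' h.sml (by linarith)
  have d1 := dist_lt_of_mem_ball hz h₁
  have d2 := dist_lt_of_mem_ball hz h₂
  have d3 := dist_lt_of_mem_ball hz h₃
  have p1 : 0 < dist z x₁ := dist_pos.2 n1
  have p2 : 0 < dist z x₂ := dist_pos.2 n2
  have p3 : 0 < dist z x₃ := dist_pos.2 n3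
  have hsub : ball o (ρ / 8) ⊆ ball o ρ := ball_subset_ball (by linarith)
  have ex : ∀ n : ℕ, ∃ w, dist z w = dist z x₁ * (1 / ((n : ℝ) + 1 + 1)) ∧
      dist w x₁ = dist z x₁ - dist z x₁ * (1 / ((n : ℝ) + 1 + 1)) := by
    intro n
    have : 1 / ((n : ℝ) + 1 + 1) ≤ 1 := by
      rw [div_le_one (by positivity)]; linarith [Nat.cast_nonneg (α := ℝ) n]
    exact h.geo z (hsub hz) x₁ (hsub h₁) _ _ (by positivity)
      (by linarith only [mul_le_mul_of_nonneg_left this p1.le]) (by ring)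
  choose w hw1 hw2 using ex
  have hε : Tendsto (fun n : ℕ => dist z x₁ * (1 / ((n : ℝ) + 1 + 1))) atTop (𝓝 0) := by
    have h1 := (tendsto_one_div_add_atTop_nhds_zero_nat (𝕜 := ℝ)).comp (tendsto_add_atTop_nat 1)
    have h2 := h1.const_mul (dist z x₁)
    rw [mul_zero] at h2
    refine h2.congr fun n => ?_
    simp [Function.comp]
  have hwz : Tendsto (fun n => dist z (w n)) atTop (𝓝 0) := by
    simpa only [hw1] using hε
  have hwt : Tendsto w atTop (𝓝 z) := by
    rw [tendsto_iff_dist_tendsto_zero]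
    simpa only [dist_comm] using hwz
  have t1 : Tendsto (fun n => dist (w n) x₁) atTop (𝓝 (dist z x₁)) :=
    hwt.dist tendsto_const_nhds
  have t2 : Tendsto (fun n => dist (w n) x₂) atTop (𝓝 (dist z x₂)) :=
    hwt.dist tendsto_const_nhds
  have t3 : Tendsto (fun n => dist (w n) x₃) atTop (𝓝 (dist z x₃)) :=
    hwt.dist tendsto_const_nhds
  have T := ((tendsto_cang (κ := κ) (c := dist x₁ x₂) hr p1 p2 (by linarith) (by linarith) t1 t2).add
    (tendsto_cang (κ := κ) (c := dist x₂ x₃) hr p2 p3 (by linarith) (by linarith) t2 t3)).add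
    (tendsto_cang (κ := κ) (c := dist x₁ x₃) hr p1 p3 (by linarith) (by linarith) t1 t3)
  refine le_of_tendsto T ?_
  filter_upwards [t2.eventually (lt_mem_nhds p2), t3.eventually (lt_mem_nhds p3)] with n e2 e3
  have hlt : 1 / ((n : ℝ) + 1 + 1) < 1 := by
    rw [div_lt_one (by positivity)]; linarith [Nat.cast_nonneg (α := ℝ) n]
  have hzw : dist z (w n) < dist z x₁ := by
    rw [hw1]; exact mul_lt_of_lt_one_right p1 hlt
  have hzw0 : 0 < dist z (w n) := by rw [hw1]; positivity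
  have tr : ∀ x, dist z x < 2 * (ρ / 8) → dist (w n) x ≤ ρ / 2 := by
    intro x hx
    have := dist_triangle (w n) z x
    rw [dist_comm (w n) z] at this
    linarith
  have hq : dist o (w n) < 3 * ρ / 8 := by
    have := dist_triangle o z (w n)
    rw [mem_ball, dist_comm] at hz
    linarith
  refine (h.lb hq).sum_at (z := z) (by rw [hw1, hw2]; ring) (by rw [dist_comm]; exact hzw0)
    (by rw [hw2, ← hw1]; linarith) e2 e3 (by rw [dist_comm]; linarith) (tr _ d1) (tr _ d2) (tr _ d3)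

/-- Triangle comparison in a ball gives the `(1+3)`-point comparison in a smaller ball. -/
theorem LC.quadOn {κ ρ : ℝ} {o : M} (h : LC M κ o ρ) : QuadOn κ (ball o (ρ / 8)) := by
  intro p hp x hx y hy z hz n₁ n₂ n₃ _ _ _
  rw [ang_comm κ p z x]
  unfold ang
  rw [modelAngle_eq_cang, modelAngle_eq_cang, modelAngle_eq_cang]
  exact h.angle_sum hp hx hy hz n₁.symm n₂.symm n₃.symm

end Vale.Agent.P233Z
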