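import Vale.Agent.P233Z.A0

/-!
# P233Z: trigonometry of the model planes in terms of `sn`, `cs`, `md`
-/

open Real Set Topology Filter

namespace Vale.Agent.P233Z

open Vale.Agent.P233 Vale.Agent.P233.AB Vale.Agent.P233.H616

/-- a length `< π/√κ` -/
def Ad (κ r : ℝ) : Prop := √κ * r < π

theorem Ad.mono {κ r r' : ℝ} (h : Ad κ r) (hr : r' ≤ r) : Ad κ r' :=
  lt_of_le_of_lt (mul_le_mul_of_nonneg_left hr (Real.sqrt_nonneg _)) h

theorem Ad.sn_pos {κ t : ℝ} (h : Ad κ t) (ht : 0 < t) : 0 < sn κ t :=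
  H616.sn_pos ht fun _ => h

theorem Ad.sn_nonneg {κ t : ℝ} (h : Ad κ t) (ht : 0 ≤ t) : 0 ≤ sn κ t :=
  H616.sn_nonneg ht fun _ => le_of_lt h

theorem ad_of_sml {κ R r : ℝ} (h : Sml κ R) (hr : r ≤ 4 * R) : Ad κ r := by
  unfold Ad
  have hπ := Real.pi_pos
  rcases lt_or_ge 0 κ with hκ | hκ
  · have h1 := h hκ
    have h2 : √κ * r ≤ √κ * (4 * R) := mul_le_mul_of_nonneg_left hr (Real.sqrt_nonneg _)
    linarith
  · rw [Real.sqrt_eq_zero'.2 hκ, zero_mul]
    exact hπ

theorem Ad.exists_add {κ r : ℝ} (h : Ad κ r) : ∃ e > 0, Ad κ (r + e) := by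
  unfold Ad at *
  have h0 : 0 ≤ √κ := Real.sqrt_nonneg _
  refine ⟨(π - √κ * r) / (√κ + 1), div_pos (by linarith) (by linarith), ?_⟩
  have h1 : √κ * ((π - √κ * r) / (√κ + 1)) < π - √κ * r := by
    rw [← mul_div_assoc, div_lt_iff₀ (by linarith)]
    nlinarith
  linarith [mul_add (√κ) r ((π - √κ * r) / (√κ + 1))]

theorem md_add (κ a b : ℝ) :
    md κ (a + b) = md κ a + md κ b - κ * (md κ a * md κ b) + sn κ a * sn κ b := by
  have h := md_sub κ a (-b)
  rw [sub_neg_eq_add, md_neg, sn_neg] at h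
  rw [h]
  ring

theorem sn_sub (κ a b : ℝ) : sn κ (a - b) = sn κ a * cs κ b - cs κ a * sn κ b := by
  rw [sub_eq_add_neg, sn_add, sn_neg, cs_neg]
  ring

theorem sn_sq (κ a : ℝ) : sn κ a ^ 2 = 2 * md κ a - κ * md κ a ^ 2 := by
  have h := md_sub κ a a
  rw [sub_self, md_at_zero] at h
  linarith

theorem md_lt_md {κ a b : ℝ} (ha : 0 ≤ a) (hab : a < b) (hb : √κ * b ≤ π) : md κ a < md κ b := by
  have h : StrictMonoOn (md κ) (Icc 0 b) := by
    refine strictMonoOn_of_deriv_pos (convex_Icc 0 b) (continuous_md κ).continuousOn ?_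
    intro x hx
    rw [interior_Icc] at hx
    rw [(hasDerivAt_md κ x).deriv]
    refine H616.sn_pos hx.1 fun hκ => lt_of_lt_of_le ?_ hb
    exact mul_lt_mul_of_pos_left hx.2 (Real.sqrt_pos.2 hκ)
  exact h ⟨ha, hab.le⟩ ⟨ha.trans hab.le, le_rfl⟩ hab

theorem md_le_md {κ a b : ℝ} (ha : 0 ≤ a) (hab : a ≤ b) (hb : √κ * b ≤ π) : md κ a ≤ md κ b := by
  rcases hab.eq_or_lt with h | h
  · rw [h]
  · exact (md_lt_md ha h hb).le

theorem md_abs (κ a : ℝ) : md κ |a| = md κ a := by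
  rcases abs_choice a with h | h <;> rw [h]
  exact md_neg κ a

/-- `md` of the third side of the model triangle with the sides `a`, `b` and the cosine `u` of the
angle between them -/
noncomputable def mS (κ a b u : ℝ) : ℝ :=
  md κ a + md κ b - κ * (md κ a * md κ b) - sn κ a * sn κ b * u

theorem mS_comm (κ a b u : ℝ) : mS κ a b u = mS κ b a u := by
  unfold mS
  ring

theorem cvA_eq (κ a b c : ℝ) : cvA κ a b c =
    (md κ a + md κ b - κ * (md κ a * md κ b) - md κ c) / (sn κ a * sn κ b) := by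
  unfold cvA
  split_ifs with h1 h2
  · subst h1
    simp only [md_zero', sn_zero']
    rw [show 2 * a * b = 2 * (a * b) by ring, ← div_div, div_right_comm]
    rw [div_right_comm]
    congr 1
    ring
  · have hk : √κ * √κ = κ := Real.mul_self_sqrt h2.le
    simp only [md_pos' h2, sn_pos' h2]
    rw [div_mul_div_comm (sin _), hk, ← div_div_div_cancel_right₀ h1 (cos _ - _)]
    congr 1
    field_simp
    ring
  · have hκ : κ < 0 := lt_of_le_of_ne (not_lt.1 h2) h1
    have hk : √(-κ) * √(-κ) = -κ := Real.mul_self_sqrt (by linarith)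
    simp only [md_neg' hκ, sn_neg' hκ]
    rw [div_mul_div_comm (sinh _), hk,
      ← div_div_div_cancel_right₀ (neg_ne_zero.2 h1) (cosh _ * cosh _ - _)]
    congr 1
    field_simp
    ring

/-- the law of cosines -/
theorem mS_cvA {κ a b : ℝ} (c : ℝ) (ha : 0 < sn κ a) (hb : 0 < sn κ b) :
    mS κ a b (cvA κ a b c) = md κ c := by
  unfold mS
  rw [cvA_eq, mul_div_cancel₀ _ (mul_pos ha hb).ne']
  ring

theorem mS_anti {κ a b u v : ℝ} (ha : 0 ≤ sn κ a) (hb : 0 ≤ sn κ b) (h : u ≤ v) :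
    mS κ a b v ≤ mS κ a b u := by
  unfold mS
  have := mul_le_mul_of_nonneg_left h (mul_nonneg ha hb)
  linarith

theorem le_cvA_iff {κ a b c u : ℝ} (ha : 0 < sn κ a) (hb : 0 < sn κ b) :
    u ≤ cvA κ a b c ↔ md κ c ≤ mS κ a b u := by
  rw [cvA_eq, le_div_iff₀ (mul_pos ha hb)]
  unfold mS
  constructor <;> intro h <;> linarith

theorem cvA_le_iff {κ a b c u : ℝ} (ha : 0 < sn κ a) (hb : 0 < sn κ b) :
    cvA κ a b c ≤ u ↔ mS κ a b u ≤ md κ c := by
  rw [cvA_eq, div_le_iff₀ (mul_pos ha hb)]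
  unfold mS
  constructor <;> intro h <;> linarith

theorem mS_neg_one (κ a b : ℝ) : mS κ a b (-1) = md κ (a + b) := by
  rw [md_add]
  unfold mS
  ring

theorem mS_one (κ a b : ℝ) : mS κ a b 1 = md κ (a - b) := by
  rw [md_sub]
  unfold mS
  ring

theorem cvA_add {κ s t : ℝ} (hs : 0 < sn κ s) (ht : 0 < sn κ t) : cvA κ s t (s + t) = -1 :=
  le_antisymm ((cvA_le_iff hs ht).2 (mS_neg_one κ s t).le) ((le_cvA_iff hs ht).2 (mS_neg_one κ s t).ge)

/-- the perimeter is `≤ 2π/√κ` -/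
theorem neg_one_le_cvA {κ a b c : ℝ} (ha : 0 < sn κ a) (hb : 0 < sn κ b) (hc : 0 ≤ c)
    (hcab : c ≤ a + b) (hp : √κ * (a + b + c) ≤ 2 * π) : -1 ≤ cvA κ a b c := by
  rw [le_cvA_iff ha hb, mS_neg_one]
  rcases le_total (√κ * (a + b)) π with h | h
  · exact md_le_md hc hcab h
  · have hκ : 0 < κ := by
      by_contra hκ
      rw [Real.sqrt_eq_zero'.2 (not_lt.1 hκ), zero_mul] at h
      linarith [Real.pi_pos]
    have h0 : 0 ≤ √κ * c := mul_nonneg (Real.sqrt_nonneg _) hc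
    rw [md_pos' hκ, md_pos' hκ]
    refine div_le_div_of_nonneg_right ?_ hκ.le
    have h1 : cos (√κ * (a + b)) = cos (2 * π - √κ * (a + b)) := by
      rw [Real.cos_two_pi_sub]
    have h2 : √κ * (a + b + c) = √κ * (a + b) + √κ * c := by ring
    have h3 : cos (2 * π - √κ * (a + b)) ≤ cos (√κ * c) :=
      Real.cos_le_cos_of_nonneg_of_le_pi h0 (by linarith) (by linarith)
    linarith

theorem cvA_le_one {κ a b c : ℝ} (ha : 0 < sn κ a) (hb : 0 < sn κ b) (hc : |a - b| ≤ c)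
    (hp : √κ * c ≤ π) : cvA κ a b c ≤ 1 := by
  rw [cvA_le_iff ha hb, mS_one, ← md_abs]
  exact md_le_md (abs_nonneg _) hc hp

theorem cvA_lt_one {κ a b c : ℝ} (ha : 0 < sn κ a) (hb : 0 < sn κ b) (hc : |a - b| < c)
    (hp : √κ * c ≤ π) : cvA κ a b c < 1 := by
  by_contra h
  rw [not_lt, le_cvA_iff ha hb, mS_one, ← md_abs κ (a - b)] at h
  exact absurd (md_lt_md (abs_nonneg _) hc hp) (not_lt.2 h)

/-- joint continuity of the comparison cosine -/
theorem tendsto_cvA3 {ι : Type*} {l : Filter ι} {κ a b c : ℝ} {u v w : ι → ℝ}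
    (ha : 0 < sn κ a) (hb : 0 < sn κ b) (hu : Tendsto u l (𝓝 a)) (hv : Tendsto v l (𝓝 b))
    (hw : Tendsto w l (𝓝 c)) :
    Tendsto (fun i => cvA κ (u i) (v i) (w i)) l (𝓝 (cvA κ a b c)) := by
  simp only [cvA_eq]
  have m1 := ((continuous_md κ).tendsto a).comp hu
  have m2 := ((continuous_md κ).tendsto b).comp hv
  have m3 := ((continuous_md κ).tendsto c).comp hw
  have s1 := ((continuous_sn κ).tendsto a).comp hu
  have s2 := ((continuous_sn κ).tendsto b).comp hv
  exact (((m1.add m2).sub ((m1.mul m2).const_mul κ)).sub m3).div (s1.mul s2) (mul_pos ha hb).ne'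

/-- triangle comparison in terms of `md` -/
theorem cmp_iff (κ a b s t r : ℝ) : T.Cmp κ a b s t r ↔
    sn κ t * (md κ a - md κ s) + sn κ s * (md κ b - md κ t) ≤ sn κ (s + t) * md κ r := by
  unfold T.Cmp
  rcases lt_trichotomy κ 0 with h | h | h
  · have hk : 0 < √(-κ) := Real.sqrt_pos.2 (by linarith)
    simp only [md_neg' h, sn_neg' h, h.ne, h.le.not_gt, h, IsEmpty.forall_iff, true_and,
      forall_const]
    have e : sinh (√(-κ) * (s + t)) = sinh (√(-κ) * s) * cosh (√(-κ) * t)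
        + cosh (√(-κ) * s) * sinh (√(-κ) * t) := by rw [mul_add, Real.sinh_add]
    have hc : 0 < √(-κ) * -κ := mul_pos hk (by linarith)
    rw [← sub_nonneg, ← sub_nonneg (a := sinh _ / _ * _)]
    have e2 : sinh (√(-κ) * (s + t)) / √(-κ) * ((1 - cosh (√(-κ) * r)) / κ) -
        (sinh (√(-κ) * t) / √(-κ) * ((1 - cosh (√(-κ) * a)) / κ - (1 - cosh (√(-κ) * s)) / κ) +
          sinh (√(-κ) * s) / √(-κ) * ((1 - cosh (√(-κ) * b)) / κ - (1 - cosh (√(-κ) * t)) / κ)) =
        (sinh (√(-κ) * (s + t)) * cosh (√(-κ) * r) -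
          (sinh (√(-κ) * t) * cosh (√(-κ) * a) + sinh (√(-κ) * s) * cosh (√(-κ) * b))) /
          (√(-κ) * -κ) := by
      rw [e]
      have := h.ne
      field_simp
      ring
    rw [e2, le_div_iff₀ hc, zero_mul]
  · subst h
    simp only [md_zero', sn_zero', lt_self_iff_false, IsEmpty.forall_iff, and_true, forall_const]
    constructor <;> intro h <;> linarith
  · have hk : 0 < √κ := Real.sqrt_pos.2 h
    simp only [md_pos' h, sn_pos' h, h.ne', h.le.not_gt, h, IsEmpty.forall_iff, true_and,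
      forall_const, and_true]
    have e : sin (√κ * (s + t)) = sin (√κ * s) * cos (√κ * t)
        + cos (√κ * s) * sin (√κ * t) := by rw [mul_add, Real.sin_add]
    have hc : 0 < √κ * κ := mul_pos hk h
    rw [← sub_nonneg, ← sub_nonneg (a := sin _ / _ * _)]
    have e2 : sin (√κ * (s + t)) / √κ * ((1 - cos (√κ * r)) / κ) -
        (sin (√κ * t) / √κ * ((1 - cos (√κ * a)) / κ - (1 - cos (√κ * s)) / κ) +
          sin (√κ * s) / √κ * ((1 - cos (√κ * b)) / κ - (1 - cos (√κ * t)) / κ)) =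
        (sin (√κ * t) * cos (√κ * a) + sin (√κ * s) * cos (√κ * b) -
          sin (√κ * (s + t)) * cos (√κ * r)) / (√κ * κ) := by
      rw [e]
      have := h.ne'
      field_simp
      ring
    rw [e2, le_div_iff₀ hc, zero_mul]

/-- comparison from two hinges whose cosines have a nonnegative sum -/
theorem cmp_of_mS {κ a b s t r u v : ℝ} (hs : 0 ≤ sn κ s) (ht : 0 ≤ sn κ t) (hr : 0 ≤ sn κ r)
    (h1 : md κ a ≤ mS κ s r u) (h2 : md κ b ≤ mS κ t r v) (huv : 0 ≤ u + v) :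
    T.Cmp κ a b s t r := by
  rw [cmp_iff, sn_add, cs_eq, cs_eq]
  unfold mS at h1 h2
  have f1 := mul_le_mul_of_nonneg_left h1 ht
  have f2 := mul_le_mul_of_nonneg_left h2 hs
  have f3 := mul_nonneg (mul_nonneg (mul_nonneg hs ht) hr) huv
  linarith

/-- comparison gives adjacent comparison angles with the sum `≤ π` -/
theorem adj_of_cmp {κ a b s t r : ℝ} (hs : 0 < sn κ s) (ht : 0 < sn κ t) (hr : 0 < sn κ r)
    (h : T.Cmp κ a b s t r) : 0 ≤ cvA κ s r a + cvA κ t r b := by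
  rw [cmp_iff, sn_add, cs_eq, cs_eq] at h
  have h1 := mS_cvA a hs hr
  have h2 := mS_cvA b ht hr
  unfold mS at h1 h2
  have hp : 0 < sn κ s * sn κ t * sn κ r := mul_pos (mul_pos hs ht) hr
  by_contra hc
  have f := mul_neg_of_pos_of_neg hp (not_le.1 hc)
  have g1 : sn κ t * md κ a = sn κ t * (md κ s + md κ r - κ * (md κ s * md κ r) -
      sn κ s * sn κ r * cvA κ s r a) := by rw [h1]
  have g2 : sn κ s * md κ b = sn κ s * (md κ t + md κ r - κ * (md κ t * md κ r) -
      sn κ t * sn κ r * cvA κ t r b) := by rw [h2]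
  linarith

/-- the model identity: extending the side `s` of a model triangle to `s + t` -/
theorem mS_extend {κ q s t r u : ℝ} (hr : md κ r = mS κ s q u) :
    sn κ s * mS κ (s + t) q u =
      sn κ (s + t) * md κ r - sn κ t * (md κ q - md κ s) + sn κ s * md κ t := by
  rw [hr]
  unfold mS
  rw [md_add, sn_add, cs_eq, cs_eq]
  have h := sn_sq κ s
  linear_combination (sn κ t * (1 - κ * md κ q)) * h

/-- comparison gives the monotonicity of comparison angles -/
theorem mono_of_cmp {κ q b s t r : ℝ} (hs : 0 < sn κ s) (hst : 0 < sn κ (s + t))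
    (hq : 0 < sn κ q) (h : T.Cmp κ q b s t r) : cvA κ s q r ≤ cvA κ (s + t) q b := by
  rw [le_cvA_iff hst hq]
  rw [cmp_iff] at h
  have h1 := mS_extend (t := t) (mS_cvA r hs hq).symm
  refine le_of_mul_le_mul_left ?_ hs
  rw [h1]
  linarith

end Vale.Agent.P233Z
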