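import Vale.Agent.P233Z.Defs
import Vale.Agent.P233.H939.OneStep
import Mathlib.MeasureTheory.Measure.RegularityCompacts

/-!
# The Brunn-Minkowski inequality from the weak form of `CD(K,N)`

The proofs follow `P233/H939/BM.lean` and `P233/H939/BMp.lean`.
-/

set_option linter.all false

open MeasureTheory Set Metric ProbabilityTheory Filter Topology
open scoped ENNReal NNReal

universe u

namespace Vale.Agent.P233Z

open Vale.Agent.P242 Vale.Agent.P242.H124 Vale.Agent.P233.H227.Ch Vale.Agent.P233.H939.BM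

variable {X : Type u} [MetricSpace X] [CompleteSpace X] [SecondCountableTopology X]
  [MeasurableSpace X] [BorelSpace X]

/-- the Brunn-Minkowski inequality for bounded Borel sets -/
def BMI (m : Measure X) (K N : ℝ) : Prop :=
  ∀ ⦃A₀ A₁ : Set X⦄, MeasurableSet A₀ → MeasurableSet A₁ → ∀ ⦃x : X⦄ ⦃R : ℝ⦄, A₀ ⊆ ball x R →
    A₁ ⊆ ball x R → m A₀ ≠ 0 → m A₁ ≠ 0 → m A₀ ≠ ∞ → m A₁ ≠ ∞ → ∀ ⦃t κ : ℝ⦄, 0 < t → t < 1 →
    0 < κ → ∀ ⦃c₀ c₁ : ℝ≥0∞⦄, (∀ x ∈ A₀, ∀ y ∈ A₁, c₀ ≤ sigmaCoeff K N (1 - t) (dist x y)) →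
    (∀ x ∈ A₀, ∀ y ∈ A₁, c₁ ≤ sigmaCoeff K N t (dist x y)) →
    c₀ * m A₀ ^ (1 / N) + c₁ * m A₁ ^ (1 / N) ≤ m (midSet A₀ A₁ t κ) ^ (1 / N)

theorem sigma_pow_ge {K N t θ : ℝ} (hN : 1 < N) (ht0 : 0 ≤ t) (ht1 : t ≤ 1) (hθ : 0 ≤ θ) :
    ENNReal.ofReal (t ^ N * Real.exp ((1 - t ^ 2) * (K * θ ^ 2) / 6)) ≤
      sigmaCoeff K N t θ ^ N := by
  have hN0 : 0 < N := by linarith
  refine le_trans (le_of_eq ?_) (ENNReal.rpow_le_rpow (sigma_ge_exp (K := K) hN0 ht0 ht1 hθ) hN0.le)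
  rw [ENNReal.ofReal_rpow_of_nonneg (by positivity) hN0.le, Real.mul_rpow ht0 (Real.exp_pos _).le,
    ← Real.exp_mul]
  congr 3
  field_simp

theorem sigma_pow_lower {K N Q : ℝ} (hN : 1 < N) (hQ0 : 0 < Q) (hQ : Q < 1) :
    ∃ θ₀ : ℝ, 0 < θ₀ ∧ ∀ θ, 0 ≤ θ → θ ≤ θ₀ → ∀ t, 0 < t → t ≤ 1 →
      ENNReal.ofReal (Q * t ^ N) ≤ sigmaCoeff K N t θ ^ N := by
  have hl : 0 < -Real.log Q := neg_pos.2 (Real.log_neg hQ0 hQ)
  have hK : 0 < |K| + 1 := by positivity
  refine ⟨√(-Real.log Q / (|K| + 1)), Real.sqrt_pos.2 (by positivity), fun θ h0 h1 t ht0 ht1 => ?_⟩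
  refine le_trans (ENNReal.ofReal_le_ofReal ?_) (sigma_pow_ge (K := K) hN ht0.le ht1 h0)
  rw [mul_comm]
  refine mul_le_mul_of_nonneg_left ?_ (by positivity)
  rw [← Real.exp_log hQ0]
  refine Real.exp_le_exp.2 ?_
  have h2 : θ ^ 2 ≤ -Real.log Q / (|K| + 1) := by
    have := pow_le_pow_left₀ h0 h1 2
    rwa [Real.sq_sqrt (by positivity)] at this
  rw [le_div_iff₀ hK] at h2
  have h3 : -|K| * θ ^ 2 ≤ K * θ ^ 2 := mul_le_mul_of_nonneg_right (neg_abs_le K) (by positivity)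
  have h4 : 0 ≤ 1 - t ^ 2 := by nlinarith
  have h5 : 0 ≤ |K| * θ ^ 2 := by positivity
  have h6 := mul_le_mul_of_nonneg_left h3 h4
  have h7 : 0 ≤ t ^ 2 * (|K| * θ ^ 2) := by positivity
  nlinarith [sq_nonneg θ]

theorem unif_le {m : Measure X} {A B : Set X} (h0 : m A ≠ 0) (hAB : A ⊆ B) {C : ℝ≥0}
    (hC : (m A)⁻¹.toNNReal ≤ C) : unif m A ≤ C • m.restrict B := by
  intro s
  rw [unif, Measure.smul_apply, Measure.smul_apply, smul_eq_mul, ENNReal.smul_def, smul_eq_mul]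
  refine mul_le_mul' ?_ (Measure.restrict_mono hAB le_rfl s)
  rw [← ENNReal.coe_toNNReal (ENNReal.inv_ne_top.2 h0)]
  exact ENNReal.coe_le_coe.2 hC

theorem bm_compact {m : Measure X} [SigmaFinite m] {K N : ℝ}
    (hCD : IsCDb K N m) (hN : 1 < N) {A₀ A₁ : Set X} (hK₀ : IsCompact A₀)
    (hK₁ : IsCompact A₁) {x : X} {R : ℝ} (hs0 : A₀ ⊆ ball x R) (hs1 : A₁ ⊆ ball x R)
    (h0 : m A₀ ≠ 0) (h1 : m A₁ ≠ 0) (h0' : m A₀ ≠ ∞) (h1' : m A₁ ≠ ∞)
    {t κ : ℝ} (ht0 : 0 < t) (ht1 : t < 1) (hκ : 0 < κ) {c₀ c₁ : ℝ≥0∞}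
    (hc₀ : ∀ x ∈ A₀, ∀ y ∈ A₁, c₀ ≤ sigmaCoeff K N (1 - t) (dist x y))
    (hc₁ : ∀ x ∈ A₀, ∀ y ∈ A₁, c₁ ≤ sigmaCoeff K N t (dist x y)) :
    c₀ * m A₀ ^ (1 / N) + c₁ * m A₁ ^ (1 / N) ≤ m (midSet A₀ A₁ t κ) ^ (1 / N) := by
  have hA₀ := hK₀.measurableSet
  have hA₁ := hK₁.measurableSet
  have hN0 : 0 < N := by linarith only [hN]
  have hP0 : IsP2 m (unif m A₀) := unif_isP2 hs0 h0 h0'
  have hP1 : IsP2 m (unif m A₁) := unif_isP2 hs1 h1 h1'
  obtain ⟨q, Γ, ⟨hqc, hqo⟩, hΓ0, hΓ1, hΓ, hΓP, hconv⟩ := hCD _ _ hP0.1 hP1.1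
    ⟨A₀ ∪ A₁, max (m A₀)⁻¹.toNNReal (m A₁)⁻¹.toNNReal, hK₀.union hK₁,
      unif_le h0 subset_union_left (le_max_left _ _),
      unif_le h1 subset_union_right (le_max_right _ _)⟩
  have hprob0 : IsProbabilityMeasure (unif m A₀) := hP0.1
  have hprobq : IsProbabilityMeasure q := hqc.isProb
  have htI : t ∈ Icc (0 : ℝ) 1 := ⟨ht0.le, ht1.le⟩
  have hprobt : IsProbabilityMeasure (Γ t) := hΓP t htI
  have hq0 : ∀ᵐ z ∂q, z.1 ∈ A₀ := by
    have h1 : ∀ᵐ y ∂(q.map Prod.fst), y ∈ A₀ := by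
      rw [hqc.1]
      exact unif_compl hA₀
    exact ae_of_ae_map measurable_fst.aemeasurable h1
  have hq1 : ∀ᵐ z ∂q, z.2 ∈ A₁ := by
    have h1 : ∀ᵐ y ∂(q.map Prod.snd), y ∈ A₁ := by
      rw [hqc.2]
      exact unif_compl hA₁
    exact ae_of_ae_map measurable_snd.aemeasurable h1
  have hqd : ∀ᵐ z ∂q, dist z.1 z.2 ≤ 2 * R := by
    filter_upwards [hq0, hq1] with z h2 h3
    have h4 := hs0 h2
    have h5 := hs1 h3
    rw [mem_ball] at h4 h5
    have h6 := dist_triangle_right z.1 z.2 x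
    linarith only [h4, h5, h6]
  have hWfin : W2sq (unif m A₀) (unif m A₁) ≠ ∞ := by
    rw [← hqo]
    unfold transportCost
    have h2 : ∫⁻ z, ENNReal.ofReal (dist z.1 z.2 ^ 2) ∂q ≤
        ∫⁻ z, ENNReal.ofReal ((2 * R) ^ 2) ∂q := by
      apply lintegral_mono_ae
      filter_upwards [hqd] with z hz
      apply ENNReal.ofReal_le_ofReal
      exact pow_le_pow_left₀ dist_nonneg hz 2
    rw [lintegral_const, measure_univ, mul_one] at h2
    exact (h2.trans_lt ENNReal.ofReal_lt_top).ne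
  set W := midSet A₀ A₁ t κ with hW
  have hWm : MeasurableSet W := (isOpen_midSet _ _ _ _).measurableSet
  have hconc : Γ t Wᶜ = 0 := by
    have e0 := hΓ 0 ⟨le_refl _, zero_le_one⟩ t htI
    have e1 := hΓ t htI 1 ⟨zero_le_one, le_refl _⟩
    rw [hΓ0, hΓ1] at e0 e1
    refine midpoint_conc ht0 ht1 hκ hWfin rfl ?_ ?_ hA₀ hA₁ (unif_compl hA₀) (unif_compl hA₁)
    · rw [e0]
      congr 2
      ring
    · rw [e1]
      congr 2
      ring
  have hd0 : ∀ᵐ z ∂q, (unif m A₀).rnDeriv m z.1 = (m A₀)⁻¹ := by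
    have h4 : ∀ᵐ y ∂(q.map Prod.fst), (unif m A₀).rnDeriv m y = (m A₀)⁻¹ := by
      rw [hqc.1]
      exact unif_deriv hA₀ h0 h0'
    exact ae_of_ae_map measurable_fst.aemeasurable h4
  have hd1 : ∀ᵐ z ∂q, (unif m A₁).rnDeriv m z.2 = (m A₁)⁻¹ := by
    have h4 : ∀ᵐ y ∂(q.map Prod.snd), (unif m A₁).rnDeriv m y = (m A₁)⁻¹ := by
      rw [hqc.2]
      exact unif_deriv hA₁ h1 h1'
    exact ae_of_ae_map measurable_snd.aemeasurable h4
  have hlow : c₀ * m A₀ ^ (1 / N) + c₁ * m A₁ ^ (1 / N) ≤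
      ∫⁻ z, ((Γ t).rnDeriv m z) ^ (1 - 1 / N) ∂m := by
    refine le_trans ?_ (hconv t ⟨ht0, ht1⟩)
    calc c₀ * m A₀ ^ (1 / N) + c₁ * m A₁ ^ (1 / N)
        = ∫⁻ _, (c₀ * m A₀ ^ (1 / N) + c₁ * m A₁ ^ (1 / N)) ∂q := by
          rw [lintegral_const, measure_univ, mul_one]
      _ ≤ _ := by
          apply lintegral_mono_ae
          filter_upwards [hq0, hq1, hd0, hd1] with z g0 g1 g2 g3
          have e : ∀ a : ℝ≥0∞, (a⁻¹) ^ (-1 / N) = a ^ (1 / N) := by
            intro a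
            rw [neg_div, ENNReal.rpow_neg, ← ENNReal.inv_rpow, inv_inv]
          rw [g2, g3, e, e]
          gcongr
          · exact hc₀ _ g0 _ g1
          · exact hc₁ _ g0 _ g1
  exact hlow.trans (entropy_le hN hWm hconc)

theorem exists_compact_seq {m : Measure X} {A : Set X} (hA : MeasurableSet A) (h0 : m A ≠ 0)
    (h1 : m A ≠ ∞) : ∃ B : ℕ → Set X, (∀ k, B k ⊆ A ∧ IsCompact (B k) ∧ m (B k) ≠ 0) ∧
      Tendsto (fun k => m (B k)) atTop (𝓝 (m A)) := by
  obtain ⟨u, -, hu, hl⟩ := exists_seq_strictMono_tendsto' (pos_iff_ne_zero.2 h0)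
  choose B hB1 hB2 hB3 using fun k => hA.exists_lt_isCompact_of_ne_top h1 (hu k).2
  refine ⟨B, fun k => ⟨hB1 k, hB2 k, ((hu k).1.trans (hB3 k)).ne'⟩, ?_⟩
  exact tendsto_of_tendsto_of_tendsto_of_le_of_le hl tendsto_const_nhds (fun k => (hB3 k).le)
    fun k => measure_mono (hB1 k)

theorem bmi_of {m : Measure X} [SigmaFinite m] {K N : ℝ} (hCD : IsCDb K N m) (hN : 1 < N) :
    BMI m K N := by
  intro A₀ A₁ hA₀ hA₁ x R hs0 hs1 h0 h1 h0' h1' t κ ht0 ht1 hκ c₀ c₁ hc₀ hc₁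
  have hN0 : 0 < 1 / N := by
    have : 0 < N := by linarith
    positivity
  obtain ⟨B, hB, lB⟩ := exists_compact_seq hA₀ h0 h0'
  obtain ⟨D, hD, lD⟩ := exists_compact_seq hA₁ h1 h1'
  have l : ∀ {a : ℝ≥0∞} {f : ℕ → ℝ≥0∞} (c : ℝ≥0∞), a ≠ 0 → Tendsto f atTop (𝓝 a) →
      Tendsto (fun k => c * f k ^ (1 / N)) atTop (𝓝 (c * a ^ (1 / N))) := by
    intro a f c ha hf
    refine ENNReal.Tendsto.const_mul ((ENNReal.continuous_rpow_const.tendsto a).comp hf)
      (Or.inl ?_)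
    exact (ENNReal.rpow_pos_of_nonneg (pos_iff_ne_zero.2 ha) hN0.le).ne'
  refine le_of_tendsto' ((l c₀ h0 lB).add (l c₁ h1 lD)) fun k => ?_
  refine (bm_compact hCD hN (hB k).2.1 (hD k).2.1 ((hB k).1.trans hs0) ((hD k).1.trans hs1)
    (hB k).2.2 (hD k).2.2 (ne_top_of_le_ne_top h0' (measure_mono (hB k).1))
    (ne_top_of_le_ne_top h1' (measure_mono (hD k).1)) ht0 ht1 hκ
    (fun x hx y hy => hc₀ x ((hB k).1 hx) y ((hD k).1 hy))
    (fun x hx y hy => hc₁ x ((hB k).1 hx) y ((hD k).1 hy))).trans ?_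
  refine ENNReal.rpow_le_rpow (measure_mono ?_) hN0.le
  rintro z ⟨x, hx, y, hy, g⟩
  exact ⟨x, (hB k).1 hx, y, (hD k).1 hy, g⟩

/-- the Brunn-Minkowski inequality for a compact set and a point -/
theorem bm_pole' {m : Measure X} [m.IsOpenPosMeasure] (hfin : ∀ (x : X) (r : ℝ), m (ball x r) < ∞)
    {K N : ℝ} (hCD : BMI m K N) (hN : 1 < N) {A : Set X} (hA : IsCompact A) (p : X)
    {t : ℝ} (ht0 : 0 < t) (ht1 : t < 1) {c : ℝ≥0∞} {κ₀ : ℝ} (hκ₀ : 0 < κ₀)
    (hc : ∀ x ∈ A, ∀ y ∈ ball p κ₀, c ≤ sigmaCoeff K N (1 - t) (dist x y)) :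
    c ^ N * m A ≤ m (Zt t A p) := by
  have hN0 : 0 < N := by linarith only [hN]
  have hsig : SigmaFinite m := by
    have : IsLocallyFiniteMeasure m := ⟨fun y => ⟨ball y 1, ball_mem_nhds y one_pos, hfin y 1⟩⟩
    infer_instance
  by_cases hA0 : m A = 0
  · rw [hA0, mul_zero]
    exact zero_le
  obtain ⟨R, hR⟩ : ∃ R : ℝ, A ⊆ ball p R := by
    obtain ⟨R, hR⟩ := hA.isBounded.subset_ball p
    exact ⟨R, hR⟩
  set κ₁ : ℝ := min κ₀ 1 with hκ₁
  have hκ₁0 : 0 < κ₁ := lt_min hκ₀ one_pos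
  set κ : ℕ → ℝ := fun k => κ₁ / ((k : ℝ) + 1) with hκd
  have hκ0 : ∀ k, 0 < κ k := fun k => by rw [hκd]; positivity
  have hκ1 : ∀ k, κ k ≤ κ₁ := fun k => by
    apply div_le_self hκ₁0.le
    have : (0 : ℝ) ≤ k := Nat.cast_nonneg k
    linarith
  have hκm : ∀ i j, i ≤ j → κ j ≤ κ i := fun i j hij => by
    apply div_le_div_of_nonneg_left hκ₁0.le (by positivity)
    have : (i : ℝ) ≤ j := by exact_mod_cast hij
    linarith
  have hκt : Tendsto κ atTop (𝓝 0) := by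
    have h1 := tendsto_one_div_add_atTop_nhds_zero_nat (𝕜 := ℝ)
    have h2 := h1.const_mul κ₁
    rw [mul_zero] at h2
    refine h2.congr fun k => ?_
    rw [hκd]
    ring
  have hAm : MeasurableSet A := hA.measurableSet
  have hAtop : m A ≠ ∞ := ((measure_mono hR).trans_lt (hfin p R)).ne
  have key : ∀ k, c ^ N * m A ≤ m (midSet A (ball p (κ k)) t (κ k)) := by
    intro k
    have hB0 : m (ball p (κ k)) ≠ 0 := (measure_ball_pos m p (hκ0 k)).ne'
    have h1 := hCD hAm measurableSet_ball (x := p) (R := max R κ₁)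
      (hR.trans (ball_subset_ball (le_max_left _ _)))
      (ball_subset_ball ((hκ1 k).trans (le_max_right _ _))) hA0 hB0 hAtop (hfin _ _).ne
      ht0 ht1 (hκ0 k) (c₀ := c) (c₁ := 0)
      (fun x hx y hy => hc x hx y (ball_subset_ball ((hκ1 k).trans (min_le_left _ _)) hy))
      (fun _ _ _ _ => zero_le)
    rw [zero_mul, add_zero] at h1
    have h2 := ENNReal.rpow_le_rpow h1 hN0.le
    rwa [ENNReal.mul_rpow_of_nonneg _ _ hN0.le, ← ENNReal.rpow_mul, ← ENNReal.rpow_mul,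
      one_div_mul_cancel hN0.ne', ENNReal.rpow_one, ENNReal.rpow_one] at h2
  have hanti : Antitone fun k => midSet A (ball p (κ k)) t (κ k) := fun i j hij =>
    midSet_mono (ball_subset_ball (hκm i j hij)) (hκm i j hij)
  have hlim := tendsto_measure_iInter_atTop (μ := m)
    (s := fun k => midSet A (ball p (κ k)) t (κ k))
    (fun k => (isOpen_midSet _ _ _ _).measurableSet.nullMeasurableSet) hanti
    ⟨0, ((measure_mono (midSet_bdd ht0 ht1 hR (hκ0 0)
      ((hκ1 0).trans (min_le_right _ _)))).trans_lt (hfin _ _)).ne⟩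
  exact (ge_of_tendsto' hlim key).trans (measure_mono (iInter_midSet hA p t hκt))

/-- the lower bound for the coefficient holds near the pole -/
theorem bm_pole_cont' {m : Measure X} [m.IsOpenPosMeasure]
    (hfin : ∀ (x : X) (r : ℝ), m (ball x r) < ∞)
    {K N : ℝ} (hCD : BMI m K N) (hN : 1 < N) {A : Set X} (hA : IsCompact A) (p : X)
    {t : ℝ} (ht0 : 0 < t) (ht1 : t < 1) {f : ℝ → ℝ} (hf : Continuous f)
    (hfτ : ∀ θ, 0 ≤ θ → ENNReal.ofReal (f θ) ≤ sigmaCoeff K N (1 - t) θ ^ N)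
    {c : ℝ} (hc : ∀ x ∈ A, c ≤ f (dist x p)) :
    ENNReal.ofReal c * m A ≤ m (Zt t A p) := by
  have hN0 : 0 < N := by linarith
  -- for `c' < c`
  have key : ∀ c' < c, ENNReal.ofReal c' * m A ≤ m (Zt t A p) := by
    intro c' hc'
    have h1 : ∀ᶠ y in 𝓝 p, ∀ x ∈ A, c' < f (dist x y) := by
      apply hA.eventually_forall_of_forall_eventually
      intro x hx
      have h2 : Tendsto (fun z : X × X => f (dist z.2 z.1)) (𝓝 (p, x)) (𝓝 (f (dist x p))) := by
        have : Continuous fun z : X × X => f (dist z.2 z.1) := by fun_prop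
        exact this.tendsto (p, x)
      exact h2.eventually (lt_mem_nhds (hc'.trans_le (hc x hx)))
    obtain ⟨κ₀, hκ₀, h3⟩ := Metric.eventually_nhds_iff_ball.1 h1
    have h4 := bm_pole' hfin hCD hN hA p ht0 ht1 (c := ENNReal.ofReal c' ^ (1 / N)) hκ₀ ?_
    · rwa [← ENNReal.rpow_mul, one_div_mul_cancel hN0.ne', ENNReal.rpow_one] at h4
    · intro x hx y hy
      have h5 := (ENNReal.ofReal_le_ofReal (h3 y hy x hx).le).trans (hfτ _ dist_nonneg)
      have h6 := ENNReal.rpow_le_rpow h5 (z := 1 / N) (by positivity)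
      rwa [← ENNReal.rpow_mul, mul_one_div_cancel hN0.ne', ENNReal.rpow_one] at h6
  have hlim : Tendsto (fun c' : ℝ => ENNReal.ofReal c' * m A) (𝓝[<] c)
      (𝓝 (ENNReal.ofReal c * m A)) := by
    have hAtop : m A ≠ ∞ := by
      obtain ⟨R, hR⟩ := hA.isBounded.subset_ball p
      exact ((measure_mono hR).trans_lt (hfin p R)).ne
    apply ENNReal.Tendsto.mul_const _ (Or.inr hAtop)
    exact (ENNReal.continuous_ofReal.tendsto c).mono_left nhdsWithin_le_nhds
  refine le_of_tendsto hlim ?_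
  filter_upwards [self_mem_nhdsWithin] with c' hc' using key c' hc'

/-- explicit form for a compact set in a thin annulus -/
theorem bm_exp' {m : Measure X} [m.IsOpenPosMeasure]
    (hfin : ∀ (x : X) (r : ℝ), m (ball x r) < ∞)
    {K N : ℝ} (hCD : BMI m K N) (hN : 1 < N) {A : Set X} (hA : IsCompact A) (p : X)
    {t : ℝ} (ht0 : 0 < t) (ht1 : t < 1) {c : ℝ} (hc : ∀ x ∈ A, c ≤ K * dist x p ^ 2) :
    ENNReal.ofReal ((1 - t) ^ N * Real.exp ((1 - (1 - t) ^ 2) * c / 6)) * m A ≤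
      m (Zt t A p) := by
  have h1 : 0 < 1 - t := by linarith
  refine bm_pole_cont' hfin hCD hN hA p ht0 ht1
    (f := fun θ => (1 - t) ^ N * Real.exp ((1 - (1 - t) ^ 2) * (K * θ ^ 2) / 6))
    (by fun_prop) (fun θ hθ => sigma_pow_ge hN h1.le (by linarith) hθ) ?_
  intro x hx
  have h2 : 0 ≤ 1 - (1 - t) ^ 2 := by nlinarith
  have h3 : 0 ≤ (1 - t) ^ N := by positivity
  apply mul_le_mul_of_nonneg_left _ h3
  apply Real.exp_le_exp.2
  have := mul_le_mul_of_nonneg_left (hc x hx) h2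
  linarith

/-- one thin annulus -/
theorem bmv_piece' {m : Measure X} [m.IsOpenPosMeasure]
    (hfin : ∀ (x : X) (r : ℝ), m (ball x r) < ∞)
    {K : ℝ} {n : ℕ} (hCD : BMI m K n) (hn : 1 < n) {A : Set X} (hA : IsCompact A) (p : X)
    {t : ℝ} (ht0 : 0 < t) (ht1 : t < 1) {ε : ℝ} (hε : 0 < ε) (k : ℤ) :
    ENNReal.ofReal ((1 - t) ^ n) * mV m K p (A ∩ {x | ⌊K * dist x p ^ 2 / ε⌋ = k}) ≤
      ENNReal.ofReal (Real.exp (ε / 6)) *
        mV m K p (Zt t A p ∩ {z | ⌊K * (dist z p / (1 - t)) ^ 2 / ε⌋ = k}) := by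
  have h1t : 0 < 1 - t := by linarith
  have hN : (1 : ℝ) < n := by exact_mod_cast hn
  set s : ℝ := 1 - t with hs
  set Z : Set X := Zt t A p ∩ {z | ⌊K * (dist z p / s) ^ 2 / ε⌋ = k} with hZ
  have hmf : Measurable fun z : X => K * (dist z p / s) ^ 2 / ε := by fun_prop
  have hmg : Measurable fun z : X => K * dist z p ^ 2 / ε := by fun_prop
  have hZm : MeasurableSet Z :=
    (isClosed_Zt hA p t).measurableSet.inter (hmf.floor (measurableSet_singleton k))
  have hVm : Measurable fun x : X => ENNReal.ofReal (VV K p x) := by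
    unfold VV
    fun_prop
  -- compact exhaustion of the piece
  set D : ℕ → Set X := fun j =>
    A ∩ {x | (k : ℝ) * ε ≤ K * dist x p ^ 2 ∧ K * dist x p ^ 2 ≤ (k + 1) * ε - 1 / ((j : ℝ) + 1)}
    with hD
  have hDc : ∀ j, IsCompact (D j) := by
    intro j
    have c1 : Continuous fun x : X => K * dist x p ^ 2 := by fun_prop
    exact hA.inter_right ((isClosed_le continuous_const c1).inter (isClosed_le c1 continuous_const))
  have hDmono : Monotone D := by
    intro i j hij x hx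
    refine ⟨hx.1, hx.2.1, hx.2.2.trans ?_⟩
    have h1 : (i : ℝ) ≤ j := by exact_mod_cast hij
    have h2 : 1 / ((j : ℝ) + 1) ≤ 1 / ((i : ℝ) + 1) :=
      one_div_le_one_div_of_le (by positivity) (by linarith)
    linarith only [h2]
  have hDu : (A ∩ {x | ⌊K * dist x p ^ 2 / ε⌋ = k}) = ⋃ j, D j := by
    ext x
    simp only [hD, mem_inter_iff, mem_ofPred_eq, mem_iUnion, Int.floor_eq_iff]
    constructor
    · rintro ⟨hx, h1, h2⟩
      rw [le_div_iff₀ hε] at h1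
      rw [div_lt_iff₀ hε] at h2
      obtain ⟨j, hj⟩ := exists_nat_one_div_lt (sub_pos.2 h2)
      exact ⟨j, hx, h1, by linarith only [hj]⟩
    · rintro ⟨j, hx, h1, h2⟩
      refine ⟨hx, ?_, ?_⟩
      · rwa [le_div_iff₀ hε]
      · rw [div_lt_iff₀ hε]
        have : 0 < 1 / ((j : ℝ) + 1) := by positivity
        linarith only [h2, this]
  -- each compact piece
  have key : ∀ j, ENNReal.ofReal (s ^ n) * mV m K p (D j) ≤
      ENNReal.ofReal (Real.exp (ε / 6)) * mV m K p Z := by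
    intro j
    have hsub : Zt t (D j) p ⊆ Z := by
      rintro z ⟨x, hx, h1, h2⟩
      refine ⟨⟨x, hx.1, h1, h2⟩, ?_⟩
      have h3 : dist z p / s = dist x p := by
        rw [h2, ← hs]
        field_simp
      have h4 : x ∈ (A ∩ {x | ⌊K * dist x p ^ 2 / ε⌋ = k}) := by
        rw [hDu]
        exact mem_iUnion.2 ⟨j, hx⟩
      rw [mem_ofPred_eq, h3]
      exact h4.2
    have h1 := bm_exp' hfin hCD hN (hDc j) p ht0 ht1 (c := k * ε) (fun x hx => hx.2.1)
    rw [← hs, Real.rpow_natCast] at h1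
    -- upper bound of the mass of the piece
    have h2 : mV m K p (D j) ≤ ENNReal.ofReal (Real.exp ((k + 1) * ε / 6)) * m (D j) := by
      rw [mV, withDensity_apply _ (hDc j).measurableSet, ← setLIntegral_const]
      apply setLIntegral_mono measurable_const
      intro x hx
      apply ENNReal.ofReal_le_ofReal
      apply Real.exp_le_exp.2
      have h3 := hx.2.2
      have : 0 < 1 / ((j : ℝ) + 1) := by positivity
      linarith only [h3, this]
    -- lower bound of the mass of the image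
    have h3 : ENNReal.ofReal (Real.exp (s ^ 2 * (k * ε) / 6)) * m Z ≤ mV m K p Z := by
      rw [mV, withDensity_apply _ hZm, ← setLIntegral_const]
      apply setLIntegral_mono hVm
      intro z hz
      apply ENNReal.ofReal_le_ofReal
      apply Real.exp_le_exp.2
      have h4 := (Int.floor_eq_iff.1 hz.2).1
      rw [le_div_iff₀ hε, div_pow] at h4
      have h5 : s ^ 2 * (k * ε) ≤ s ^ 2 * (K * (dist z p ^ 2 / s ^ 2)) :=
        mul_le_mul_of_nonneg_left h4 (by positivity)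
      have h6 : s ^ 2 * (K * (dist z p ^ 2 / s ^ 2)) = K * dist z p ^ 2 := by
        field_simp
      rw [h6] at h5
      linarith only [h5]
    have e1 : s ^ n * Real.exp ((k + 1) * ε / 6) =
        (Real.exp (ε / 6) * Real.exp (s ^ 2 * (k * ε) / 6)) *
          (s ^ n * Real.exp ((1 - s ^ 2) * (k * ε) / 6)) := by
      have : Real.exp ((k + 1) * ε / 6) = Real.exp (ε / 6) * Real.exp (s ^ 2 * (k * ε) / 6) *
          Real.exp ((1 - s ^ 2) * (k * ε) / 6) := by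
        rw [← Real.exp_add, ← Real.exp_add]
        congr 1
        ring
      rw [this]
      ring
    calc ENNReal.ofReal (s ^ n) * mV m K p (D j)
        ≤ ENNReal.ofReal (s ^ n) * (ENNReal.ofReal (Real.exp ((k + 1) * ε / 6)) * m (D j)) := by
          gcongr
      _ = ENNReal.ofReal (Real.exp (ε / 6)) * ENNReal.ofReal (Real.exp (s ^ 2 * (k * ε) / 6)) *
          (ENNReal.ofReal (s ^ n * Real.exp ((1 - s ^ 2) * (k * ε) / 6)) * m (D j)) := by
          rw [← mul_assoc, ← mul_assoc, ← ENNReal.ofReal_mul (by positivity),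
            ← ENNReal.ofReal_mul (by positivity), ← ENNReal.ofReal_mul (by positivity), e1]
      _ ≤ ENNReal.ofReal (Real.exp (ε / 6)) * ENNReal.ofReal (Real.exp (s ^ 2 * (k * ε) / 6)) *
          m Z := by
          gcongr
          exact h1.trans (measure_mono hsub)
      _ ≤ _ := by
          rw [mul_assoc]
          gcongr
  rw [hDu, hDmono.directed_le.measure_iUnion, ENNReal.mul_iSup]
  exact iSup_le key

/-- **Brunn-Minkowski with a point target, weighted form** -/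
theorem bmv' {m : Measure X} [m.IsOpenPosMeasure]
    (hfin : ∀ (x : X) (r : ℝ), m (ball x r) < ∞)
    {K : ℝ} {n : ℕ} (hCD : BMI m K n) (hn : 1 < n) : BMV m n K := by
  intro p t ht0 ht1 A hA
  change ENNReal.ofReal ((1 - t) ^ n) * mV m K p A ≤ mV m K p (Zt t A p)
  have key : ∀ ε : ℝ, 0 < ε → ENNReal.ofReal ((1 - t) ^ n) * mV m K p A ≤
      ENNReal.ofReal (Real.exp (ε / 6)) * mV m K p (Zt t A p) := by
    intro ε hε
    have hmg : Measurable fun z : X => K * dist z p ^ 2 / ε := by fun_prop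
    have hmf : Measurable fun z : X => K * (dist z p / (1 - t)) ^ 2 / ε := by fun_prop
    have e1 : mV m K p A = ∑' k : ℤ, mV m K p (A ∩ {x | ⌊K * dist x p ^ 2 / ε⌋ = k}) := by
      rw [← measure_iUnion]
      · congr 1
        ext x
        simp
      · intro i j hij
        rw [Function.onFun, Set.disjoint_left]
        rintro x ⟨-, h1⟩ ⟨-, h2⟩
        exact hij (h1.symm.trans h2)
      · exact fun k => hA.measurableSet.inter (hmg.floor (measurableSet_singleton k))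
    have e2 : mV m K p (Zt t A p) = ∑' k : ℤ, mV m K p
        (Zt t A p ∩ {z | ⌊K * (dist z p / (1 - t)) ^ 2 / ε⌋ = k}) := by
      rw [← measure_iUnion]
      · congr 1
        ext x
        simp
      · intro i j hij
        rw [Function.onFun, Set.disjoint_left]
        rintro x ⟨-, h1⟩ ⟨-, h2⟩
        exact hij (h1.symm.trans h2)
      · exact fun k => (isClosed_Zt hA p t).measurableSet.inter
          (hmf.floor (measurableSet_singleton k))
    rw [e1, e2, ← ENNReal.tsum_mul_left, ← ENNReal.tsum_mul_left]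
    exact ENNReal.tsum_le_tsum fun k => bmv_piece' hfin hCD hn hA p ht0 ht1 hε k
  have hVtop : mV m K p (Zt t A p) ≠ ∞ := by
    obtain ⟨R, hR⟩ := hA.isBounded.subset_ball p
    have hsub : Zt t A p ⊆ ball p R := by
      rintro z ⟨x, hx, h1, h2⟩
      have h3 := hR hx
      rw [mem_ball] at h3 ⊢
      have h4 : t * dist x p ≥ 0 := by positivity
      linarith only [h2, h3, h4]
    refine ((measure_mono hsub).trans_lt ?_).ne
    rw [mV, withDensity_apply _ measurableSet_ball]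
    calc ∫⁻ x in ball p R, ENNReal.ofReal (VV K p x) ∂m
        ≤ ∫⁻ x in ball p R, ENNReal.ofReal (Real.exp (|K| * R ^ 2 / 6)) ∂m := by
          apply setLIntegral_mono measurable_const
          intro x hx
          apply ENNReal.ofReal_le_ofReal
          apply Real.exp_le_exp.2
          rw [mem_ball] at hx
          have h1 : dist x p ^ 2 ≤ R ^ 2 := pow_le_pow_left₀ dist_nonneg hx.le 2
          have h2 : K * dist x p ^ 2 ≤ |K| * R ^ 2 :=
            mul_le_mul (le_abs_self K) h1 (by positivity) (abs_nonneg K)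
          linarith only [h2]
      _ < ∞ := by
          rw [setLIntegral_const]
          exact ENNReal.mul_lt_top ENNReal.ofReal_lt_top (hfin p R)
  have hlim : Tendsto (fun ε : ℝ => ENNReal.ofReal (Real.exp (ε / 6)) * mV m K p (Zt t A p))
      (𝓝[>] 0) (𝓝 (ENNReal.ofReal (Real.exp (0 / 6)) * mV m K p (Zt t A p))) := by
    apply ENNReal.Tendsto.mul_const _ (Or.inr hVtop)
    have : Continuous fun ε : ℝ => ENNReal.ofReal (Real.exp (ε / 6)) :=
      ENNReal.continuous_ofReal.comp (by fun_prop)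
    exact (this.tendsto 0).mono_left nhdsWithin_le_nhds
  rw [zero_div, Real.exp_zero, ENNReal.ofReal_one, one_mul] at hlim
  refine ge_of_tendsto hlim ?_
  filter_upwards [self_mem_nhdsWithin] with ε hε using key ε hε

end Vale.Agent.P233Z
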