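import Vale.Agent.P233Z.Defs
import Vale.Agent.P233.N2.Slope

/-!
# The Cheeger energy is represented by the minimal relaxed slope
-/

open MeasureTheory Filter Topology Set
open scoped ENNReal NNReal InnerProductSpace

universe u

namespace Vale.Agent.P233Z

open Vale.Agent.P233

/-- almost minimal elements of a decreasing sequence of midpoint convex sets converge -/
theorem exists_lim {E : Type*} [NormedAddCommGroup E] [InnerProductSpace ℝ E] [CompleteSpace E]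
    {S : ℕ → Set E} (anti : Antitone S)
    (mid : ∀ n, ∀ x ∈ S n, ∀ y ∈ S n, (2 : ℝ)⁻¹ • (x + y) ∈ S n) {L : ℝ}
    (h : ∀ n, ∃ x ∈ S n, ‖x‖ ^ 2 ≤ L) :
    ∃ (x : ℕ → E) (y : E), (∀ n, x n ∈ S n) ∧ Tendsto x atTop (𝓝 y) ∧ ‖y‖ ^ 2 ≤ L := by
  let a : ℕ → ℝ := fun n => sInf ((fun x => ‖x‖ ^ 2) '' S n)
  have hb : ∀ n, BddBelow ((fun x : E => ‖x‖ ^ 2) '' S n) := fun n =>
    ⟨0, by rintro _ ⟨x, -, rfl⟩; positivity⟩
  have hne : ∀ n, ((fun x : E => ‖x‖ ^ 2) '' S n).Nonempty := fun n =>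
    let ⟨x, hx, _⟩ := h n
    ⟨_, x, hx, rfl⟩
  have hle : ∀ n, ∀ x ∈ S n, a n ≤ ‖x‖ ^ 2 := fun n x hx => csInf_le (hb n) ⟨x, hx, rfl⟩
  have haL : ∀ n, a n ≤ L := fun n =>
    let ⟨x, hx, h1⟩ := h n
    (hle n x hx).trans h1
  have hmono : Monotone a := fun i j hij =>
    csInf_le_csInf (hb i) (hne j) (image_mono (anti hij))
  have hbd : BddAbove (range a) := ⟨L, by rintro _ ⟨n, rfl⟩; exact haL n⟩
  have hA := tendsto_atTop_ciSup hmono hbd
  set A := ⨆ n, a n with hAd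
  have haA : ∀ n, a n ≤ A := fun n => le_ciSup hbd n
  have hex : ∀ n : ℕ, ∃ x ∈ S n, ‖x‖ ^ 2 < a n + 1 / ((n : ℝ) + 1) := fun n => by
    obtain ⟨_, ⟨x, hx, rfl⟩, h1⟩ := exists_lt_of_csInf_lt (hne n)
      (show a n < a n + 1 / ((n : ℝ) + 1) from lt_add_of_pos_right _ (by positivity))
    exact ⟨x, hx, h1⟩
  choose x hx hxa using hex
  have h0 := tendsto_one_div_add_atTop_nhds_zero_nat (𝕜 := ℝ)
  have hxN : ∀ N n : ℕ, N ≤ n → ‖x n‖ ^ 2 ≤ A + 1 / ((N : ℝ) + 1) := fun N n hn => by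
    have h1 : 1 / ((n : ℝ) + 1) ≤ 1 / ((N : ℝ) + 1) := Nat.one_div_le_one_div hn
    linarith [hxa n, haA n]
  have hc : CauchySeq x := by
    refine cauchySeq_of_le_tendsto_0
      (fun N : ℕ => √(4 * (A + 1 / ((N : ℝ) + 1)) - 4 * a N)) (fun n k N hn hk => ?_) ?_
    · refine Real.le_sqrt_of_sq_le ?_
      have h1 := hle N _ (mid N _ (anti hn (hx n)) _ (anti hk (hx k)))
      rw [norm_smul, mul_pow] at h1
      have h2 := parallelogram_law_with_norm ℝ (x n) (x k)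
      have h3 := hxN N n hn
      have h4 := hxN N k hk
      rw [dist_eq_norm]
      norm_num at h1
      nlinarith
    · have h1 := (((h0.const_add A).const_mul 4).sub (hA.const_mul 4)).sqrt
      simpa using h1
  obtain ⟨y, hy⟩ := cauchySeq_tendsto_of_complete hc
  refine ⟨x, y, hx, hy, ?_⟩
  have h1 : Tendsto (fun n => ‖x n‖ ^ 2) atTop (𝓝 (‖y‖ ^ 2)) := hy.norm.pow 2
  have h2 := h0.const_add L
  rw [add_zero] at h2
  exact le_of_tendsto_of_tendsto' h1 h2 fun n => by linarith [hxa n, haL n]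

variable {M : Type u} [MetricSpace M] [MeasurableSpace M] {m : Measure M}

/-- `RCD(K,N)` with the weak form of `CD*(K,N)`. -/
structure IsRCDb (m : Measure M) (K N : ℝ) : Prop where
  ne : Nonempty M
  fin : ∀ (x : M) (r : ℝ), m (Metric.ball x r) < ∞
  cd : IsCDb K N m
  quadratic : ∀ f g, (T.sob m).W f → (T.sob m).W g →
    ∫ x, T.slope m (fun y => f y + g y) x ^ 2 + T.slope m (fun y => f y - g y) x ^ 2 ∂m
      = ∫ x, 2 * T.slope m f x ^ 2 + 2 * T.slope m g x ^ 2 ∂m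

omit [MetricSpace M] in
theorem eLpNorm_sq (G : M → ℝ) : eLpNorm G 2 m ^ 2 = ∫⁻ x, ENNReal.ofReal (G x ^ 2) ∂m := by
  rw [eLpNorm_eq_lintegral_rpow_enorm_toReal two_ne_zero ENNReal.ofNat_ne_top,
    ← ENNReal.rpow_natCast, ← ENNReal.rpow_mul]
  norm_num
  refine lintegral_congr fun x => ?_
  rw [Real.enorm_eq_ofReal_abs, ← ENNReal.ofReal_pow (abs_nonneg _), sq_abs]

/-- lower semicontinuity -/
theorem rSlope_of_approx {f : M → ℝ} (hf : MemLp f 2 m) {L : ℝ≥0∞} (hL : L ≠ ∞)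
    (h : ∀ ε : ℝ≥0∞, ε ≠ 0 → ∃ F G, Met.RSlope m F G ∧ eLpNorm (F - f) 2 m ≤ ε ∧
      eLpNorm G 2 m ^ 2 ≤ L) : ∃ G, Met.RSlope m f G ∧ eLpNorm G 2 m ^ 2 ≤ L := by
  let S : ℕ → Set (Lp ℝ 2 m) := fun n =>
    {v | ∃ F, Met.RSlope m F v ∧ eLpNorm (F - f) 2 m ≤ ((n : ℝ≥0∞) + 1)⁻¹}
  have anti : Antitone S := by
    rintro i j hij v ⟨F, h1, h2⟩
    refine ⟨F, h1, h2.trans ?_⟩
    gcongr
  have mid : ∀ n, ∀ x ∈ S n, ∀ y ∈ S n, (2 : ℝ)⁻¹ • (x + y) ∈ S n := by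
    rintro n x ⟨F, h1, h2⟩ y ⟨F', h3, h4⟩
    refine ⟨fun z => 2⁻¹ * (F + F') z, ((h1.add h3).const_mul 2⁻¹).congr EventuallyEq.rfl ?_, ?_⟩
    · filter_upwards [Lp.coeFn_smul (2 : ℝ)⁻¹ (x + y), Lp.coeFn_add x y] with z a1 a2
      rw [a1, Pi.smul_apply, a2, abs_of_pos (by norm_num), smul_eq_mul]
    · have e : (fun z => 2⁻¹ * (F + F') z) - f = (2 : ℝ)⁻¹ • ((F - f) + (F' - f)) := by
        funext z
        simp only [Pi.sub_apply, Pi.add_apply, Pi.smul_apply, smul_eq_mul]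
        ring
      rw [e, eLpNorm_const_smul]
      have h5 := (eLpNorm_add_le (h1.1.1.sub hf.1) (h3.1.1.sub hf.1) one_le_two).trans
        (add_le_add h2 h4)
      refine (mul_le_mul_right h5 _).trans (le_of_eq ?_)
      rw [← two_mul, ← mul_assoc, enorm_inv (by norm_num), Real.enorm_eq_ofReal_abs,
        abs_of_pos two_pos, ENNReal.ofReal_ofNat, ENNReal.inv_mul_cancel two_ne_zero
        ENNReal.ofNat_ne_top, one_mul]
  have hn : ∀ v : Lp ℝ 2 m, ‖v‖ ^ 2 ≤ L.toReal ↔ eLpNorm v 2 m ^ 2 ≤ L := fun v => by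
    rw [Lp.norm_def, ← ENNReal.toReal_pow,
      ENNReal.toReal_le_toReal (ENNReal.pow_ne_top (Lp.eLpNorm_ne_top v)) hL]
  obtain ⟨x, y, hx, hy, hyL⟩ := exists_lim anti mid (L := L.toReal) fun n => by
    obtain ⟨F, G, h1, h2, h3⟩ := h ((n : ℝ≥0∞) + 1)⁻¹ (by simp [ENNReal.inv_eq_zero])
    refine ⟨h1.2.1.toLp G, ⟨F, h1.congr EventuallyEq.rfl h1.2.1.coeFn_toLp.symm, h2⟩, ?_⟩
    rw [hn, eLpNorm_congr_ae h1.2.1.coeFn_toLp]
    exact h3
  choose F hF1 hF2 using hx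
  refine ⟨y, Met.RSlope.of_tendsto hf (Lp.memLp y) hF1 ?_ ?_, (hn y).1 hyL⟩
  · have hlim : Tendsto (fun k : ℕ => ((k : ℝ≥0∞) + 1)⁻¹) atTop (𝓝 0) := by
      have h2 := ENNReal.tendsto_inv_nat_nhds_zero.comp (tendsto_add_atTop_nat 1)
      simpa [Function.comp_def] using h2
    exact tendsto_of_tendsto_of_tendsto_of_le_of_le tendsto_const_nhds hlim
      (fun _ => zero_le) hF2
  · exact (Lp.tendsto_Lp_iff_tendsto_eLpNorm' x y).1 hy

theorem ch_le {f G : M → ℝ} (h : Met.RSlope m f G) : Ch m f ≤ 2⁻¹ * eLpNorm G 2 m ^ 2 := by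
  obtain ⟨hf, hG, v, g, hvg, h1, h2⟩ := h
  refine mul_le_mul_right (iInf₂_le_of_le v ⟨fun k => ⟨(hvg k).1, (hvg k).2.1⟩, h1⟩ ?_) _
  have h3 : Tendsto (fun k => eLpNorm (g k) 2 m) atTop (𝓝 (eLpNorm G 2 m)) := by
    have h4 : Tendsto (fun k => (hvg k).2.2.1.toLp (g k)) atTop (𝓝 (hG.toLp G)) :=
      (Lp.tendsto_Lp_iff_tendsto_eLpNorm'' _ _ _ _).2 h2
    have h5 := h4.enorm
    simpa only [Lp.enorm_toLp] using h5
  have h4 := (ENNReal.continuous_pow 2).tendsto _ |>.comp h3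
  rw [← h4.liminf_eq]
  refine liminf_le_liminf (Eventually.of_forall fun k => ?_)
  change _ ≤ eLpNorm (g k) 2 m ^ 2
  rw [eLpNorm_sq]
  refine lintegral_mono_ae ?_
  filter_upwards [(hvg k).2.2.2] with x hx
  rw [ENNReal.ofReal_pow hx.1]
  exact pow_le_pow_left' hx.2 2

variable [BorelSpace M]

theorem exists_of_ch_lt {f : M → ℝ} (hf : MemLp f 2 m) {L : ℝ≥0∞} (hL : L ≠ ∞)
    (h : Ch m f < 2⁻¹ * L) : ∃ G, Met.RSlope m f G ∧ eLpNorm G 2 m ^ 2 ≤ L := by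
  have h1 := lt_of_mul_lt_mul_left' h
  rw [iInf_lt_iff] at h1
  obtain ⟨v, h1⟩ := h1
  rw [iInf_lt_iff] at h1
  obtain ⟨⟨hv, hc⟩, h1⟩ := h1
  refine rSlope_of_approx hf hL fun ε hε => ?_
  obtain ⟨k, h2, h3⟩ := ((frequently_lt_of_liminf_lt (h := h1)).and_eventually
    (hc.eventually (ge_mem_nhds (pos_iff_ne_zero.2 hε)))).exists
  obtain ⟨⟨K, hK⟩, h4⟩ := hv k
  have e : eLpNorm (fun x => (lipAt (v k) x).toReal) 2 m ^ 2 = ∫⁻ x, T.lipAt (v k) x ^ 2 ∂m := by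
    rw [eLpNorm_sq]
    refine lintegral_congr fun x => ?_
    rw [ENNReal.ofReal_pow ENNReal.toReal_nonneg, ENNReal.ofReal_toReal (N2.lipAt_ne_top hK x)]
    rfl
  refine ⟨v k, fun x => (lipAt (v k) x).toReal, Met.Good.rSlope ⟨⟨K, hK⟩, h4,
    ⟨(N2.measurable_lipAt hK.continuous).ennreal_toReal.aestronglyMeasurable, ?_⟩,
    ae_of_all _ fun x => ⟨ENNReal.toReal_nonneg,
      (ENNReal.ofReal_toReal (N2.lipAt_ne_top hK x)).ge⟩⟩, h3, by rw [e]; exact h2.le⟩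
  have h5 : eLpNorm (fun x => (lipAt (v k) x).toReal) 2 m ^ 2 < ∞ := by
    rw [e]
    exact h2.trans hL.lt_top
  exact lt_top_iff_ne_top.2 fun h6 => by simp [h6] at h5

theorem w_iff_ch {f : M → ℝ} : (T.sob m).W f ↔ T.L2 m f ∧ Ch m f < ∞ := by
  constructor
  · rintro ⟨G, hG⟩
    have hG' : Met.RSlope m f G := hG
    exact ⟨hG.1, (ch_le hG').trans_lt (ENNReal.mul_lt_top (by norm_num)
      (ENNReal.pow_lt_top hG'.2.1.2))⟩
  · rintro ⟨hf, h⟩
    obtain ⟨G, hG, -⟩ := exists_of_ch_lt hf (L := 2 * (Ch m f + 1))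
      (ENNReal.mul_ne_top ENNReal.ofNat_ne_top (ENNReal.add_ne_top.2 ⟨h.ne, ENNReal.one_ne_top⟩))
      (by
        rw [← mul_assoc, ENNReal.inv_mul_cancel two_ne_zero ENNReal.ofNat_ne_top, one_mul]
        exact ENNReal.lt_add_right h.ne one_ne_zero)
    exact ⟨G, hG⟩

theorem ch_eq {f : M → ℝ} (h : (T.sob m).W f) :
    Ch m f = ENNReal.ofReal ((∫ x, T.slope m f x ^ 2 ∂m) / 2) := by
  have hW : Met.W12 m f := h
  have e : ENNReal.ofReal ((∫ x, T.slope m f x ^ 2 ∂m) / 2) =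
      2⁻¹ * eLpNorm (Met.mslope m f) 2 m ^ 2 := by
    rw [eLpNorm_sq, ← ofReal_integral_eq_lintegral_ofReal (Met.sq_integrable hW)
      (ae_of_all _ fun x => sq_nonneg _), ENNReal.ofReal_div_of_pos two_pos, ENNReal.ofReal_ofNat,
      div_eq_mul_inv, mul_comm]
    rfl
  rw [e]
  refine le_antisymm (ch_le hW.rSlope) (le_of_forall_gt_imp_ge_of_dense fun c hc => ?_)
  rcases eq_or_ne c ∞ with rfl | hc'
  · exact le_top
  obtain ⟨G, hG, h1⟩ := exists_of_ch_lt hW.memLp (L := 2 * c)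
    (ENNReal.mul_ne_top ENNReal.ofNat_ne_top hc') (by
      rwa [← mul_assoc, ENNReal.inv_mul_cancel two_ne_zero ENNReal.ofNat_ne_top, one_mul])
  have h2 : eLpNorm (Met.mslope m f) 2 m ≤ eLpNorm G 2 m := by
    refine eLpNorm_mono_ae ?_
    filter_upwards [hG.mslope_le, hW.mslope_nonneg] with x a1 a2
    rw [Real.norm_eq_abs, Real.norm_eq_abs, abs_of_nonneg a2]
    exact a1.trans (le_abs_self _)
  refine (mul_le_mul_right ((pow_le_pow_left' h2 2).trans h1) _).trans (le_of_eq ?_)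
  rw [← mul_assoc, ENNReal.inv_mul_cancel two_ne_zero ENNReal.ofNat_ne_top, one_mul]

/-- the two forms of the parallelogram identity -/
theorem quad_iff : (∀ f g, T.L2 m f → T.L2 m g →
      Ch m (f + g) + Ch m (f - g) = 2 * Ch m f + 2 * Ch m g) ↔
    ∀ f g, (T.sob m).W f → (T.sob m).W g →
      ∫ x, T.slope m (fun y => f y + g y) x ^ 2 + T.slope m (fun y => f y - g y) x ^ 2 ∂m
        = ∫ x, 2 * T.slope m f x ^ 2 + 2 * T.slope m g x ^ 2 ∂m := by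
  have key : ∀ f g, (T.sob m).W f → (T.sob m).W g →
      (Ch m (f + g) + Ch m (f - g) = 2 * Ch m f + 2 * Ch m g ↔
      ∫ x, T.slope m (fun y => f y + g y) x ^ 2 + T.slope m (fun y => f y - g y) x ^ 2 ∂m
        = ∫ x, 2 * T.slope m f x ^ 2 + 2 * T.slope m g x ^ 2 ∂m) := by
    intro f g hf hg
    have hf' : Met.W12 m f := hf
    have hg' : Met.W12 m g := hg
    have i : ∀ {f}, Met.W12 m f → Integrable (fun x => T.slope m f x ^ 2) m := fun h =>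
      Met.sq_integrable h
    have p : ∀ f, 0 ≤ ∫ x, T.slope m f x ^ 2 ∂m := fun f => integral_nonneg fun x => sq_nonneg _
    have e1 : ∫ x, T.slope m (fun y => f y + g y) x ^ 2 + T.slope m (fun y => f y - g y) x ^ 2 ∂m
        = ∫ x, T.slope m (f + g) x ^ 2 ∂m + ∫ x, T.slope m (f - g) x ^ 2 ∂m :=
      integral_add (i (hf'.add hg')) (i (hf'.sub hg'))
    rw [e1, integral_add ((i hf').const_mul 2) ((i hg').const_mul 2), integral_const_mul,
      integral_const_mul, ch_eq hf, ch_eq hg, ch_eq (f := f + g) (hf'.add hg'),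
      ch_eq (f := f - g) (hf'.sub hg'), ← ENNReal.ofReal_ofNat 2,
      ← ENNReal.ofReal_mul zero_le_two, ← ENNReal.ofReal_mul zero_le_two,
      ← ENNReal.ofReal_add (by have := p (f + g); positivity) (by have := p (f - g); positivity),
      ← ENNReal.ofReal_add (by have := p f; positivity) (by have := p g; positivity),
      ENNReal.ofReal_eq_ofReal_iff (by have := p (f + g); have := p (f - g); positivity)
        (by have := p f; have := p g; positivity)]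
    constructor <;> intro h <;> linarith
  refine ⟨fun h f g hf hg => (key f g hf hg).1 (h f g (w_iff_ch.1 hf).1 (w_iff_ch.1 hg).1),
    fun h f g hf hg => ?_⟩
  by_cases hW : (T.sob m).W f ∧ (T.sob m).W g
  · exact (key f g hW.1 hW.2).2 (h f g hW.1 hW.2)
  have h1 : 2 * Ch m f + 2 * Ch m g = ∞ := by
    by_contra h1
    rw [← ne_eq, ENNReal.add_ne_top] at h1
    refine hW ⟨w_iff_ch.2 ⟨hf, lt_top_iff_ne_top.2 fun h2 => h1.1 ?_⟩,
      w_iff_ch.2 ⟨hg, lt_top_iff_ne_top.2 fun h2 => h1.2 ?_⟩⟩ <;> simp [h2]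
  rw [h1]
  by_contra h2
  rw [← ne_eq, ENNReal.add_ne_top] at h2
  have h3 : Met.W12 m (f + g) := w_iff_ch.2 ⟨MemLp.add hf hg, h2.1.lt_top⟩
  have h4 : Met.W12 m (f - g) := w_iff_ch.2 ⟨MemLp.sub hf hg, h2.2.lt_top⟩
  refine hW ⟨((h3.add h4).const_mul 2⁻¹).congr (ae_of_all _ fun x => ?_),
    ((h3.sub h4).const_mul 2⁻¹).congr (ae_of_all _ fun x => ?_)⟩
  · simp only [Pi.add_apply, Pi.sub_apply]
    ring
  · simp only [Pi.add_apply, Pi.sub_apply]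
    ring

end Vale.Agent.P233Z
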