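import Vale.Agent.P233Z.BScale
import Vale.Agent.P233Z.BVol

/-!
# The two forms of condition (B), for every normalization of the Hausdorff measure
-/

open MeasureTheory Filter Topology Set
open scoped ENNReal NNReal MeasureTheory

universe u

namespace Vale.Agent.P233Z

open Vale.Agent.P233

variable {M : Type u} [MetricSpace M] [CompleteSpace M] [SecondCountableTopology M]
  [MeasurableSpace M] [BorelSpace M] {n : ℕ} {c : ℝ≥0}

theorem isRCD_of_smul {K : ℝ} (hn : 2 ≤ n) (hc : c ≠ 0)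
    (h1 : (c • μH[n] : Measure M).IsOpenPosMeasure) (h2 : IsRCDb (c • μH[n] : Measure M) K n) :
    (μH[n] : Measure M).IsOpenPosMeasure ∧ T.IsRCD (μH[n] : Measure M) K n := by
  have g1 := full_smul (inv_ne_zero hc) h1
  have g2 := h2.smul (inv_ne_zero hc)
  rw [inv_smul_smul_measure hc] at g1 g2
  exact ⟨g1, isRCD_of_b hn g1 g2⟩

theorem wellDef_smul {K : ℝ} (hn : 2 ≤ n) (hc : c ≠ 0)
    (h1 : (c • μH[n] : Measure M).IsOpenPosMeasure) (h2 : IsRCDb (c • μH[n] : Measure M) K n) :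
    WellDef (c • μH[n] : Measure M) := by
  have hN : (0 : ℝ) < n := by exact_mod_cast (by omega : 0 < n)
  exact (wellDef_of hN (isRCD_of_smul hn hc h1 h2).2).smul hc

theorem strong_of_alex {κ : ℝ} (hn : 2 ≤ n) (hc : c ≠ 0) (h : T.IsAlexN M n κ) :
    (c • μH[n] : Measure M).IsOpenPosMeasure ∧
      CD.IsRCD (c • μH[n] : Measure M) ((n - 1) * κ) n ∧
      T.DistSecGE (T.sob (c • μH[n] : Measure M)) κ := by
  obtain ⟨h1, h2, h3⟩ := (H326.Fin.finalCD M n hn κ).1 h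
  have g1 := full_smul hc h1
  have g2 := isRCD_smul hc h2
  have hc' : (0 : ℝ) < c := NNReal.coe_pos.2 (pos_iff_ne_zero.2 hc)
  refine ⟨g1, g2, distSecGE_of (wellDef_smul hn hc g1 (isRCDb_of (by exact_mod_cast (by omega : 1 < n)) g2)).wd ?_⟩
  rw [sob_smul hc]
  refine distSecAll_of_scl (inv_pos.2 hc') ?_
  rw [scl_scl hc']
  exact distSecAll_of h3

theorem alex_of_weak {κ : ℝ} (hn : 2 ≤ n) (hc : c ≠ 0)
    (h1 : (c • μH[n] : Measure M).IsOpenPosMeasure)
    (h2 : IsRCDb (c • μH[n] : Measure M) ((n - 1) * κ) n)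
    (h3 : DistSecAll (T.sob (c • μH[n] : Measure M)) κ) : T.IsAlexN M n κ := by
  have hN : (0 : ℝ) < n := by exact_mod_cast (by omega : 0 < n)
  obtain ⟨g1, g2⟩ := isRCD_of_smul hn hc h1 h2
  rw [sob_smul hc] at h3
  exact (H326.Fin.finalThm M n hn κ).2 ⟨g1, g2, distSecGE_of (wellDef_of hN g2).wd
    (distSecAll_of_scl (NNReal.coe_pos.2 (pos_iff_ne_zero.2 hc)) h3)⟩

/-- (A) implies the strong form of (B) -/
theorem b_strong {κ : ℝ} (hn : 2 ≤ n) (hc : c ≠ 0) (h : T.IsAlexN M n κ) :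
    IsHilb (c • μH[n] : Measure M) ∧ P242.IsCD ((n - 1) * κ) n (c • μH[n] : Measure M) ∧
      DistSecAll (T.sob (c • μH[n] : Measure M)) κ := by
  obtain ⟨h1, h2, h3⟩ := strong_of_alex hn hc h
  exact ⟨⟨h2.ne, h2.fin, h1, quad_iff.2 h2.quadratic⟩, h2.cd, distSecAll_of h3⟩

omit [CompleteSpace M] [SecondCountableTopology M] in
theorem IsHilb.isRCDb {m : Measure M} {K N : ℝ} (h : IsHilb m) (hcd : IsCDb K N m) :
    IsRCDb m K N :=
  ⟨h.ne, h.fin, hcd, quad_iff.1 h.quadratic⟩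

omit [CompleteSpace M] [SecondCountableTopology M] in
theorem IsHilb.isCDb {m : Measure M} {K : ℝ} (hn : 2 ≤ n) (h : IsHilb m)
    (hcd : P242.IsCD K n m) : IsCDb K n m :=
  (isRCDb_of (by exact_mod_cast (by omega : 1 < n))
    ⟨h.ne, h.fin, hcd, quad_iff.1 h.quadratic⟩).cd

/-- the weak form of (B) implies (A) -/
theorem b_weak {κ : ℝ} (hn : 2 ≤ n) (hc : c ≠ 0) (h1 : IsHilb (c • μH[n] : Measure M))
    (h2 : IsCDb ((n - 1) * κ) n (c • μH[n] : Measure M))
    (h3 : DistSecAll (T.sob (c • μH[n] : Measure M)) κ) : T.IsAlexN M n κ :=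
  alex_of_weak hn hc h1.full (h1.isRCDb h2) h3

theorem b_well {K : ℝ} (hn : 2 ≤ n) (hc : c ≠ 0) (h1 : IsHilb (c • μH[n] : Measure M))
    (h2 : IsCDb K n (c • μH[n] : Measure M)) : WellDef (c • μH[n] : Measure M) :=
  wellDef_smul hn hc h1.full (h1.isRCDb h2)

end Vale.Agent.P233Z
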