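import Vale.Agent.P233Z.AMain
import Vale.Agent.P233Z.BMain

/-!
# P233: all forms of (A) and (B) are equivalent
-/

open MeasureTheory Set Topology Metric
open scoped ENNReal NNReal MeasureTheory

universe u

namespace Vale.Agent.P233Z

open Vale.Agent.P233

section metric

variable {M : Type u} [MetricSpace M] {κ : ℝ} {n : ℕ}

theorem IsSeg.lift {γ : ℝ → M} {U : Set M} {x y : U} (h : IsSeg γ (x : M) y)
    (hU : ∀ s ∈ Icc 0 (dist x y), γ s ∈ U) :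
    ∃ γ' : ℝ → U, IsSeg γ' x y ∧ ∀ s ∈ Icc 0 (dist x y), (γ' s : M) = γ s := by
  have hd : 0 ≤ dist x y := dist_nonneg
  have e : ∀ s ∈ Icc 0 (dist x y), max 0 (min s (dist x y)) = s := fun s hs => by
    rw [min_eq_left hs.2, max_eq_right hs.1]
  refine ⟨fun s => ⟨γ (max 0 (min s (dist x y))),
    hU _ ⟨le_max_left _ _, max_le hd (min_le_right _ _)⟩⟩, ⟨Subtype.ext ?_, Subtype.ext ?_,
      fun s hs t ht => ?_⟩, fun s hs => ?_⟩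
  · simp only [e 0 ⟨le_rfl, hd⟩]
    exact h.1
  · simp only [e _ ⟨hd, le_rfl⟩]
    exact h.2.1
  · change dist (γ (max 0 (min s (dist x y)))) (γ (max 0 (min t (dist x y)))) = _
    rw [e s hs, e t ht]
    exact h.2.2 s hs t ht
  · simp only [e s hs]

theorem IsSeg.mem_ball {γ : ℝ → M} {o x y : M} {ρ : ℝ} (h : IsSeg γ x y)
    (hx : x ∈ ball o (ρ / 3)) (hy : y ∈ ball o (ρ / 3)) {s : ℝ} (hs : s ∈ Icc 0 (dist x y)) :
    γ s ∈ ball o ρ := by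
  have h1 := h.2.2 s hs 0 ⟨le_rfl, dist_nonneg⟩
  rw [h.1, sub_zero, abs_of_nonneg hs.1] at h1
  have h2 := dist_triangle (γ s) x o
  have h3 := dist_triangle_right x y o
  rw [Metric.mem_ball] at hx hy ⊢
  linarith [hs.2]

theorem exists_LC_of_loc {o : M} {U : Set M} (hU : U ∈ 𝓝 o)
    (hg : ∀ x ∈ U, ∀ y ∈ U, ∃ γ : ℝ → M, IsSeg γ x y) (ht : TriCmp U κ) :
    ∃ ρ, P233Y.LC M κ o ρ := by
  obtain ⟨ρ, hρ, hsub⟩ := Metric.mem_nhds_iff.1 hU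
  have hV : ball o (ρ / 3) ⊆ U := (ball_subset_ball (by linarith)).trans hsub
  refine P233Y.exists_LC (ball_mem_nhds o (show 0 < ρ / 3 by positivity))
    (fun x hx y hy => hg x (hV hx) y (hV hy)) fun p hp x hx y hy α β γ hα hβ hγ hs s hsI => ?_
  obtain ⟨α', a1, -⟩ := IsSeg.lift (x := ⟨p, hV hp⟩) (y := ⟨x, hV hx⟩) hα
    fun s hs => hsub (IsSeg.mem_ball hα hp hx hs)
  obtain ⟨β', b1, -⟩ := IsSeg.lift (x := ⟨p, hV hp⟩) (y := ⟨y, hV hy⟩) hβ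
    fun s hs => hsub (IsSeg.mem_ball hβ hp hy hs)
  obtain ⟨γ', c1, c2⟩ := IsSeg.lift (x := ⟨x, hV hx⟩) (y := ⟨y, hV hy⟩) hγ
    fun s hs => hsub (IsSeg.mem_ball hγ hx hy hs)
  have := ht _ _ _ α' β' γ' a1 b1 c1 hs s hsI
  rwa [Subtype.dist_eq _ (γ' s), c2 s hsI] at this

theorem alex_of_loc [CompleteSpace M] (hl : IsLength M)
    (h : ∀ o : M, ∃ U ∈ 𝓝 o, (∀ x ∈ U, ∀ y ∈ U, ∃ γ : ℝ → M, IsSeg γ x y) ∧ TriCmp U κ)
    (hd : dimH (univ : Set M) = n) : T.IsAlexN M n κ :=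
  ⟨P233Y.isAlexandrov_of_LC hl.isLen
    (fun o => let ⟨_, hU, hg, ht⟩ := h o; exists_LC_of_loc hU hg ht) (dim_lt_top hd), hd⟩

end metric

theorem final (M : Type u) [MetricSpace M] [CompleteSpace M] [SecondCountableTopology M]
    [MeasurableSpace M] [BorelSpace M] (n : ℕ) (hn : 2 ≤ n) (κ : ℝ) (c : ℝ≥0) (hc : c ≠ 0)
    (m : Measure M) (hm : m = c • μH[n]) :
    List.TFAE [
      IsLength M ∧ dimH (univ : Set M) = n ∧ LocallyCompactSpace M ∧ TriCmp M κ,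
      IsLength M ∧ dimH (univ : Set M) = n ∧
        ∀ o : M, ∃ U ∈ 𝓝 o, (∀ x ∈ U, ∀ y ∈ U, ∃ γ : ℝ → M, IsSeg γ x y) ∧ TriCmp U κ,
      IsLength M ∧ dimH (univ : Set M) = n ∧ FourPoint M κ,
      IsLength M ∧ dimH (univ : Set M) = n ∧ ∀ o : M, ∃ U ∈ 𝓝 o, FourPoint U κ,
      IsLength M ∧ dimH (univ : Set M) = n ∧ ProperSpace M ∧
        (∀ x y : M, ∃ γ : ℝ → M, IsSeg γ x y) ∧ TriCmp M κ,
      IsHilb m ∧ P242.IsCD ((n - 1) * κ) n m ∧ DistSecAll (T.sob m) κ,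
      IsHilb m ∧ IsCDb ((n - 1) * κ) n m ∧ DistSecAll (T.sob m) κ] ∧
    ∀ K, IsHilb m → P242.IsCD K n m ∨ IsCDb K n m → WellDef m := by
  subst hm
  refine ⟨?_, fun K h1 h2 => b_well hn hc h1 (h2.elim (h1.isCDb hn) id)⟩
  have h := alex_tfae6 M n κ
  have key : T.IsAlexN M n κ → IsLength M ∧ dimH (univ : Set M) = n ∧ ProperSpace M ∧
      (∀ x y : M, ∃ γ : ℝ → M, IsSeg γ x y) ∧ TriCmp M κ := fun hA =>
    ⟨isLength_of_geo hA.1.geodesic, hA.2, proper_of_isAlexN hA,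
      fun x y => H416.exists_geo hA.1.geodesic x y, triCmp_of hA.1⟩
  have h2 : (IsLength M ∧ dimH (univ : Set M) = n ∧
      ∀ o : M, ∃ U ∈ 𝓝 o, (∀ x ∈ U, ∀ y ∈ U, ∃ γ : ℝ → M, IsSeg γ x y) ∧ TriCmp U κ) →
      T.IsAlexN M n κ := fun g => alex_of_loc g.1 g.2.2 g.2.1
  have h3 : (IsLength M ∧ LocallyCompactSpace M ∧ TriCmp M κ ∧ dimH (univ : Set M) = n) ↔
      T.IsAlexN M n κ := h.out 2 0
  have h4 : (IsLength M ∧ (∀ o : M, ∃ U ∈ 𝓝 o, FourPoint U κ) ∧ dimH (univ : Set M) = n) ↔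
      T.IsAlexN M n κ := h.out 3 0
  tfae_have 1 → 5 := fun g => key (h3.1 ⟨g.1, g.2.2.1, g.2.2.2, g.2.1⟩)
  tfae_have 5 → 1 := fun g => by
    have := g.2.2.1
    exact ⟨g.1, g.2.1, inferInstance, g.2.2.2.2⟩
  tfae_have 5 → 2 := fun g => ⟨g.1, g.2.1, fun _ => ⟨univ, Filter.univ_mem,
    fun x _ y _ => g.2.2.2.1 x y, g.2.2.2.2.subtype _⟩⟩
  tfae_have 2 → 3 := fun g => ⟨g.1, g.2.1, fourPoint_of (h2 g).1⟩
  tfae_have 3 → 4 := fun g => ⟨g.1, g.2.1, fun _ => ⟨univ, Filter.univ_mem, g.2.2.subtype _⟩⟩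
  tfae_have 4 → 6 := fun g => b_strong hn hc (h4.1 ⟨g.1, g.2.2, g.2.1⟩)
  tfae_have 6 → 7 := fun g => ⟨g.1, g.1.isCDb hn g.2.1, g.2.2⟩
  tfae_have 7 → 5 := fun g => key (b_weak hn hc g.1 g.2.1 g.2.2)
  tfae_finish

end Vale.Agent.P233Z
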