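import Vale.Agent.P233Z.BWell
import Vale.Agent.P233.H368.TauCD

/-!
# The conditions do not change when the measure is multiplied by a positive constant
-/

open MeasureTheory Filter Topology Set
open scoped ENNReal NNReal InnerProductSpace

universe u

namespace Vale.Agent.P233Z

open Vale.Agent.P233

section models

variable {M : Type u}

/-- the calculus with the integral multiplied by `a` -/
def scl (C : T.Calc M) (a : ℝ) : T.Calc M := { C with int := fun f => a * C.int f }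

variable {C : T.Calc M} {a : ℝ}

theorem scl_isLap (ha : 0 < a) : (scl C a).IsLap = C.IsLap := by
  funext f h
  refine propext (and_congr Iff.rfl (and_congr Iff.rfl (forall₂_congr fun g _ => ?_)))
  change a * C.int _ = -(a * C.int _) ↔ _
  rw [← mul_neg, mul_right_inj' ha.ne']
  rfl

theorem scl_lap (ha : 0 < a) : (scl C a).lap = C.lap := by
  funext f
  unfold T.Calc.lap
  rw [scl_isLap ha]

theorem scl_test (ha : 0 < a) : (scl C a).Test = C.Test := by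
  funext f
  unfold T.Calc.Test
  rw [scl_isLap ha]
  rfl

theorem scl_testV (ha : 0 < a) : (scl C a).TestV = C.TestV := by
  funext X
  unfold T.Calc.TestV
  rw [scl_test ha]

theorem scl_dv (ha : 0 < a) : (scl C a).dv = C.dv := by
  funext X x
  unfold T.Calc.dv
  rw [scl_lap ha]
  rfl

theorem scl_scl (ha : 0 < a) : scl (scl C a) a⁻¹ = C := by
  unfold scl
  simp only [← mul_assoc, inv_mul_cancel₀ ha.ne', one_mul]

variable {H : Type u} [NormedAddCommGroup H] [InnerProductSpace ℝ H] {ι : T.VF M → H}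

theorem inner_sqrt (ha : 0 < a) (V W : H) : ⟪√a • V, √a • W⟫_ℝ = a * ⟪V, W⟫_ℝ := by
  rw [real_inner_smul_left, real_inner_smul_right, ← mul_assoc, Real.mul_self_sqrt ha.le]

theorem scl_isL2TM (ha : 0 < a) (hι : C.IsL2TM ι) : (scl C a).IsL2TM fun X => √a • ι X := by
  have hs : 0 < √a := Real.sqrt_pos.2 ha
  refine ⟨hι.1, fun X Y hX hY => ?_, fun v ε hε => ?_⟩
  · rw [scl_testV ha] at hX hY
    rw [inner_sqrt ha, hι.2.1 X Y hX hY]
    rfl
  · obtain ⟨X, hX, h⟩ := hι.2.2 ((√a)⁻¹ • v) (ε / √a) (by positivity)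
    refine ⟨X, by rw [scl_testV ha]; exact hX, ?_⟩
    have e : √a • ι X - v = √a • (ι X - (√a)⁻¹ • v) := by
      rw [smul_sub, smul_smul, mul_inv_cancel₀ hs.ne', one_smul]
    rw [e, norm_smul, Real.norm_eq_abs, abs_of_pos hs, mul_comm]
    exact (lt_div_iff₀ hs).1 h

theorem scl_isCov (ha : 0 < a) {X Y : T.VF M} {V : H} (h : C.IsCov ι X Y V) :
    (scl C a).IsCov (fun X => √a • ι X) X Y (√a • V) := by
  intro Z hZ
  rw [scl_testV ha] at hZ
  rw [inner_sqrt ha, h Z hZ]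
  rfl

theorem scl_isCovT (ha : 0 < a) {X Y : T.VF M} {V : H} (h : IsCovT C ι X Y V) :
    IsCovT (scl C a) (fun X => √a • ι X) X Y (√a • V) := by
  intro Z hZ
  rw [scl_testV ha] at hZ
  rw [inner_sqrt ha, h Z hZ]
  rfl

theorem distSecAll_of_scl {κ : ℝ} (ha : 0 < a) (h : DistSecAll (scl C a) κ) : DistSecAll C κ := by
  intro H _ _ ι hι X Y hX hY f hf hf0 A B D E F G hA hB hD hE hF hG
  have h1 := h H _ (scl_isL2TM ha hι) X Y (by rw [scl_testV ha]; exact hX)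
    (by rw [scl_testV ha]; exact hY) f (by rw [scl_test ha]; exact hf) hf0 _ _ _ _ _ _
    (scl_isCov ha hA) (scl_isCov ha hB) (scl_isCov ha hD) (scl_isCov ha hE) (scl_isCov ha hF)
    (scl_isCovT ha hG)
  rw [← smul_sub, inner_sqrt ha, inner_sqrt ha, inner_sqrt ha, scl_dv ha] at h1
  change κ * (a * C.int fun x => f x * (C.ip X X x * C.ip Y Y x - C.ip X Y x ^ 2)) ≤
    -(a * ⟪A, B⟫_ℝ) - a * C.int (fun x => f x * C.nab Y Y X x * C.dv X x) + a * ⟪D, E⟫_ℝ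
      + a * C.int (fun x => f x * C.nab X Y X x * C.dv Y x) - a * ⟪E - F, G⟫_ℝ at h1
  refine le_of_mul_le_mul_left ?_ ha
  linarith

theorem wd_scl (ha : 0 < a) (h : WD C) : WD (scl C a) := by
  obtain ⟨⟨H, i1, i2, ι, hι⟩, hm, hc⟩ := h
  refine ⟨⟨H, i1, i2, _, scl_isL2TM ha hι⟩, fun f X hf hX => ?_, fun H _ _ ι hι X Y hX hY => ?_⟩
  · rw [scl_testV ha] at hX ⊢
    rw [scl_test ha] at hf
    exact hm f X hf hX
  · have h1 := scl_isL2TM (inv_pos.2 ha) hι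
    rw [scl_scl ha] at h1
    rw [scl_testV ha] at hX hY
    have e : (fun X => √a • √a⁻¹ • ι X) = ι := by
      funext X
      rw [smul_smul, ← Real.sqrt_mul ha.le, mul_inv_cancel₀ ha.ne', Real.sqrt_one, one_smul]
    obtain ⟨⟨V, hV, -⟩, W, hW, -⟩ := hc H _ h1 X Y hX hY
    have h2 := scl_isCov ha hV
    have h3 := scl_isCovT ha hW
    rw [e] at h2 h3
    exact ⟨⟨_, h2, fun V' h => eq_of_inner hι fun Z hZ => (h Z hZ).trans (h2 Z hZ).symm⟩,
      _, h3, fun V' h => eq_of_inner hι fun Z hZ => (h Z hZ).trans (h3 Z hZ).symm⟩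

end models

section measure

variable {M : Type u} [MetricSpace M] [MeasurableSpace M] {m : Measure M} {c : ℝ≥0}

omit [MetricSpace M] in
theorem inv_smul_smul_measure (hc : c ≠ 0) : c⁻¹ • c • m = m := by
  rw [smul_smul, inv_mul_cancel₀ hc, one_smul]

omit [MetricSpace M] in
theorem l2_smul (hc : c ≠ 0) : T.L2 (c • m) = T.L2 m := by
  have key : ∀ (c : ℝ≥0) (m : Measure M) (f : M → ℝ), T.L2 m f → T.L2 (c • m) f :=
    fun c m f h => MemLp.smul_measure (c := (c : ℝ≥0∞)) h ENNReal.coe_ne_top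
  funext f
  refine propext ⟨fun h => ?_, key c m f⟩
  have := key c⁻¹ _ f h
  rwa [inv_smul_smul_measure hc] at this

omit [MetricSpace M] in
theorem conv_smul (hc : c ≠ 0) : T.Conv (c • m) = T.Conv m := by
  have key : ∀ (c : ℝ≥0) (m : Measure M) (v : ℕ → M → ℝ) (f : M → ℝ), T.Conv m v f →
      T.Conv (c • m) v f := by
    intro c m v f h
    unfold T.Conv at h ⊢
    have := ENNReal.Tendsto.const_mul (a := ((c ^ (2 : ℝ≥0∞).toReal⁻¹ : ℝ≥0) : ℝ≥0∞)) h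
      (Or.inr ENNReal.coe_ne_top)
    rw [mul_zero] at this
    refine this.congr fun k => ?_
    rw [eLpNorm_smul_measure_of_ne_top' ENNReal.ofNat_ne_top]
    rfl
  funext v f
  refine propext ⟨fun h => ?_, key c m v f⟩
  have := key c⁻¹ _ v f h
  rwa [inv_smul_smul_measure hc] at this

omit [MetricSpace M] in
theorem ae_smul_eq (hc : c ≠ 0) : ae (c • m) = ae m := by
  refine le_antisymm (Measure.ae_smul_measure_le c) ?_
  have := Measure.ae_smul_measure_le (μ := c • m) c⁻¹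
  rwa [inv_smul_smul_measure hc] at this

theorem relaxed_smul (hc : c ≠ 0) : T.IsRelaxedSlope (c • m) = T.IsRelaxedSlope m := by
  funext f G
  unfold T.IsRelaxedSlope
  rw [l2_smul hc, conv_smul hc, ae_smul_eq hc]

theorem slope_smul (hc : c ≠ 0) : T.slope (c • m) = T.slope m := by
  funext f
  unfold T.slope T.IsMinSlope
  rw [relaxed_smul hc, ae_smul_eq hc]

theorem sob_smul (hc : c ≠ 0) : T.sob (c • m) = scl (T.sob m) c := by
  unfold T.sob scl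
  simp only [l2_smul hc, relaxed_smul hc, slope_smul hc, ae_smul_eq hc,
    integral_smul_nnreal_measure, NNReal.smul_def, smul_eq_mul]

theorem WellDef.smul [BorelSpace M] (hc : c ≠ 0) (h : WellDef m) : WellDef (c • m) := by
  have hc' : (0 : ℝ) < c := NNReal.coe_pos.2 (pos_iff_ne_zero.2 hc)
  have hw := wd_scl hc' h.wd
  rw [← sob_smul hc] at hw
  refine ⟨fun f => w_iff_ch, fun f hf => ⟨Met.W12.spec hf, ch_eq hf⟩, ?_, ?_, hw.2.1, ?_, hw.1,
    hw.2.2⟩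
  · rw [sob_smul hc, scl_isLap hc', scl_lap hc', ae_smul_eq hc]
    exact h.hlap
  · rw [sob_smul hc, scl_test hc']
    exact h.hgam
  · rw [sob_smul hc, scl_test hc', scl_testV hc', scl_dv hc']
    intro f X Y Z W hf hX hY hZ hW
    obtain ⟨h1, h2, h3, h4⟩ := h.hint f X Y Z W hf hX hY hZ hW
    exact ⟨h1.smul_measure_nnreal, h2.smul_measure_nnreal, h3.smul_measure_nnreal,
      h4.smul_measure_nnreal⟩

theorem mul_rpow_aux {a : ℝ≥0∞} (h0 : a ≠ 0) (h1 : a ≠ ∞) (y : ℝ≥0∞) (z : ℝ) :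
    (a * y) ^ z = a ^ z * y ^ z := by
  rcases eq_or_ne y ∞ with rfl | hy
  · exact ENNReal.mul_rpow_of_ne_zero h0 ENNReal.top_ne_zero z
  · exact ENNReal.mul_rpow_of_ne_top h1 hy z

omit [MetricSpace M] in
/-- the entropy inequality is invariant -/
theorem entropy_smul [SigmaFinite m] (hc : c ≠ 0) {μ₀ μ₁ ν : Measure M} [IsFiniteMeasure μ₀]
    [IsFiniteMeasure μ₁] [IsFiniteMeasure ν] (h₀ : μ₀ ≪ m) (h₁ : μ₁ ≪ m) {q : Measure (M × M)}
    (hq : P242.IsCoupling μ₀ μ₁ q) {a b : M × M → ℝ≥0∞} {N : ℝ}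
    (h : ∫⁻ z, (a z * (μ₀.rnDeriv m z.1) ^ (-1 / N) + b z * (μ₁.rnDeriv m z.2) ^ (-1 / N)) ∂q ≤
      ∫⁻ x, (ν.rnDeriv m x) ^ (1 - 1 / N) ∂m) :
    ∫⁻ z, (a z * (μ₀.rnDeriv (c • m) z.1) ^ (-1 / N) +
        b z * (μ₁.rnDeriv (c • m) z.2) ^ (-1 / N)) ∂q ≤
      ∫⁻ x, (ν.rnDeriv (c • m) x) ^ (1 - 1 / N) ∂(c • m) := by
  have c0 : ((c⁻¹ : ℝ≥0) : ℝ≥0∞) ≠ 0 := ENNReal.coe_ne_zero.2 (inv_ne_zero hc)
  have key : ∀ (μ : Measure M) [IsFiniteMeasure μ] (z : ℝ), ∀ᵐ x ∂m,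
      (μ.rnDeriv (c • m) x) ^ z = ((c⁻¹ : ℝ≥0) : ℝ≥0∞) ^ z * (μ.rnDeriv m x) ^ z := by
    intro μ _ z
    filter_upwards [Measure.rnDeriv_smul_right' μ m hc] with x hx
    rw [hx, Pi.smul_apply, ENNReal.smul_def, smul_eq_mul, mul_rpow_aux c0 ENNReal.coe_ne_top]
  have e0 : ∀ᵐ z ∂q, (μ₀.rnDeriv (c • m) z.1) ^ (-1 / N) =
      ((c⁻¹ : ℝ≥0) : ℝ≥0∞) ^ (-1 / N) * (μ₀.rnDeriv m z.1) ^ (-1 / N) := by
    have h2 := h₀.ae_le (key μ₀ (-1 / N))
    rw [← hq.1] at h2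
    have := ae_of_ae_map measurable_fst.aemeasurable h2
    rwa [hq.1] at this
  have e1 : ∀ᵐ z ∂q, (μ₁.rnDeriv (c • m) z.2) ^ (-1 / N) =
      ((c⁻¹ : ℝ≥0) : ℝ≥0∞) ^ (-1 / N) * (μ₁.rnDeriv m z.2) ^ (-1 / N) := by
    have h2 := h₁.ae_le (key μ₁ (-1 / N))
    rw [← hq.2] at h2
    have := ae_of_ae_map measurable_snd.aemeasurable h2
    rwa [hq.2] at this
  have ct : ∀ z : ℝ, ((c⁻¹ : ℝ≥0) : ℝ≥0∞) ^ z ≠ ∞ := fun z =>
    ENNReal.rpow_ne_top_of_ne_zero c0 ENNReal.coe_ne_top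
  calc _ = ∫⁻ z, ((c⁻¹ : ℝ≥0) : ℝ≥0∞) ^ (-1 / N) * (a z * (μ₀.rnDeriv m z.1) ^ (-1 / N) +
          b z * (μ₁.rnDeriv m z.2) ^ (-1 / N)) ∂q := by
        refine lintegral_congr_ae ?_
        filter_upwards [e0, e1] with z g0 g1
        rw [g0, g1]
        ring
    _ ≤ ((c⁻¹ : ℝ≥0) : ℝ≥0∞) ^ (-1 / N) * ∫⁻ x, (ν.rnDeriv m x) ^ (1 - 1 / N) ∂m := by
        rw [lintegral_const_mul' _ _ (ct _)]
        exact mul_le_mul_right h _
    _ = _ := by
        rw [lintegral_smul_measure, lintegral_congr_ae (key ν (1 - 1 / N)),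
          lintegral_const_mul' _ _ (ct _), ENNReal.smul_def, smul_eq_mul, ← mul_assoc]
        congr 1
        rw [show 1 - 1 / N = 1 + -1 / N by ring, ENNReal.rpow_add _ _ c0 ENNReal.coe_ne_top,
          ENNReal.rpow_one, ← mul_assoc, ← ENNReal.coe_mul, mul_inv_cancel₀ hc, ENNReal.coe_one,
          one_mul]

theorem isP2_smul (hc : c ≠ 0) {μ : Measure M} : P242.IsP2 (c • m) μ ↔ P242.IsP2 m μ := by
  unfold P242.IsP2
  rw [← Measure.ae_le_iff_absolutelyContinuous, ← Measure.ae_le_iff_absolutelyContinuous,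
    ae_smul_eq hc]

theorem isCD_smul [SigmaFinite m] (hc : c ≠ 0) {K N : ℝ} (h : P242.IsCD K N m) :
    P242.IsCD K N (c • m) := by
  intro μ₀ μ₁ h₀ h₁
  rw [isP2_smul hc] at h₀ h₁
  obtain ⟨q, Γ, g1, g2, g3, g4, g5, g6⟩ := h μ₀ μ₁ h₀ h₁
  refine ⟨q, Γ, g1, g2, g3, g4, fun t ht => (isP2_smul hc).2 (g5 t ht), fun t ht N' hN' => ?_⟩
  have := h₀.1
  have := h₁.1
  have := (g5 t ht).1
  exact entropy_smul hc h₀.2.1 h₁.2.1 g1.1 (g6 t ht N' hN')

omit [MetricSpace M] in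
theorem ac_of_le {μ : Measure M} {A : Set M} {C : ℝ≥0} (h : μ ≤ C • m.restrict A) : μ ≪ m :=
  (Measure.absolutelyContinuous_of_le h).trans
    (Measure.restrict_le_self.absolutelyContinuous.smul_left C)

theorem isCDb_smul [SigmaFinite m] (hc : c ≠ 0) {K N : ℝ} (h : IsCDb K N m) :
    IsCDb K N (c • m) := by
  rintro μ₀ μ₁ h₀ h₁ ⟨A, C, hA, a0, a1⟩
  rw [Measure.restrict_smul, smul_smul] at a0 a1
  obtain ⟨q, Γ, g1, g2, g3, g4, g5, g6⟩ := h μ₀ μ₁ h₀ h₁ ⟨A, _, hA, a0, a1⟩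
  refine ⟨q, Γ, g1, g2, g3, g4, g5, fun t ht => ?_⟩
  have := g5 t (Ioo_subset_Icc_self ht)
  exact entropy_smul hc (ac_of_le a0) (ac_of_le a1) g1.1 (g6 t ht)

theorem quad_smul (hc : c ≠ 0) (h : ∀ f g, (T.sob m).W f → (T.sob m).W g →
    ∫ x, T.slope m (fun y => f y + g y) x ^ 2 + T.slope m (fun y => f y - g y) x ^ 2 ∂m
      = ∫ x, 2 * T.slope m f x ^ 2 + 2 * T.slope m g x ^ 2 ∂m) :
    ∀ f g, (T.sob (c • m)).W f → (T.sob (c • m)).W g →
    ∫ x, T.slope (c • m) (fun y => f y + g y) x ^ 2 +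
        T.slope (c • m) (fun y => f y - g y) x ^ 2 ∂(c • m)
      = ∫ x, 2 * T.slope (c • m) f x ^ 2 + 2 * T.slope (c • m) g x ^ 2 ∂(c • m) := by
  intro f g hf hg
  rw [sob_smul hc] at hf hg
  rw [slope_smul hc, integral_smul_nnreal_measure, integral_smul_nnreal_measure, h f g hf hg]

theorem fin_smul (h : ∀ (x : M) (r : ℝ), m (Metric.ball x r) < ∞) (x : M) (r : ℝ) :
    (c • m) (Metric.ball x r) < ∞ := by
  rw [Measure.smul_apply]
  exact ENNReal.mul_lt_top ENNReal.coe_lt_top (h x r)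

theorem full_smul (hc : c ≠ 0) (h : m.IsOpenPosMeasure) : (c • m).IsOpenPosMeasure :=
  Measure.isOpenPosMeasure_smul m (ENNReal.coe_ne_zero.2 hc)

theorem isRCD_smul (hc : c ≠ 0) {K N : ℝ} (h : CD.IsRCD m K N) : CD.IsRCD (c • m) K N := by
  have := sigmaFinite_of_ball h.fin
  exact ⟨h.ne, fin_smul h.fin, isCD_smul hc h.cd, quad_smul hc h.quadratic⟩

theorem IsRCDb.smul (hc : c ≠ 0) {K N : ℝ} (h : IsRCDb m K N) : IsRCDb (c • m) K N := by
  have := sigmaFinite_of_ball h.fin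
  exact ⟨h.ne, fin_smul h.fin, isCDb_smul hc h.cd, quad_smul hc h.quadratic⟩

variable [BorelSpace M]

theorem isP2_of_le {μ : Measure M} (hμ : IsProbabilityMeasure μ) {A : Set M} (hA : IsCompact A)
    {C : ℝ≥0} (h : μ ≤ C • m.restrict A) : P242.IsP2 m μ := by
  refine ⟨hμ, ac_of_le h, fun o => ?_⟩
  obtain ⟨R, hR⟩ := hA.isBounded.subset_ball o
  have h1 : ∀ᵐ x ∂μ, x ∈ A :=
    ae_mono h (Measure.ae_smul_measure (ae_restrict_mem hA.measurableSet) C)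
  calc ∫⁻ x, ENNReal.ofReal (dist o x ^ 2) ∂μ ≤ ∫⁻ _, ENNReal.ofReal (R ^ 2) ∂μ := by
        refine lintegral_mono_ae ?_
        filter_upwards [h1] with x hx
        exact ENNReal.ofReal_le_ofReal
          (pow_le_pow_left₀ dist_nonneg (Metric.mem_ball'.1 (hR hx)).le 2)
    _ < ∞ := by
        rw [lintegral_const, measure_univ, mul_one]
        exact ENNReal.ofReal_lt_top

theorem sigma_le_tau {K N t θ : ℝ} (hN : 1 < N) (hθ : 0 ≤ θ) (ht0 : 0 < t) (ht1 : t ≤ 1) :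
    P242.sigmaCoeff K N t θ ≤ P242.tauCoeff K N t θ := by
  rcases lt_or_ge (K * θ ^ 2) ((N - 1) * Real.pi ^ 2) with h | h
  · have hN0 : 0 < N := by linarith
    have hN1 : 0 < N - 1 := by linarith
    have h1 : K * θ ^ 2 < N * Real.pi ^ 2 := by nlinarith [sq_nonneg Real.pi]
    have h2 : K * θ ^ 2 / N < Real.pi ^ 2 := by
      rw [div_lt_iff₀ hN0]
      linarith
    rw [H368.Tau.tau_eq hN hθ ht0.le ht1 h, H368.Tau.sigma_eq hN0 hθ ht0.le h1,
      H368.Tau.sg_eq_exp ht0.le ht1 h2]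
    refine ENNReal.ofReal_le_ofReal (mul_le_mul_of_nonneg_left (Real.exp_le_exp.2 ?_) ht0.le)
    have h3 := H368.Tau.hf_smul_le ht0.le ht1 (H368.Tau.div_lt_pi hN h) (l := (N - 1) / N)
      (by positivity) ((div_le_one hN0).2 (by linarith))
    rwa [show (N - 1) / N * (K * θ ^ 2 / (N - 1)) = K * θ ^ 2 / N by field_simp] at h3
  · rw [H368.Tau.tau_top hN ht0 h]
    exact le_top

theorem isRCDb_of {K N : ℝ} (hN : 1 < N) (h : CD.IsRCD m K N) : IsRCDb m K N := by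
  refine ⟨h.ne, h.fin, ?_, h.quadratic⟩
  rintro μ₀ μ₁ h₀ h₁ ⟨A, C, hA, a0, a1⟩
  obtain ⟨q, Γ, g1, g2, g3, g4, g5, g6⟩ := h.cd μ₀ μ₁ (isP2_of_le h₀ hA a0) (isP2_of_le h₁ hA a1)
  refine ⟨q, Γ, g1, g2, g3, g4, fun t ht => (g5 t ht).1, fun t ht => ?_⟩
  refine le_trans (lintegral_mono fun z => ?_) (g6 t (Ioo_subset_Icc_self ht) N le_rfl)
  exact add_le_add
    (mul_le_mul_left (sigma_le_tau hN dist_nonneg (by linarith [ht.2]) (by linarith [ht.1])) _)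
    (mul_le_mul_left (sigma_le_tau hN dist_nonneg ht.1 ht.2.le) _)

end measure

end Vale.Agent.P233Z
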