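import Vale.Agent.P233Z.BCh
import Vale.Agent.P233.Bd3.B10

/-!
# The second order calculus is well defined, and the curvature functional does not depend on the
model of `L²(TM)`
-/

open MeasureTheory Filter Topology
open scoped ENNReal NNReal InnerProductSpace

universe u

namespace Vale.Agent.P233Z

open Vale.Agent.P233

section models

variable {M : Type u} {C : T.Calc M}
variable {H : Type u} [NormedAddCommGroup H] [InnerProductSpace ℝ H] {ι : T.VF M → H}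
variable {H' : Type u} [NormedAddCommGroup H'] [InnerProductSpace ℝ H'] {ι' : T.VF M → H'}

theorem eq_of_inner (hι : C.IsL2TM ι) {V V' : H}
    (h : ∀ Z, C.TestV Z → ⟪V, ι Z⟫_ℝ = ⟪V', ι Z⟫_ℝ) : V = V' := by
  have h1 : ∀ w : H, ⟪V - V', w⟫_ℝ = 0 := by
    intro w
    have hcl : IsClosed {w : H | ⟪V - V', w⟫_ℝ = 0} :=
      isClosed_eq (by fun_prop) continuous_const
    have hsub : {v | ∃ X, C.TestV X ∧ ι X = v} ⊆ {w : H | ⟪V - V', w⟫_ℝ = 0} := by
      rintro _ ⟨X, hX, rfl⟩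
      change ⟪V - V', ι X⟫_ℝ = 0
      rw [inner_sub_left, h X hX, sub_self]
    refine closure_minimal hsub hcl (Metric.mem_closure_iff.2 fun ε hε => ?_)
    obtain ⟨X, hX, hX'⟩ := hι.2.2 w ε hε
    exact ⟨ι X, ⟨X, hX, rfl⟩, by rw [dist_comm, dist_eq_norm]; exact hX'⟩
  rw [← sub_eq_zero]
  exact inner_self_eq_zero.1 (h1 (V - V'))

/-- `V` and `V'` represent the same functional on test vector fields -/
def Sim (C : T.Calc M) (ι : T.VF M → H) (ι' : T.VF M → H') (V : H) (V' : H') : Prop :=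
  ∀ Z, C.TestV Z → ⟪V, ι Z⟫_ℝ = ⟪V', ι' Z⟫_ℝ

theorem Sim.symm {V : H} {V' : H'} (h : Sim C ι ι' V V') : Sim C ι' ι V' V :=
  fun Z hZ => (h Z hZ).symm

theorem Sim.sub {V W : H} {V' W' : H'} (h : Sim C ι ι' V V') (g : Sim C ι ι' W W') :
    Sim C ι ι' (V - W) (V' - W') := fun Z hZ => by
  rw [inner_sub_left, inner_sub_left, h Z hZ, g Z hZ]

theorem Sim.norm_le (hι : C.IsL2TM ι) (hι' : C.IsL2TM ι') {V : H} {V' : H'}
    (h : Sim C ι ι' V V') : ‖V‖ ≤ ‖V'‖ := by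
  -- `⟪V, w⟫ ≤ ‖V'‖ ‖w‖` on a dense set
  have h1 : ∀ w : H, ⟪V, w⟫_ℝ ≤ ‖V'‖ * ‖w‖ := by
    intro w
    have hcl : IsClosed {w : H | ⟪V, w⟫_ℝ ≤ ‖V'‖ * ‖w‖} :=
      isClosed_le (by fun_prop) (by fun_prop)
    have hsub : {v | ∃ X, C.TestV X ∧ ι X = v} ⊆ {w : H | ⟪V, w⟫_ℝ ≤ ‖V'‖ * ‖w‖} := by
      rintro _ ⟨X, hX, rfl⟩
      change ⟪V, ι X⟫_ℝ ≤ ‖V'‖ * ‖ι X‖
      have e : ‖ι X‖ = ‖ι' X‖ := by
        rw [norm_eq_sqrt_real_inner, norm_eq_sqrt_real_inner, hι.2.1 X X hX hX,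
          hι'.2.1 X X hX hX]
      rw [h X hX, e]
      exact real_inner_le_norm _ _
    refine closure_minimal hsub hcl (Metric.mem_closure_iff.2 fun ε hε => ?_)
    obtain ⟨X, hX, hX'⟩ := hι.2.2 w ε hε
    exact ⟨ι X, ⟨X, hX, rfl⟩, by rw [dist_comm, dist_eq_norm]; exact hX'⟩
  have h2 := h1 V
  rw [real_inner_self_eq_norm_mul_norm] at h2
  rcases (norm_nonneg V).eq_or_lt with h0 | h0
  · rw [← h0]; exact norm_nonneg _
  · exact le_of_mul_le_mul_right h2 h0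

theorem Sim.inner_eq (hι : C.IsL2TM ι) (hι' : C.IsL2TM ι') {V W : H} {V' W' : H'}
    (h : Sim C ι ι' V V') (g : Sim C ι ι' W W') : ⟪V, W⟫_ℝ = ⟪V', W'⟫_ℝ := by
  have e : ∀ {V : H} {V' : H'}, Sim C ι ι' V V' → ‖V‖ = ‖V'‖ := fun h =>
    le_antisymm (h.norm_le hι hι') (h.symm.norm_le hι' hι)
  rw [real_inner_eq_norm_mul_self_add_norm_mul_self_sub_norm_sub_mul_self_div_two,
    real_inner_eq_norm_mul_self_add_norm_mul_self_sub_norm_sub_mul_self_div_two, e h, e g,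
    e (h.sub g)]

theorem distSecAll_of {κ : ℝ} (h : T.DistSecGE C κ) : DistSecAll C κ := by
  obtain ⟨H', i1, i2, ι', hι', h⟩ := h
  intro H _ _ ι hι X Y hX hY f hf hf0 A B D E F G hA hB hD hE hF hG
  obtain ⟨A', B', D', E', F', G', hA', hB', hD', hE', hF', hG', hle⟩ := h X Y hX hY f hf hf0
  have s : ∀ {X Y : T.VF M} {V : H} {V' : H'}, C.IsCov ι X Y V → C.IsCov ι' X Y V' →
      Sim C ι ι' V V' := fun h1 h2 Z hZ => (h1 Z hZ).trans (h2 Z hZ).symm
  have sG : Sim C ι ι' G G' := fun Z hZ => (hG Z hZ).trans (hG' Z hZ).symm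
  rw [(s hA hA').inner_eq hι hι' (s hB hB'), (s hD hD').inner_eq hι hι' (s hE hE'),
    ((s hE hE').sub (s hF hF')).inner_eq hι hι' sG]
  exact hle

/-- the part of `WellDef` that concerns `L²(TM)` -/
def WD (C : T.Calc M) : Prop :=
  (∃ (H : Type u) (_ : NormedAddCommGroup H) (_ : InnerProductSpace ℝ H) (ι : T.VF M → H),
    C.IsL2TM ι) ∧
  (∀ f X, C.Test f → C.TestV X → C.TestV (T.Calc.mul f X)) ∧
  ∀ (H : Type u) [NormedAddCommGroup H] [InnerProductSpace ℝ H] (ι : T.VF M → H), C.IsL2TM ι →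
    ∀ X Y, C.TestV X → C.TestV Y → (∃! V, C.IsCov ι X Y V) ∧ ∃! G, IsCovT C ι X Y G

theorem distSecGE_of {κ : ℝ} (hW : WD C) (h : DistSecAll C κ) : T.DistSecGE C κ := by
  obtain ⟨⟨H, i1, i2, ι, hι⟩, hm, hc⟩ := hW
  refine ⟨H, i1, i2, ι, hι, fun X Y hX hY f hf hf0 => ?_⟩
  have hfX := hm f X hf hX
  obtain ⟨A, hA, -⟩ := (hc H ι hι X _ hX hfX).1
  obtain ⟨B, hB, -⟩ := (hc H ι hι Y Y hY hY).1
  obtain ⟨D, hD, -⟩ := (hc H ι hι Y _ hY hfX).1
  obtain ⟨E, hE, -⟩ := (hc H ι hι X Y hX hY).1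
  obtain ⟨F, hF, -⟩ := (hc H ι hι Y X hY hX).1
  obtain ⟨G, hG, -⟩ := (hc H ι hι Y _ hY hfX).2
  exact ⟨A, B, D, E, F, G, hA, hB, hD, hE, hF, hG,
    h H ι hι X Y hX hY f hf hf0 A B D E F G hA hB hD hE hF hG⟩

end models

theorem WellDef.wd {M : Type u} [MetricSpace M] [MeasurableSpace M] {m : Measure M}
    (h : WellDef m) : WD (T.sob m) :=
  ⟨h.hmodel, h.hmul, h.hcov⟩

variable {M : Type u} [MetricSpace M] [CompleteSpace M] [SecondCountableTopology M]
  [MeasurableSpace M] [BorelSpace M] {m : Measure M}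

theorem wellDef_of {K N : ℝ} (hN : 0 < N) (h : T.IsRCD m K N) : WellDef m := by
  have hS := T_rcd h
  have hR := isRCD_of_S hS
  have hfin := ball_lt_top_of_growth hR.growth
  have hC : IsGamma (sob m) := isGamma_sob hfin hR.quadratic hR.sobolev_to_lipschitz
  have hB : (sob m).BEi K := hC.bei hN hR.bochner
  have hsf : SigmaFinite m := sigmaFinite_of_ball hfin
  obtain ⟨Gr, hG, -⟩ := hC.toIsDir.exists_grad
  obtain ⟨U, hU⟩ := hC.exists_HU hB hG
  refine ⟨fun f => w_iff_ch, fun f hf => ⟨Met.W12.spec (S_W_iff.1 hf), ch_eq hf⟩, fun f k hk => ?_,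
    fun f g hf hg => ?_, fun f X hf hX => ?_, fun f X Y Z W hf hX hY hZ hW => ?_, ?_,
    fun H _ _ ι hι X Y hX hY => ?_⟩
  · have hk' : (S.sob m).IsLap f k := hk
    have h1 : ∃ k, (S.sob m).IsLap f k := ⟨k, hk'⟩
    have h2 : (S.sob m).IsLap f ((S.sob m).lap f) := by
      unfold S.Calc.lap
      rw [dif_pos h1]
      exact h1.choose_spec
    obtain ⟨F, hF, -⟩ := S_W_exists hk'.1
    obtain ⟨L, hL⟩ := S_L2_exists h2.2.1
    obtain ⟨L', hL'⟩ := S_L2_exists hk'.2.1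
    have e : L = L' := (hC.toIsDir.lap_eq ((hF.isLap_iff hL).1 h2)).symm.trans
      (hC.toIsDir.lap_eq ((hF.isLap_iff hL').1 hk'))
    subst e
    exact EventuallyEq.trans hL hL'.symm
  · obtain ⟨F, hF, hF'⟩ := S_test_exists (m := m) hf
    obtain ⟨G, hG1, hG'⟩ := S_test_exists (m := m) hg
    exact (hF.Γ hG1 (hC.test_A hF').1 (hC.test_A hG').1).W_iff.2 (hC.Γ_mem hB hF' hG').1
  · obtain ⟨F, hF, hF'⟩ := S_test_exists (m := m) hf
    exact (RV_mulV hC hB (RV_clsV (m := m) hX) hF hF').testV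
  · obtain ⟨F, hF, hF'⟩ := S_test_exists (m := m) hf
    have rX := RV_clsV (m := m) hX
    have rY := RV_clsV (m := m) hY
    have rZ := RV_clsV (m := m) hZ
    have rW := RV_clsV (m := m) hW
    have t : ∀ {X Y : List ((M →ₘ[m] ℝ) × (M →ₘ[m] ℝ))}, (sob m).IsTestV X →
        (sob m).IsTestV Y → MemLp ((sob m).ip X Y) ∞ m := by
      intro X Y hX hY
      unfold Calc.ip
      refine mem_ls fun p hp => mem_ls fun q hq => ?_
      exact mem_mul_top (mem_mul_top (hC.test_A (hX p hp).1).2 (hC.test_A (hY q hq).1).2)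
        (hC.Γ_mem hB (hX p hp).2 (hY q hq).2).2
    have o : ∀ {X Y : List ((M →ₘ[m] ℝ) × (M →ₘ[m] ℝ))}, (sob m).IsTestV X →
        (sob m).IsTestV Y → MemLp ((sob m).ip X Y) 1 m := by
      intro X Y hX hY
      unfold Calc.ip
      refine mem_ls fun p hp => mem_ls fun q hq => ?_
      exact mem_mul_top (mem_mul_top (hC.test_A (hX p hp).1).2 (hC.test_A (hY q hq).1).2)
        (hC.Γ_mem1 (hC.tW (hX p hp).2) (hC.tW (hY q hq).2))
    have n1 : ∀ {X Y Z : List ((M →ₘ[m] ℝ) × (M →ₘ[m] ℝ))}, (sob m).IsTestV X →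
        (sob m).IsTestV Y → (sob m).IsTestV Z → MemLp ((sob m).nab X Y Z) 1 m := by
      intro X Y Z hX hY hZ
      unfold Calc.nab
      refine mem_ls fun p hp => mem_ls fun q hq => mem_ls fun r hr => ?_
      exact mem_mul_22 (mem_mul_top (hC.test_A (hX p hp).1).2 (hC.memLp _ (hC.tW (hZ r hr).1)))
        (mem_add (mem_mul_top (hC.Γ_mem hB (hX p hp).2 (hY q hq).1).2
          (hC.memLp _ (hC.Γ_mem hB (hY q hq).2 (hZ r hr).2).1))
        (mem_mul_top (hC.test_A (hY q hq).1).2 (hC.hess_mem2 hB (hY q hq).2 (hX p hp).2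
          (hZ r hr).2)))
    refine ⟨(int_of_mem (o rX.isTestV rY.isTestV)).congr (EventuallyEq.symm (rX.ip rY hC)),
      (int_of_mem (n1 rX.isTestV rY.isTestV rZ.isTestV)).congr
        (EventuallyEq.symm (RV.nab hC hB rX rY rZ)),
      (int_of_mem (mem_mul_22 (mem_mul_top (hC.test_A hF').2
        (nab_mem2 hC hB rX.isTestV rY.isTestV rZ.isTestV)) (dv_mem2 hC hB rW.isTestV))).congr
        (EventuallyEq.symm ((hF.mul (RV.nab hC hB rX rY rZ)).mul (rW.dv hC))), ?_⟩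
    refine Integrable.congr (int_of_mem (mem_mul_top (hC.test_A hF').2 ?_))
      (EventuallyEq.symm (hF.mul (R.sub ((rX.ip rX hC).mul (rY.ip rY hC)) (rX.ip rY hC).sq)))
    rw [sq]
    exact mem_sub (mem_mul_top (t rX.isTestV rX.isTestV) (o rY.isTestV rY.isTestV))
      (mem_mul_top (t rX.isTestV rY.isTestV) (o rX.isTestV rY.isTestV))
  · obtain ⟨H, i1, i2, i3, ι, hι⟩ := hG.exists_model hC hB
    refine ⟨H, i1, i2, fun X => ι (clsV m X), i3, ?_, ?_⟩
    · intro X Y hX hY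
      have rX := RV_clsV (m := m) hX
      have rY := RV_clsV (m := m) hY
      rw [hι.1 _ _ rX.isTestV rY.isTestV]
      exact ((rX.ip rY hC).int).symm
    · intro v ε hε
      obtain ⟨w, ⟨X', hX', rfl⟩, hw⟩ := Metric.mem_closure_iff.1 (hι.2 v) ε hε
      have r := RV_coeV hX'
      refine ⟨coeV X', r.testV, ?_⟩
      have e : clsV m (coeV X') = X' := by
        unfold clsV coeV
        rw [List.map_map]
        conv_rhs => rw [← List.map_id X']
        refine List.map_congr_left fun p _ => ?_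
        simp only [Function.comp, id, R_cls (R.coe p.1), R_cls (R.coe p.2)]
      change ‖ι (clsV m (coeV X')) - v‖ < ε
      rw [e, ← dist_eq_norm, dist_comm]
      exact hw
  · have hιS : (S.sob m).IsL2TM ι := hι
    have hcs : CompleteSpace H := hιS.1
    have hι' := isL2TM_coe hC hιS
    have rX := RV_clsV (m := m) hX
    have rY := RV_clsV (m := m) hY
    constructor
    · obtain ⟨V, hV⟩ := (covE_rep hC hB hG hU hι' rX.isTestV rY.isTestV).1
      have h1 : (T.sob m).IsCov ι X Y V := ((rep_cov hC hB hιS rX rY).1 _).2 hV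
      exact ⟨V, h1, fun V' h2 => eq_of_inner hι fun Z hZ => (h2 Z hZ).trans (h1 Z hZ).symm⟩
    · obtain ⟨V, hV⟩ := (covTE_rep hC hB hG hU hι' rX.isTestV rY.isTestV).1
      have h1 : IsCovT (T.sob m) ι X Y V := ((rep_covT hC hB hιS rX rY).1 _).2 hV
      exact ⟨V, h1, fun V' h2 => eq_of_inner hι fun Z hZ => (h2 Z hZ).trans (h1 Z hZ).symm⟩

end Vale.Agent.P233Z
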