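import Vale.Agent.P233.CD.Defs

/-!
# P233: Alexandrov spaces as length spaces, and condition (B) without existence clauses
-/

open MeasureTheory Set Real Filter
open scoped ENNReal NNReal InnerProductSpace

universe u

namespace Vale.Agent.P233Z

open Vale.Agent.P233 Vale.Agent.P242

section Metric

variable (M : Type u) [MetricSpace M]

/-- A length space: any two points are joined by curves whose length is arbitrarily close to their
distance. -/
def IsLength : Prop :=
  ∀ x y : M, ∀ ε > 0, ∃ γ : ℝ → M, ContinuousOn γ (Icc 0 1) ∧ γ 0 = x ∧ γ 1 = y ∧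
    eVariationOn γ (Icc 0 1) ≤ ENNReal.ofReal (dist x y + ε)

variable {M} in
/-- `γ` is a geodesic from `x` to `y`, parametrized by arc length on `[0, |xy|]`. -/
def IsSeg (γ : ℝ → M) (x y : M) : Prop :=
  γ 0 = x ∧ γ (dist x y) = y ∧
    ∀ s ∈ Icc 0 (dist x y), ∀ t ∈ Icc 0 (dist x y), dist (γ s) (γ t) = |s - t|

/-- All geodesic triangles (of perimeter `< 2π/√κ` when `κ > 0`) satisfy lower triangle comparison
with the plane of constant curvature `κ`. -/
def TriCmp (κ : ℝ) : Prop :=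
  ∀ (p x y : M) (α β γ : ℝ → M), IsSeg α p x → IsSeg β p y → IsSeg γ x y →
    √κ * (dist p x + dist p y + dist x y) < 2 * π → ∀ s ∈ Icc 0 (dist x y),
      T.Cmp κ (dist p x) (dist p y) s (dist x y - s) (dist p (γ s))

/-- The angle between the sides `a`, `b` of the triangle with the sides `a`, `b`, `c` in the plane
of constant curvature `κ`. -/
noncomputable def ang (κ a b c : ℝ) : ℝ :=
  if κ = 0 then arccos ((a ^ 2 + b ^ 2 - c ^ 2) / (2 * a * b))
  else if 0 < κ then
    arccos ((cos (√κ * c) - cos (√κ * a) * cos (√κ * b)) / (sin (√κ * a) * sin (√κ * b)))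
  else arccos ((cosh (√(-κ) * a) * cosh (√(-κ) * b) - cosh (√(-κ) * c)) /
    (sinh (√(-κ) * a) * sinh (√(-κ) * b)))

/-- The (1+3)-point comparison of Burago, Gromov and Perelman: the sum of the three comparison
angles at `p` is at most `2π` whenever they are defined. -/
def FourPoint (κ : ℝ) : Prop :=
  ∀ p x y z : M, p ≠ x → p ≠ y → p ≠ z → √κ * (dist p x + dist p y + dist x y) < 2 * π →
    √κ * (dist p y + dist p z + dist y z) < 2 * π →
    √κ * (dist p x + dist p z + dist x z) < 2 * π →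
    ang κ (dist p x) (dist p y) (dist x y) + ang κ (dist p y) (dist p z) (dist y z) +
      ang κ (dist p x) (dist p z) (dist x z) ≤ 2 * π

end Metric

section Measure

variable {M : Type u} [MetricSpace M] [MeasurableSpace M]

/-- A weak form of the reduced condition `CD*(K,N)` of Bacher and Sturm (coefficients `σ ≤ τ`): only
for marginals with compact support and bounded density, only for the exponent `N`, and along a
`W₂`-geodesic of probability measures. -/
def IsCDb (K N : ℝ) (m : Measure M) : Prop :=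
  ∀ μ₀ μ₁ : Measure M, IsProbabilityMeasure μ₀ → IsProbabilityMeasure μ₁ →
    (∃ (A : Set M) (C : ℝ≥0), IsCompact A ∧ μ₀ ≤ C • m.restrict A ∧ μ₁ ≤ C • m.restrict A) →
    ∃ (q : Measure (M × M)) (ν : ℝ → Measure M),
      IsOptimalCoupling μ₀ μ₁ q ∧ ν 0 = μ₀ ∧ ν 1 = μ₁ ∧ IsW2Geodesic ν ∧
      (∀ t ∈ Icc (0 : ℝ) 1, IsProbabilityMeasure (ν t)) ∧
      ∀ t ∈ Ioo (0 : ℝ) 1,
        ∫⁻ z, (sigmaCoeff K N (1 - t) (dist z.1 z.2) * (μ₀.rnDeriv m z.1) ^ (-1 / N) +
          sigmaCoeff K N t (dist z.1 z.2) * (μ₁.rnDeriv m z.2) ^ (-1 / N)) ∂q ≤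
        ∫⁻ x, ((ν t).rnDeriv m x) ^ (1 - 1 / N) ∂m

/-- The Cheeger energy: the `L²`-lower semicontinuous envelope of `½ ∫ lip(u)² dm`. -/
noncomputable def Ch (m : Measure M) (f : M → ℝ) : ℝ≥0∞ :=
  2⁻¹ * ⨅ (v : ℕ → M → ℝ)
    (_ : (∀ k, (∃ K, LipschitzWith K (v k)) ∧ T.L2 m (v k)) ∧ T.Conv m v f),
    liminf (fun k => ∫⁻ x, T.lipAt (v k) x ^ 2 ∂m) atTop

/-- `M` is nonempty, `m` is finite on bounded sets and has full support, and the Cheeger energy is
a quadratic form on `L²`. -/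
structure IsHilb (m : Measure M) : Prop where
  ne : Nonempty M
  fin : ∀ (x : M) (r : ℝ), m (Metric.ball x r) < ∞
  full : m.IsOpenPosMeasure
  quadratic : ∀ f g, T.L2 m f → T.L2 m g →
    Ch m (f + g) + Ch m (f - g) = 2 * Ch m f + 2 * Ch m g

end Measure

section Calculus

variable {M : Type u} (C : T.Calc M)

/-- `G = ⟨∇_• Y, P⟩` in `L²(TM)`. -/
def IsCovT {H : Type u} [NormedAddCommGroup H] [InnerProductSpace ℝ H] (ι : T.VF M → H)
    (Y P : T.VF M) (G : H) : Prop :=
  ∀ Z, C.TestV Z → ⟪G, ι Z⟫_ℝ = C.int (C.nab Z Y P)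

/-- Distributional sectional curvature `≥ κ`, as a mere inequality (nothing is assumed to exist):
with `A = ∇_X (f X)`, `Q = ∇_Y Y`, `D = ∇_Y (f X)`, `E = ∇_X Y`, `F = ∇_Y X`, `G = ⟨∇_• Y, f X⟩`
in `L²(TM)`, the right side is `R(X,Y,Y,X)(f)`. -/
def DistSecAll (κ : ℝ) : Prop :=
  ∀ (H : Type u) [NormedAddCommGroup H] [InnerProductSpace ℝ H] (ι : T.VF M → H), C.IsL2TM ι →
    ∀ X Y, C.TestV X → C.TestV Y → ∀ f, C.Test f → C.ae (fun x => 0 ≤ f x) →
    ∀ A Q D E F G : H, C.IsCov ι X (T.Calc.mul f X) A → C.IsCov ι Y Y Q →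
      C.IsCov ι Y (T.Calc.mul f X) D → C.IsCov ι X Y E → C.IsCov ι Y X F →
      IsCovT C ι Y (T.Calc.mul f X) G →
      κ * C.int (fun x => f x * (C.ip X X x * C.ip Y Y x - C.ip X Y x ^ 2)) ≤
        -⟪A, Q⟫_ℝ - C.int (fun x => f x * C.nab Y Y X x * C.dv X x)
          + ⟪D, E⟫_ℝ + C.int (fun x => f x * C.nab X Y X x * C.dv Y x) - ⟪E - F, G⟫_ℝ

end Calculus

/-- The calculus of `(M,d,m)` is well defined, no default value is used: `W^{1,2}` is the domain of
the Cheeger energy, the minimal relaxed slope exists and represents it, `Δf` is unique,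
`⟨∇f,∇g⟩ ∈ W^{1,2}` for test functions, `f X` is a test vector field, the integrands are
integrable, `L²(TM)` exists, and the covariant derivatives of test vector fields exist in `L²(TM)`
and are unique. -/
structure WellDef {M : Type u} [MetricSpace M] [MeasurableSpace M] (m : Measure M) : Prop where
  hsobolev : ∀ f, (T.sob m).W f ↔ T.L2 m f ∧ Ch m f < ∞
  hslope : ∀ f, (T.sob m).W f → T.IsMinSlope m f (T.slope m f) ∧
    Ch m f = ENNReal.ofReal ((∫ x, T.slope m f x ^ 2 ∂m) / 2)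
  hlap : ∀ f h, (T.sob m).IsLap f h → (T.sob m).lap f =ᵐ[m] h
  hgam : ∀ f g, (T.sob m).Test f → (T.sob m).Test g → (T.sob m).W ((T.sob m).Γ f g)
  hmul : ∀ f X, (T.sob m).Test f → (T.sob m).TestV X → (T.sob m).TestV (T.Calc.mul f X)
  hint : ∀ f X Y Z P, (T.sob m).Test f → (T.sob m).TestV X → (T.sob m).TestV Y →
    (T.sob m).TestV Z → (T.sob m).TestV P → Integrable ((T.sob m).ip X Y) m ∧
    Integrable ((T.sob m).nab X Y Z) m ∧
    Integrable (fun x => f x * (T.sob m).nab X Y Z x * (T.sob m).dv P x) m ∧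
    Integrable (fun x => f x * ((T.sob m).ip X X x * (T.sob m).ip Y Y x
      - (T.sob m).ip X Y x ^ 2)) m
  hmodel : ∃ (H : Type u) (_ : NormedAddCommGroup H) (_ : InnerProductSpace ℝ H)
    (ι : T.VF M → H), (T.sob m).IsL2TM ι
  hcov : ∀ (H : Type u) [NormedAddCommGroup H] [InnerProductSpace ℝ H] (ι : T.VF M → H),
    (T.sob m).IsL2TM ι → ∀ X Y, (T.sob m).TestV X → (T.sob m).TestV Y →
      (∃! V, (T.sob m).IsCov ι X Y V) ∧ ∃! G, IsCovT (T.sob m) ι X Y G

end Vale.Agent.P233Z
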