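import Vale.Agent.P233.AB.StmtAB
import Mathlib.Topology.MetricSpace.HausdorffDimension

/-!
# P233: the textbook definitions of an Alexandrov space with curvature bounded below

All of them are stated for length spaces; geodesics are not assumed to exist globally.
-/

open Real Set Topology

universe u

namespace Vale.Agent.P233Z

/-- A length space: any two points `x`, `y` are joined by curves whose length (the total variation)
is arbitrarily close to `|xy|`. -/
def IsLengthSpace (M : Type u) [MetricSpace M] : Prop :=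
  ∀ x y : M, ∀ ε > 0, ∃ γ : ℝ → M, ContinuousOn γ (Icc 0 1) ∧ γ 0 = x ∧ γ 1 = y ∧
    eVariationOn γ (Icc 0 1) ≤ ENNReal.ofReal (dist x y + ε)

/-- The angle between the sides `a`, `b` of the triangle with the sides `a`, `b`, `c` in the simply
connected surface of constant curvature `κ` (law of cosines). -/
noncomputable def modelAngle (κ a b c : ℝ) : ℝ :=
  arccos (if κ = 0 then (a ^ 2 + b ^ 2 - c ^ 2) / (2 * a * b)
    else if 0 < κ then
      (cos (√κ * c) - cos (√κ * a) * cos (√κ * b)) / (sin (√κ * a) * sin (√κ * b))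
    else (cosh (√(-κ) * a) * cosh (√(-κ) * b) - cosh (√(-κ) * c)) /
      (sinh (√(-κ) * a) * sinh (√(-κ) * b)))

variable {M : Type u} [MetricSpace M]

/-- The comparison angle at `p` of the triple `p, x, y`. -/
noncomputable def ang (κ : ℝ) (p x y : M) : ℝ := modelAngle κ (dist p x) (dist p y) (dist x y)

/-- The perimeter of `p, x, y` is `< 2π/√κ` if `κ > 0` (no condition if `κ ≤ 0`, where `√κ = 0`). -/
def Small (κ : ℝ) (p x y : M) : Prop := √κ * (dist p x + dist p y + dist x y) < 2 * π

/-- The `(1+3)`-point (quadruple) comparison for points of `U`: the sum of the three comparison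
angles at `p` is at most `2π`, whenever they are defined. -/
def QuadOn (κ : ℝ) (U : Set M) : Prop :=
  ∀ p ∈ U, ∀ x ∈ U, ∀ y ∈ U, ∀ z ∈ U, x ≠ p → y ≠ p → z ≠ p →
    Small κ p x y → Small κ p y z → Small κ p z x →
    ang κ p x y + ang κ p y z + ang κ p z x ≤ 2 * π

/-- `γ` is a geodesic (a shortest path, with unit speed) from `x` to `y`. -/
def IsGeod (γ : ℝ → M) (x y : M) : Prop :=
  γ 0 = x ∧ γ (dist x y) = y ∧
    ∀ s ∈ Icc 0 (dist x y), ∀ t ∈ Icc 0 (dist x y), dist (γ s) (γ t) = |s - t|

/-- Lower triangle comparison for the geodesic triangles with vertices `p, x, y` in `U` (of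
perimeter `< 2π/√κ` if `κ > 0`) and sides `α, β, γ`: the distance from the vertex `p` to any point of
the opposite side `γ` is at least the corresponding distance in the comparison triangle. -/
def TriOn (κ : ℝ) (U : Set M) : Prop :=
  ∀ p ∈ U, ∀ x ∈ U, ∀ y ∈ U, ∀ α β γ : ℝ → M, IsGeod α p x → IsGeod β p y → IsGeod γ x y →
    Small κ p x y → ∀ s ∈ Icc 0 (dist x y),
      P233.T.Cmp κ (dist p x) (dist p y) s (dist x y - s) (dist p (γ s))

/-- Any two points of `U` are joined by a geodesic of `M`. -/
def GeodOn (U : Set M) : Prop := ∀ x ∈ U, ∀ y ∈ U, ∃ γ : ℝ → M, IsGeod γ x y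

/-- A length space of Hausdorff dimension `n` with the `(1+3)`-point comparison for all quadruples
(Alexander, Kapovitch, Petrunin). -/
def IsAlexQuad (M : Type u) [MetricSpace M] (n : ℕ) (κ : ℝ) : Prop :=
  IsLengthSpace M ∧ QuadOn κ (univ : Set M) ∧ dimH (univ : Set M) = n

/-- A length space of Hausdorff dimension `n` in which every point has a neighbourhood with the
`(1+3)`-point comparison (Burago, Gromov, Perelman). -/
def IsAlexLoc (M : Type u) [MetricSpace M] (n : ℕ) (κ : ℝ) : Prop :=
  IsLengthSpace M ∧ (∀ o : M, ∃ U ∈ 𝓝 o, QuadOn κ U) ∧ dimH (univ : Set M) = n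

/-- A length space of Hausdorff dimension `n` in which geodesics exist locally and all geodesic
triangles (of perimeter `< 2π/√κ` if `κ > 0`) satisfy lower triangle comparison. -/
def IsAlexTri (M : Type u) [MetricSpace M] (n : ℕ) (κ : ℝ) : Prop :=
  IsLengthSpace M ∧ (∀ o : M, ∃ U ∈ 𝓝 o, GeodOn U) ∧ TriOn κ (univ : Set M) ∧
    dimH (univ : Set M) = n

/-- A length space of Hausdorff dimension `n` in which every point has a neighbourhood whose points
are joined by geodesics and whose geodesic triangles satisfy lower triangle comparison (Burago,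
Burago, Ivanov). -/
def IsAlexTriLoc (M : Type u) [MetricSpace M] (n : ℕ) (κ : ℝ) : Prop :=
  IsLengthSpace M ∧ (∀ o : M, ∃ U ∈ 𝓝 o, GeodOn U ∧ TriOn κ U) ∧ dimH (univ : Set M) = n

end Vale.Agent.P233Z
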