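import Vale.Agent.P233Z.Defs
import Mathlib.Analysis.Complex.UpperHalfPlane.Metric
import Mathlib.Geometry.Euclidean.Angle.Unoriented.Basic
import Mathlib.Analysis.InnerProductSpace.PiL2

/-!
# P233: triangle comparison with triangles in the model surfaces themselves
-/

open Set Real

universe u

namespace Vale.Agent.P233Z

/-- In the surface `S` with the distance `d` there is a triangle `P X Y` with `|PX| = a`, `|PY| = b`,
`|XY| = s + t` and a point `W` of the side `XY` with `|XW| = s`, `|WY| = t`, and `|PW| ≤ r` for all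
such points. -/
def CmpIn {S : Type} (d : S → S → ℝ) (a b s t r : ℝ) : Prop :=
  (∃ P X Y W, d P X = a ∧ d P Y = b ∧ d X Y = s + t ∧ d X W = s ∧ d W Y = t) ∧
    ∀ P X Y W, d P X = a → d P Y = b → d X Y = s + t → d X W = s → d W Y = t → d P W ≤ r

/-- Comparison with the simply connected surface of constant curvature `κ`: the Euclidean plane,
the round sphere of radius `1/√κ`, or the hyperbolic plane scaled by `1/√(-κ)`. -/
def ModelCmp (κ a b s t r : ℝ) : Prop :=
  (κ = 0 → CmpIn (fun P Q : EuclideanSpace ℝ (Fin 2) => dist P Q) a b s t r) ∧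
  (0 < κ → CmpIn (fun P Q : Metric.sphere (0 : EuclideanSpace ℝ (Fin 3)) 1 =>
    InnerProductGeometry.angle P.1 Q.1 / √κ) a b s t r) ∧
  (κ < 0 → CmpIn (fun P Q : UpperHalfPlane => dist P Q / √(-κ)) a b s t r)

/-- All geodesic triangles (of perimeter `< 2π/√κ` when `κ > 0`) satisfy lower triangle comparison
with the simply connected surface of constant curvature `κ`. -/
def TriModel (M : Type u) [MetricSpace M] (κ : ℝ) : Prop :=
  ∀ (p x y : M) (α β γ : ℝ → M), IsSeg α p x → IsSeg β p y → IsSeg γ x y →
    √κ * (dist p x + dist p y + dist x y) < 2 * π → ∀ s ∈ Icc 0 (dist x y),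
      ModelCmp κ (dist p x) (dist p y) s (dist x y - s) (dist p (γ s))

end Vale.Agent.P233Z
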