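import Mathlib.Topology.MetricSpace.Bounded
import Mathlib.Topology.MetricSpace.Isometry
import Mathlib.Topology.MetricSpace.ProperSpace.Real
import Mathlib.Order.Filter.Ultrafilter.Basic
import Mathlib.Analysis.SpecificLimits.Basic

/-!
# The ultrapower of a metric space
-/

open Filter Topology Set

universe u

namespace Vale.Agent.P233Z

/-- the ultrafilter -/
noncomputable def UF : Ultrafilter ℕ := hyperfilter ℕ

theorem UF_le : (UF : Filter ℕ) ≤ atTop := Nat.hyperfilter_le_atTop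

theorem tendsto_lim {f : ℕ → ℝ} {C : ℝ} (h : ∀ i, |f i| ≤ C) :
    Tendsto f (UF : Filter ℕ) (𝓝 (limUnder (UF : Filter ℕ) f)) := by
  have h1 : ∃ a, Tendsto f (UF : Filter ℕ) (𝓝 a) := by
    obtain ⟨a, -, ha⟩ := (isCompact_Icc (a := -C) (b := C)).ultrafilter_le_nhds (UF.map f) (by
      rw [le_principal_iff]
      exact mem_map.2 (Eventually.of_forall fun i => abs_le.1 (h i)))
    exact ⟨a, ha⟩
  exact tendsto_nhds_limUnder h1

variable {M : Type u} [MetricSpace M]

/-- bounded sequences -/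
def Bd (x : ℕ → M) : Prop := ∃ C : ℝ, ∀ i, dist (x i) (x 0) ≤ C

theorem Bd.const (a : M) : Bd (fun _ : ℕ => a) := ⟨0, fun _ => by simp⟩

theorem Bd.dist_le {x y : ℕ → M} (hx : Bd x) (hy : Bd y) : ∃ C : ℝ, ∀ i, |dist (x i) (y i)| ≤ C := by
  obtain ⟨C, hC⟩ := hx
  obtain ⟨D, hD⟩ := hy
  refine ⟨C + dist (x 0) (y 0) + D, fun i => ?_⟩
  rw [abs_of_nonneg dist_nonneg]
  have h1 := dist_triangle4 (x i) (x 0) (y 0) (y i)
  rw [dist_comm (y 0) (y i)] at h1
  linarith [hC i, hD i]

theorem Bd.of_dist_le {x y : ℕ → M} (hx : Bd x) {C : ℝ} (h : ∀ i, dist (x i) (y i) ≤ C) :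
    Bd y := by
  obtain ⟨D, hD⟩ := hx
  refine ⟨C + D + C, fun i => ?_⟩
  have h1 := dist_triangle4 (y i) (x i) (x 0) (y 0)
  rw [dist_comm (y i) (x i)] at h1
  linarith [hD i, h i, h 0]

/-- the space of bounded sequences -/
def BS (M : Type u) [MetricSpace M] : Type u := {x : ℕ → M // Bd x}

theorem BS.tendsto (x y : BS M) : Tendsto (fun i => dist (x.1 i) (y.1 i)) (UF : Filter ℕ)
    (𝓝 (limUnder (UF : Filter ℕ) fun i => dist (x.1 i) (y.1 i))) := by
  obtain ⟨C, hC⟩ := x.2.dist_le y.2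
  exact tendsto_lim hC

/-- the limit distance -/
@[reducible] noncomputable def BS.pm (M : Type u) [MetricSpace M] : PseudoMetricSpace (BS M) where
  dist x y := limUnder (UF : Filter ℕ) fun i => dist (x.1 i) (y.1 i)
  dist_self x := by
    refine tendsto_nhds_unique (BS.tendsto x x) ?_
    simp only [dist_self]
    exact tendsto_const_nhds
  dist_comm x y := by simp only [dist_comm]
  dist_triangle x y z := le_of_tendsto_of_tendsto' (BS.tendsto x z)
    ((BS.tendsto x y).add (BS.tendsto y z)) fun i => dist_triangle _ _ _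

/-- `N` is an ultrapower of `M` -/
structure Ultra (M : Type u) [MetricSpace M] (N : Type u) [MetricSpace N] (j : M → N)
    (rep : N → ℕ → M) : Prop where
  bd : ∀ z, Bd (rep z)
  lim : ∀ z w, Tendsto (fun i => dist (rep z i) (rep w i)) (UF : Filter ℕ) (𝓝 (dist z w))
  limj : ∀ z x, Tendsto (fun i => dist (rep z i) x) (UF : Filter ℕ) (𝓝 (dist z (j x)))
  iso : ∀ x y, dist (j x) (j y) = dist x y
  sat : ∀ x : ℕ → M, Bd x → ∃ z, ∀ w,
    Tendsto (fun i => dist (x i) (rep w i)) (UF : Filter ℕ) (𝓝 (dist z w))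

theorem exists_ultra (M : Type u) [MetricSpace M] :
    ∃ (N : Type u) (_ : MetricSpace N) (j : M → N) (rep : N → ℕ → M), Ultra M N j rep := by
  letI := BS.pm M
  have hs : ∀ z : SeparationQuotient (BS M), ∃ x, SeparationQuotient.mk x = z :=
    SeparationQuotient.surjective_mk
  choose r hr using hs
  have key : ∀ x y : BS M, Tendsto (fun i => dist (x.1 i) (y.1 i)) (UF : Filter ℕ)
      (𝓝 (dist (SeparationQuotient.mk x) (SeparationQuotient.mk y))) := fun x y => by
    rw [SeparationQuotient.dist_mk]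
    exact BS.tendsto x y
  refine ⟨SeparationQuotient (BS M), inferInstance,
    fun a => SeparationQuotient.mk (⟨fun _ => a, Bd.const a⟩ : BS M), fun z => (r z).1,
    fun z => (r z).2, fun z w => ?_, fun z a => ?_, fun a b => ?_, fun x hx => ?_⟩
  · have := key (r z) (r w)
    rwa [hr, hr] at this
  · have := key (r z) ⟨fun _ => a, Bd.const a⟩
    rwa [hr] at this
  · exact tendsto_nhds_unique (key ⟨fun _ => a, Bd.const a⟩ ⟨fun _ => b, Bd.const b⟩)
      tendsto_const_nhds
  · refine ⟨SeparationQuotient.mk (⟨x, hx⟩ : BS M), fun w => ?_⟩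
    have := key ⟨x, hx⟩ (r w)
    rwa [hr] at this

theorem tendsto_inv_UF : Tendsto (fun i : ℕ => 1 / ((i : ℝ) + 1)) (UF : Filter ℕ) (𝓝 0) :=
  tendsto_one_div_add_atTop_nhds_zero_nat.mono_left UF_le

/-- the ultrapower of a space with approximate intermediate points is geodesic -/
theorem Ultra.geodesic {N : Type u} [MetricSpace N] {j : M → N} {rep : N → ℕ → M}
    (h : Ultra M N j rep)
    (hl : ∀ x y : M, ∀ s t : ℝ, 0 ≤ s → 0 ≤ t → s + t = dist x y → ∀ ε > 0,
      ∃ w, dist x w ≤ s + ε ∧ dist w y ≤ t + ε)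
    (z w : N) (s t : ℝ) (hs : 0 ≤ s) (ht : 0 ≤ t) (hst : s + t = dist z w) :
    ∃ v, dist z v = s ∧ dist v w = t := by
  have h1 : ∀ i : ℕ, ∃ v, dist (rep z i) v ≤ min s (dist (rep z i) (rep w i)) + 1 / ((i : ℝ) + 1) ∧
      dist v (rep w i) ≤ dist (rep z i) (rep w i) - min s (dist (rep z i) (rep w i))
        + 1 / ((i : ℝ) + 1) := fun i =>
    hl _ _ _ _ (le_min hs dist_nonneg) (sub_nonneg.2 (min_le_right _ _)) (by ring) _
      (by positivity)
  choose v hv1 hv2 using h1
  have hb : Bd v := (h.bd z).of_dist_le (C := s + 1) fun i => by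
    have h2 : 1 / ((i : ℝ) + 1) ≤ 1 := by
      rw [div_le_one (by positivity)]
      linarith [Nat.cast_nonneg (α := ℝ) i]
    linarith [hv1 i, min_le_left s (dist (rep z i) (rep w i))]
  obtain ⟨a, ha⟩ := h.sat v hb
  have hm : Tendsto (fun i => min s (dist (rep z i) (rep w i))) (UF : Filter ℕ) (𝓝 s) := by
    have := (tendsto_const_nhds (x := s)).min (h.lim z w)
    rwa [min_eq_left (by linarith)] at this
  have e1 : dist a z ≤ s + 0 := le_of_tendsto_of_tendsto' (ha z) (hm.add tendsto_inv_UF)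
    fun i => by rw [dist_comm]; exact hv1 i
  have e2 : dist a w ≤ dist z w - s + 0 :=
    le_of_tendsto_of_tendsto' (ha w) (((h.lim z w).sub hm).add tendsto_inv_UF) hv2
  have e3 := dist_triangle z a w
  rw [dist_comm a z] at e1
  exact ⟨a, by linarith, by linarith⟩

end Vale.Agent.P233Z
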