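import Vale.Agent.P233Z.Defs
import Vale.Agent.P233Z.Ultra
import Vale.Agent.P233.H933.Str2

/-!
# The (1+3)-point comparison and triangle comparison
-/

open Real Filter Topology Set

universe u

namespace Vale.Agent.P233Z

open Vale.Agent.P233 Vale.Agent.P233.AB

theorem ang_eq (κ a b c : ℝ) : ang κ a b c = arccos (cvA κ a b c) := cang_eq_arccos κ a b c

/-- an admissible side length -/
def Ok (κ a : ℝ) : Prop := 0 < a ∧ √κ * a < π

theorem Ok.sin_pos {κ a : ℝ} (h : Ok κ a) (hκ : 0 < κ) : 0 < sin (√κ * a) :=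
  Real.sin_pos_of_pos_of_lt_pi (mul_pos (Real.sqrt_pos.2 hκ) h.1) h.2

theorem Ok.mono {κ a b : ℝ} (h : Ok κ a) (hb : 0 < b) (hba : b ≤ a) : Ok κ b :=
  ⟨hb, (mul_le_mul_of_nonneg_left hba (Real.sqrt_nonneg _)).trans_lt h.2⟩

theorem ok_of_perim {κ a b c : ℝ} (ha : 0 < a) (h : a ≤ b + c) (hp : √κ * (a + b + c) < 2 * π) :
    Ok κ a := by
  refine ⟨ha, ?_⟩
  have := mul_le_mul_of_nonneg_left h (Real.sqrt_nonneg κ)
  linarith

theorem tendsto_cvA' {ι : Type*} {l : Filter ι} {κ a b c : ℝ} {u v w : ι → ℝ} (ha : Ok κ a)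
    (hb : Ok κ b) (hu : Tendsto u l (𝓝 a)) (hv : Tendsto v l (𝓝 b)) (hw : Tendsto w l (𝓝 c)) :
    Tendsto (fun i => cvA κ (u i) (v i) (w i)) l (𝓝 (cvA κ a b c)) := by
  have ha0 := ha.1
  have hb0 := hb.1
  unfold cvA
  split_ifs with h1 h2
  · exact Tendsto.div (((hu.pow 2).add (hv.pow 2)).sub (hw.pow 2)) ((hu.const_mul 2).mul hv)
      (by positivity)
  · have e1 := ha.sin_pos h2
    have e2 := hb.sin_pos h2
    exact Tendsto.div (((Real.continuous_cos.tendsto _).comp (hw.const_mul _)).sub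
      (((Real.continuous_cos.tendsto _).comp (hu.const_mul _)).mul
        ((Real.continuous_cos.tendsto _).comp (hv.const_mul _))))
      (((Real.continuous_sin.tendsto _).comp (hu.const_mul _)).mul
        ((Real.continuous_sin.tendsto _).comp (hv.const_mul _))) (by positivity)
  · have e1 := sinh_pos' h1 h2 ha0
    have e2 := sinh_pos' h1 h2 hb0
    exact Tendsto.div ((((Real.continuous_cosh.tendsto _).comp (hu.const_mul _)).mul
        ((Real.continuous_cosh.tendsto _).comp (hv.const_mul _))).sub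
        ((Real.continuous_cosh.tendsto _).comp (hw.const_mul _)))
      (((Real.continuous_sinh.tendsto _).comp (hu.const_mul _)).mul
        ((Real.continuous_sinh.tendsto _).comp (hv.const_mul _))) (by positivity)

theorem cvA_ge' {κ a b c : ℝ} (ha : Ok κ a) (hb : Ok κ b) (hc : 0 ≤ c) (hcab : c ≤ a + b)
    (hp : √κ * (a + b + c) ≤ 2 * π) : -1 ≤ cvA κ a b c := by
  have ha0 := ha.1
  have hb0 := hb.1
  unfold cvA
  split_ifs with h1 h2
  · rw [le_div_iff₀ (by positivity)]
    nlinarith [mul_nonneg (sub_nonneg.2 hcab) (show 0 ≤ a + b + c by positivity)]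
  · have e1 := ha.sin_pos h2
    have e2 := hb.sin_pos h2
    rw [le_div_iff₀ (by positivity)]
    have h0 : 0 < √κ := Real.sqrt_pos.2 h2
    have h5 : √κ * c ≤ √κ * (a + b) := mul_le_mul_of_nonneg_left hcab h0.le
    have h4 : cos (√κ * (a + b)) ≤ cos (√κ * c) := by
      rcases le_total (√κ * (a + b)) π with h3 | h3
      · exact Real.cos_le_cos_of_nonneg_of_le_pi (by positivity) h3 h5
      · rw [← Real.cos_two_pi_sub (√κ * (a + b))]
        exact Real.cos_le_cos_of_nonneg_of_le_pi (by positivity) (by linarith) (by linarith)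
    rw [mul_add, cos_add] at h4
    linarith
  · have e1 := sinh_pos' h1 h2 ha0
    have e2 := sinh_pos' h1 h2 hb0
    rw [le_div_iff₀ (by positivity)]
    have h4 : cosh (√(-κ) * c) ≤ cosh (√(-κ) * (a + b)) := by
      apply Real.cosh_le_cosh.2
      have h0 : 0 ≤ √(-κ) := Real.sqrt_nonneg _
      rw [abs_of_nonneg (by positivity), abs_of_nonneg (by positivity)]
      exact mul_le_mul_of_nonneg_left hcab h0
    rw [mul_add, Real.cosh_add] at h4
    linarith

theorem cvA_opp {κ a b : ℝ} (ha : Ok κ a) (hb : Ok κ b) : cvA κ a b (a + b) = -1 := by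
  have ha0 := ha.1
  have hb0 := hb.1
  unfold cvA
  split_ifs with h1 h2
  · rw [div_eq_iff (by positivity)]
    ring
  · have e1 := ha.sin_pos h2
    have e2 := hb.sin_pos h2
    rw [div_eq_iff (by positivity), mul_add, cos_add]
    ring
  · have e1 := sinh_pos' h1 h2 ha0
    have e2 := sinh_pos' h1 h2 hb0
    rw [div_eq_iff (by positivity), mul_add, Real.cosh_add]
    ring

theorem cmp_of_adj {κ s t a b r : ℝ} (hs : Ok κ s) (ht : Ok κ t) (hr : Ok κ r)
    (h : 0 ≤ cvA κ s r a + cvA κ t r b) : T.Cmp κ a b s t r := by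
  have hs0 := hs.1
  have ht0 := ht.1
  have hr0 := hr.1
  refine ⟨fun h1 => ?_, fun h2 => ?_, fun h3 => ?_⟩
  · unfold cvA at h
    rw [if_pos h1, if_pos h1, div_add_div _ _ (by positivity) (by positivity),
      le_div_iff₀ (by positivity), zero_mul] at h
    have h3 : 0 ≤ (2 * r) * (t * (s ^ 2 + r ^ 2 - a ^ 2) + s * (t ^ 2 + r ^ 2 - b ^ 2)) := by
      linarith only [h]
    have h4 := nonneg_of_mul_nonneg_right h3 (by positivity)
    linarith only [h4]
  · have e1 := hs.sin_pos h2
    have e2 := ht.sin_pos h2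
    have e3 := hr.sin_pos h2
    unfold cvA at h
    rw [if_neg h2.ne', if_neg h2.ne', if_pos h2, if_pos h2,
      div_add_div _ _ (by positivity) (by positivity), le_div_iff₀ (by positivity), zero_mul] at h
    have h3 : 0 ≤ sin (√κ * r) * (sin (√κ * t) * (cos (√κ * a) - cos (√κ * s) * cos (√κ * r)) +
        sin (√κ * s) * (cos (√κ * b) - cos (√κ * t) * cos (√κ * r))) := by linarith only [h]
    have h4 := nonneg_of_mul_nonneg_right h3 e3
    rw [mul_add, sin_add]
    linarith only [h4]
  · have e1 := sinh_pos' h3.ne (not_lt.2 h3.le) hs0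
    have e2 := sinh_pos' h3.ne (not_lt.2 h3.le) ht0
    have e3 := sinh_pos' h3.ne (not_lt.2 h3.le) hr0
    unfold cvA at h
    rw [if_neg h3.ne, if_neg h3.ne, if_neg (not_lt.2 h3.le), if_neg (not_lt.2 h3.le),
      div_add_div _ _ (by positivity) (by positivity), le_div_iff₀ (by positivity), zero_mul] at h
    have h4 : 0 ≤ sinh (√(-κ) * r) *
        (sinh (√(-κ) * t) * (cosh (√(-κ) * s) * cosh (√(-κ) * r) - cosh (√(-κ) * a)) +
        sinh (√(-κ) * s) * (cosh (√(-κ) * t) * cosh (√(-κ) * r) - cosh (√(-κ) * b))) := by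
      linarith only [h]
    have h5 := nonneg_of_mul_nonneg_right h4 e3
    rw [mul_add, Real.sinh_add]
    linarith only [h5]

theorem cvA_mono' {κ s t q b r : ℝ} (hs : Ok κ s) (hst : Ok κ (s + t)) (hq : Ok κ q)
    (hC : T.Cmp κ q b s t r) : cvA κ s q r ≤ cvA κ (s + t) q b := by
  obtain ⟨h0, hp, hn⟩ := hC
  have hs0 := hs.1
  have hst' := hst.1
  have hq0 := hq.1
  unfold cvA
  split_ifs with h1 h2
  · have := h0 h1
    rw [div_le_div_iff₀ (by positivity) (by positivity)]
    have h3 : (s + t) * (s ^ 2 + q ^ 2 - r ^ 2) ≤ s * ((s + t) ^ 2 + q ^ 2 - b ^ 2) := by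
      linarith only [this]
    have h4 := mul_le_mul_of_nonneg_left h3 (show (0 : ℝ) ≤ 2 * q by positivity)
    linarith only [h4]
  · have hC := hp h2
    have e1 := hs.sin_pos h2
    have e2 := hst.sin_pos h2
    have e3 := hq.sin_pos h2
    rw [div_le_div_iff₀ (by positivity) (by positivity)]
    have k1 : sin (√κ * t) =
        sin (√κ * (s + t)) * cos (√κ * s) - cos (√κ * (s + t)) * sin (√κ * s) := by
      rw [← sin_sub]; congr 1; ring
    rw [k1] at hC
    have h3 : (cos (√κ * r) - cos (√κ * s) * cos (√κ * q)) * sin (√κ * (s + t)) ≤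
        (cos (√κ * b) - cos (√κ * (s + t)) * cos (√κ * q)) * sin (√κ * s) := by
      linarith only [hC]
    have h4 := mul_le_mul_of_nonneg_left h3 e3.le
    linarith only [h4]
  · have hκ : κ < 0 := lt_of_le_of_ne (not_lt.1 h2) h1
    have hC := hn hκ
    have e1 := sinh_pos' h1 h2 hs0
    have e2 := sinh_pos' h1 h2 hst'
    have e3 := sinh_pos' h1 h2 hq0
    rw [div_le_div_iff₀ (by positivity) (by positivity)]
    have k1 : sinh (√(-κ) * t) = sinh (√(-κ) * (s + t)) * cosh (√(-κ) * s)
        - cosh (√(-κ) * (s + t)) * sinh (√(-κ) * s) := by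
      rw [← Real.sinh_sub]; congr 1; ring
    rw [k1] at hC
    have h3 : (cosh (√(-κ) * s) * cosh (√(-κ) * q) - cosh (√(-κ) * r)) * sinh (√(-κ) * (s + t)) ≤
        (cosh (√(-κ) * (s + t)) * cosh (√(-κ) * q) - cosh (√(-κ) * b)) * sinh (√(-κ) * s) := by
      linarith only [hC]
    have h4 := mul_le_mul_of_nonneg_left h3 e3.le
    linarith only [h4]

variable {M : Type u} [MetricSpace M] {κ : ℝ}

/-- triangle comparison from the (1+3)-point comparison -/
theorem FourPoint.cmp (h : FourPoint M κ) (p x y w : M) (hw : dist x w + dist w y = dist x y)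
    (hp : √κ * (dist p x + dist p y + dist x y) < 2 * π) :
    T.Cmp κ (dist p x) (dist p y) (dist x w) (dist w y) (dist p w) := by
  rcases eq_or_ne w x with rfl | hx
  · refine ⟨fun _ => ?_, fun _ => ?_, fun _ => ?_⟩ <;> simp
  rcases eq_or_ne w y with rfl | hy
  · refine ⟨fun _ => ?_, fun _ => ?_, fun _ => ?_⟩ <;> simp
  rcases eq_or_ne w p with rfl | hwp
  · rw [dist_comm x w]
    refine ⟨fun _ => ?_, fun _ => ?_, fun _ => ?_⟩
    · rw [dist_self]
      exact le_of_eq (by ring)
    · rw [dist_self, mul_zero, cos_zero, mul_add, sin_add]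
      exact le_of_eq (by ring)
    · rw [dist_self, mul_zero, Real.cosh_zero, mul_add, Real.sinh_add]
      exact le_of_eq (by ring)
  have hk : 0 ≤ √κ := Real.sqrt_nonneg κ
  have d1 : 0 < dist w x := dist_pos.2 hx
  have d2 : 0 < dist w y := dist_pos.2 hy
  have d3 : 0 < dist w p := dist_pos.2 hwp
  rw [dist_comm x w] at hw ⊢
  have t1 := dist_triangle w y p
  have t2 := dist_triangle w x p
  have t3 := dist_triangle x p y
  have t4 := dist_triangle x w p
  have t5 := dist_triangle p w y
  rw [dist_comm y p] at t1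
  rw [dist_comm x w] at t4
  rw [dist_comm p w] at t5
  rw [dist_comm p x] at hp
  have p1 : √κ * (dist w x + dist w p + dist x p) < 2 * π :=
    (mul_le_mul_of_nonneg_left (by linarith) hk).trans_lt hp
  have p2 : √κ * (dist w p + dist w y + dist p y) < 2 * π :=
    (mul_le_mul_of_nonneg_left (by linarith) hk).trans_lt hp
  have p3 : √κ * (dist w x + dist w y + dist x y) < 2 * π :=
    (mul_le_mul_of_nonneg_left (by linarith) hk).trans_lt hp
  have o1 : Ok κ (dist w x) := ok_of_perim d1 (by linarith) p3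
  have o2 : Ok κ (dist w y) := ok_of_perim (b := dist w x) (c := dist x y) d2 (by linarith)
    (by linarith)
  have o3 : Ok κ (dist w p) := ok_of_perim d3 t1 p2
  have h1 := h w x p y hx hwp hy p1 p2 p3
  rw [ang_eq, ang_eq, ang_eq, ← hw, cvA_opp o1 o2, Real.arccos_neg_one] at h1
  have g1 := cvA_ge' o1 o3 dist_nonneg t4 p1.le
  have g2 := cvA_ge' o3 o2 dist_nonneg t5 p2.le
  rw [dist_comm p w, dist_comm p x]
  refine cmp_of_adj o1 o2 o3 ?_
  rw [cvA_comm κ (dist w y)]
  by_contra hcon
  have h2 : arccos (-cvA κ (dist w x) (dist w p) (dist x p)) <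
      arccos (cvA κ (dist w p) (dist w y) (dist p y)) :=
    Real.strictAntiOn_arccos ⟨g2, by linarith⟩ ⟨by linarith, by linarith⟩ (by linarith)
  rw [Real.arccos_neg] at h2
  linarith

/-- monotonicity of the comparison angle -/
theorem ang_mono (hA : T.IsAlexandrov M κ) {p x y w : M} (hw : dist p w + dist w x = dist p x)
    (hpw : p ≠ w) (hpy : p ≠ y) (hp : √κ * (dist p x + dist p y + dist x y) < 2 * π) :
    ang κ (dist p x) (dist p y) (dist x y) ≤ ang κ (dist p w) (dist p y) (dist w y) := by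
  have d1 : 0 < dist p w := dist_pos.2 hpw
  have d2 : 0 < dist p y := dist_pos.2 hpy
  have d3 : 0 ≤ dist w x := dist_nonneg
  have t1 := dist_triangle p y x
  have t2 := dist_triangle p x y
  rw [dist_comm y x] at t1
  have o1 : Ok κ (dist p x) := ok_of_perim (by linarith) t1 hp
  have o2 : Ok κ (dist p y) := ok_of_perim (b := dist p x) (c := dist x y) d2 t2 (by linarith)
  have hC := hA.comparison y p x w hw (by rw [dist_comm y p, dist_comm y x]; linarith)
  rw [dist_comm y p, dist_comm y x, dist_comm y w] at hC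
  have h1 := cvA_mono' (o1.mono d1 (by linarith)) (by rw [hw]; exact o1) o2 hC
  rw [hw] at h1
  rw [ang_eq, ang_eq]
  exact Real.antitone_arccos h1

theorem ang_comm (κ a b c : ℝ) : ang κ a b c = ang κ b a c := cang_comm κ a b c

theorem ang_mono2 (hA : T.IsAlexandrov M κ) {p x y w v : M} (hw : dist p w + dist w x = dist p x)
    (hv : dist p v + dist v y = dist p y) (hpw : p ≠ w) (hpv : p ≠ v)
    (hp : √κ * (dist p x + dist p y + dist x y) < 2 * π) :
    ang κ (dist p x) (dist p y) (dist x y) ≤ ang κ (dist p w) (dist p v) (dist w v) := by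
  have hpy : p ≠ y := by
    have d1 : 0 < dist p v := dist_pos.2 hpv
    have d2 : 0 ≤ dist v y := dist_nonneg
    exact dist_pos.1 (by linarith)
  refine (ang_mono hA hw hpw hpy hp).trans ?_
  have t1 := dist_triangle w x y
  have h1 := ang_mono hA (x := y) (y := w) hv hpv hpw
    ((mul_le_mul_of_nonneg_left (by rw [dist_comm y w]; linarith) (Real.sqrt_nonneg κ)).trans_lt hp)
  rwa [ang_comm κ (dist p y), ang_comm κ (dist p v), dist_comm y w, dist_comm v w] at h1

/-- the (1+3)-point comparison in a complete geodesic space with triangle comparison -/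
theorem fourPoint_of [CompleteSpace M] (hA : T.IsAlexandrov M κ) : FourPoint M κ := by
  obtain ⟨r, hr, H⟩ := (T_alex hA).angle_sum
  intro p x y z hx hy hz p1 p2 p3
  have key : ∀ a : M, p ≠ a → ∃ w, p ≠ w ∧ dist p w ≤ r ∧ dist p w + dist w a = dist p a := by
    intro a ha
    have d : 0 < dist p a := dist_pos.2 ha
    obtain ⟨w, h1, h2⟩ := hA.geodesic p a (min r (dist p a)) (dist p a - min r (dist p a))
      (le_min hr.le d.le) (sub_nonneg.2 (min_le_right _ _)) (by ring)
    refine ⟨w, dist_pos.1 (by rw [h1]; exact lt_min hr d), by rw [h1]; exact min_le_left _ _, ?_⟩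
    rw [h1, h2]; ring
  obtain ⟨x', a1, a2, a3⟩ := key x hx
  obtain ⟨y', b1, b2, b3⟩ := key y hy
  obtain ⟨z', c1, c2, c3⟩ := key z hz
  have h1 := H p x' y' z' a1 b1 c1 a2 b2 c2
  have e1 := ang_mono2 hA a3 b3 a1 b1 p1
  have e2 := ang_mono2 hA b3 c3 b1 c1 p2
  have e3 := ang_mono2 hA a3 c3 a1 c1 p3
  exact (add_le_add (add_le_add e1 e2) e3).trans h1

/-- the (1+3)-point comparison passes to the ultrapower -/
theorem Ultra.fourPoint {N : Type u} [MetricSpace N] {j : M → N} {rep : N → ℕ → M}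
    (h : Ultra M N j rep) (h4 : FourPoint M κ) : FourPoint N κ := by
  intro p x y z hx hy hz p1 p2 p3
  have ne : ∀ a : N, p ≠ a → ∀ᶠ i in (UF : Filter ℕ), rep p i ≠ rep a i := fun a ha =>
    ((h.lim p a).eventually (lt_mem_nhds (dist_pos.2 ha))).mono fun i hi => dist_pos.1 hi
  have pe : ∀ a b : N, √κ * (dist p a + dist p b + dist a b) < 2 * π → ∀ᶠ i in (UF : Filter ℕ),
      √κ * (dist (rep p i) (rep a i) + dist (rep p i) (rep b i) + dist (rep a i) (rep b i))
        < 2 * π := fun a b hab =>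
    ((((h.lim p a).add (h.lim p b)).add (h.lim a b)).const_mul _).eventually (gt_mem_nhds hab)
  have li : ∀ a b : N, p ≠ a → p ≠ b → √κ * (dist p a + dist p b + dist a b) < 2 * π →
      Tendsto (fun i => ang κ (dist (rep p i) (rep a i)) (dist (rep p i) (rep b i))
        (dist (rep a i) (rep b i))) (UF : Filter ℕ)
        (𝓝 (ang κ (dist p a) (dist p b) (dist a b))) := by
    intro a b ha hb hab
    simp only [ang_eq]
    have t1 := dist_triangle p b a
    rw [dist_comm b a] at t1
    exact (Real.continuous_arccos.tendsto _).comp (tendsto_cvA'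
      (ok_of_perim (dist_pos.2 ha) t1 hab)
      (ok_of_perim (b := dist p a) (c := dist a b) (dist_pos.2 hb) (dist_triangle p a b)
        (by linarith)) (h.lim p a) (h.lim p b) (h.lim a b))
  refine le_of_tendsto (((li x y hx hy p1).add (li y z hy hz p2)).add (li x z hx hz p3)) ?_
  filter_upwards [ne x hx, ne y hy, ne z hz, pe x y p1, pe y z p2, pe x z p3] with i a1 a2 a3 a4
    a5 a6
  exact h4 _ _ _ _ a1 a2 a3 a4 a5 a6

end Vale.Agent.P233Z
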