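import Vale.Agent.P233Z.DefsM
import Vale.Agent.P233Y.ATrig

/-!
# P233: the inequality `T.Cmp` is the comparison with triangles in the model surfaces
-/

open Set Real
open scoped InnerProductSpace

universe u

namespace Vale.Agent.P233Z

open Vale.Agent.P233 Vale.Agent.P233.H616 Vale.Agent.P233Y InnerProductGeometry

theorem cmpIn_iff {S : Type} {d : S → S → ℝ} {κ a b s t r : ℝ} (hd0 : ∀ P Q, 0 ≤ d P Q)
    (hdπ : ∀ P Q, √κ * d P Q ≤ π) (hsep : ∀ P X W, d X W = 0 → d P W = d P X)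
    (hex : ∃ P X Y W, d P X = a ∧ d P Y = b ∧ d X Y = s + t ∧ d X W = s ∧ d W Y = t)
    (hst : ∀ P X Y W, d X Y = s + t → d X W = s → d W Y = t → sn κ (s + t) * md κ (d P W) =
      sn κ t * (md κ (d P X) - md κ s) + sn κ s * (md κ (d P Y) - md κ t))
    (hs : 0 ≤ s) (ht : 0 ≤ t) (hc : Ad κ (s + t)) (hr : 0 ≤ r) (hr' : √κ * r ≤ π)
    (h0 : s + t = 0 → r = a) : CmpIn d a b s t r ↔ T.Cmp κ a b s t r := by
  rw [cmp_iff]
  rcases (add_nonneg hs ht).eq_or_lt with h | h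
  · have hs0 : s = 0 := by linarith
    have ht0 : t = 0 := by linarith
    refine iff_of_true ⟨hex, fun P X Y W h1 _ _ h4 _ => ?_⟩ (by simp [hs0, ht0])
    rw [hsep P X W (h4.trans hs0), h1, h0 h.symm]
  have hp := hc.sn_pos h
  constructor
  · rintro ⟨⟨P, X, Y, W, h1, h2, h3, h4, h5⟩, H⟩
    have e := hst P X Y W h3 h4 h5
    rw [h1, h2] at e
    rw [← e]
    exact mul_le_mul_of_nonneg_left (md_le_md (hd0 P W) (H P X Y W h1 h2 h3 h4 h5) hr') hp.le
  · intro H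
    refine ⟨hex, fun P X Y W h1 h2 h3 h4 h5 => ?_⟩
    have e := hst P X Y W h3 h4 h5
    rw [h1, h2] at e
    rw [← e] at H
    by_contra hlt
    exact absurd (le_of_mul_le_mul_left H hp) (not_le.2 (md_lt_md hr (not_le.1 hlt) (hdπ P W)))

/-- the cosine of the angle of a model triangle, also in the degenerate cases -/
theorem exists_cos {κ a b c : ℝ} (ha : 0 ≤ a) (hb : 0 ≤ b) (hc : 0 ≤ c) (h1 : b ≤ a + c)
    (h2 : |a - c| ≤ b) (hp : √κ * (a + b + c) < 2 * π) :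
    ∃ u v : ℝ, u ^ 2 + v ^ 2 = 1 ∧ md κ b = mS κ a c u := by
  have h3 := abs_le.1 h2
  have half : ∀ r, 2 * r ≤ a + b + c → Ad κ r := fun r hr => by
    unfold Ad
    have := mul_le_mul_of_nonneg_left hr (Real.sqrt_nonneg κ)
    linarith
  rcases ha.eq_or_lt with ha | ha
  · refine ⟨1, 0, by norm_num, ?_⟩
    rw [← ha, show b = c by linarith]
    simp [mS]
  rcases hc.eq_or_lt with hc | hc
  · refine ⟨1, 0, by norm_num, ?_⟩
    rw [← hc, show b = a by linarith]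
    simp [mS]
  have sa := (half a (by linarith)).sn_pos ha
  have sc := (half c (by linarith)).sn_pos hc
  have k1 := neg_one_le_cvA sa sc hb h1 (by rw [show a + c + b = a + b + c by ring]; exact hp.le)
  have k2 := cvA_le_one sa sc h2 (le_of_lt (half b (by linarith)))
  refine ⟨AB.cvA κ a c b, √(1 - AB.cvA κ a c b ^ 2), ?_, (mS_cvA b sa sc).symm⟩
  rw [Real.sq_sqrt (by nlinarith)]
  ring

/-! ### the plane -/

theorem plane_dist (P Q : EuclideanSpace ℝ (Fin 2)) :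
    dist P Q ^ 2 = (P 0 - Q 0) ^ 2 + (P 1 - Q 1) ^ 2 := by
  rw [EuclideanSpace.dist_sq_eq, Fin.sum_univ_two, Real.dist_eq, Real.dist_eq, sq_abs, sq_abs]

theorem plane_st (P X Y W : EuclideanSpace ℝ (Fin 2)) {s t : ℝ} (h3 : dist X Y = s + t)
    (h4 : dist X W = s) (h5 : dist W Y = t) : sn 0 (s + t) * md 0 (dist P W) =
      sn 0 t * (md 0 (dist P X) - md 0 s) + sn 0 s * (md 0 (dist P Y) - md 0 t) := by
  have e3 := plane_dist X Y
  have e4 := plane_dist X W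
  have e5 := plane_dist W Y
  rw [h3] at e3
  rw [h4] at e4
  rw [h5] at e5
  have z : (t * (X 0 - W 0) + s * (Y 0 - W 0)) ^ 2 + (t * (X 1 - W 1) + s * (Y 1 - W 1)) ^ 2 = 0 := by
    linear_combination (-(t * (s + t))) * e4 - s * (s + t) * e5 + s * t * e3
  have z0 : t * (X 0 - W 0) + s * (Y 0 - W 0) = 0 := by
    nlinarith [sq_nonneg (t * (X 0 - W 0) + s * (Y 0 - W 0)),
      sq_nonneg (t * (X 1 - W 1) + s * (Y 1 - W 1))]
  have z1 : t * (X 1 - W 1) + s * (Y 1 - W 1) = 0 := by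
    nlinarith [sq_nonneg (t * (X 0 - W 0) + s * (Y 0 - W 0)),
      sq_nonneg (t * (X 1 - W 1) + s * (Y 1 - W 1))]
  simp only [md_zero', sn_zero', plane_dist]
  linear_combination (P 0 - W 0) * z0 + (P 1 - W 1) * z1 + (t / 2) * e4 + (s / 2) * e5

theorem plane_ex {a b s t u v : ℝ} (ha : 0 ≤ a) (hb : 0 ≤ b) (hs : 0 ≤ s) (ht : 0 ≤ t)
    (huv : u ^ 2 + v ^ 2 = 1) (h : md 0 b = mS 0 a (s + t) u) :
    ∃ P X Y W : EuclideanSpace ℝ (Fin 2), dist P X = a ∧ dist P Y = b ∧ dist X Y = s + t ∧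
      dist X W = s ∧ dist W Y = t := by
  simp only [mS, md_zero', sn_zero'] at h
  refine ⟨!₂[a * u, a * v], !₂[0, 0], !₂[s + t, 0], !₂[s, 0], ?_, ?_, ?_, ?_, ?_⟩ <;>
    refine (sq_eq_sq₀ dist_nonneg (by positivity)).1 ?_ <;> rw [plane_dist] <;>
    simp only [Matrix.cons_val_zero, Matrix.cons_val_one]
  · linear_combination a ^ 2 * huv
  · linear_combination a ^ 2 * huv - 2 * h
  · ring
  · ring
  · ring

/-! ### the sphere -/

theorem sph_cos (P Q : Metric.sphere (0 : EuclideanSpace ℝ (Fin 3)) 1) :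
    cos (angle P.1 Q.1) = P.1 0 * Q.1 0 + P.1 1 * Q.1 1 + P.1 2 * Q.1 2 := by
  rw [cos_angle, mem_sphere_zero_iff_norm.1 P.2, mem_sphere_zero_iff_norm.1 Q.2, mul_one, div_one,
    PiLp.inner_apply, Fin.sum_univ_three]
  simp only [RCLike.inner_apply, conj_trivial]
  ring

theorem sph_self (P : Metric.sphere (0 : EuclideanSpace ℝ (Fin 3)) 1) :
    P.1 0 ^ 2 + P.1 1 ^ 2 + P.1 2 ^ 2 = 1 := by
  have h := EuclideanSpace.real_norm_sq_eq P.1
  rw [mem_sphere_zero_iff_norm.1 P.2, Fin.sum_univ_three] at h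
  linarith

theorem sph_st {κ : ℝ} (hκ : 0 < κ) (P X Y W : Metric.sphere (0 : EuclideanSpace ℝ (Fin 3)) 1)
    {s t : ℝ} (h3 : angle X.1 Y.1 / √κ = s + t) (h4 : angle X.1 W.1 / √κ = s)
    (h5 : angle W.1 Y.1 / √κ = t) : sn κ (s + t) * md κ (angle P.1 W.1 / √κ) =
      sn κ t * (md κ (angle P.1 X.1 / √κ) - md κ s) +
        sn κ s * (md κ (angle P.1 Y.1 / √κ) - md κ t) := by
  have hk : 0 < √κ := Real.sqrt_pos.2 hκ
  rw [div_eq_iff hk.ne', mul_comm] at h3 h4 h5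
  have e3 := sph_cos X Y
  have e4 := sph_cos X W
  have e5 := sph_cos W Y
  rw [h3, mul_add, cos_add] at e3
  rw [h4] at e4
  rw [h5] at e5
  have nX := sph_self X
  have nY := sph_self Y
  have nW := sph_self W
  simp only [md_pos' hκ, sn_pos' hκ, mul_div_cancel₀ _ hk.ne', sph_cos, mul_add (√κ), sin_add]
  have q1 := sin_sq_add_cos_sq (√κ * s)
  have q2 := sin_sq_add_cos_sq (√κ * t)
  generalize sin (√κ * s) = S at *
  generalize cos (√κ * s) = C at *
  generalize sin (√κ * t) = S' at *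
  generalize cos (√κ * t) = C' at *
  have z : ((S * C' + C * S') * W.1 0 - S' * X.1 0 - S * Y.1 0) ^ 2 +
      ((S * C' + C * S') * W.1 1 - S' * X.1 1 - S * Y.1 1) ^ 2 +
      ((S * C' + C * S') * W.1 2 - S' * X.1 2 - S * Y.1 2) ^ 2 = 0 := by
    linear_combination (S * C' + C * S') ^ 2 * nW + S' ^ 2 * nX + S ^ 2 * nY
      + 2 * (S * C' + C * S') * S' * e4 + 2 * (S * C' + C * S') * S * e5 - 2 * S * S' * e3
      - S' ^ 2 * q1 - S ^ 2 * q2
  have p0 := sq_nonneg ((S * C' + C * S') * W.1 0 - S' * X.1 0 - S * Y.1 0)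
  have p1 := sq_nonneg ((S * C' + C * S') * W.1 1 - S' * X.1 1 - S * Y.1 1)
  have p2 := sq_nonneg ((S * C' + C * S') * W.1 2 - S' * X.1 2 - S * Y.1 2)
  have z0 := pow_eq_zero_iff (two_ne_zero) |>.1 (le_antisymm (by linarith) p0)
  have z1 := pow_eq_zero_iff (two_ne_zero) |>.1 (le_antisymm (by linarith) p1)
  have z2 := pow_eq_zero_iff (two_ne_zero) |>.1 (le_antisymm (by linarith) p2)
  have := hκ.ne'
  have := hk.ne'
  field_simp
  linear_combination -(P.1 0 * z0) - P.1 1 * z1 - P.1 2 * z2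

theorem sph_mem {x y z : ℝ} (h : x ^ 2 + y ^ 2 + z ^ 2 = 1) :
    (!₂[x, y, z] : EuclideanSpace ℝ (Fin 3)) ∈ Metric.sphere (0 : EuclideanSpace ℝ (Fin 3)) 1 := by
  rw [mem_sphere_zero_iff_norm, ← sq_eq_sq₀ (norm_nonneg _) zero_le_one,
    EuclideanSpace.real_norm_sq_eq, Fin.sum_univ_three]
  simpa using h

theorem sph_angle {κ r : ℝ} (hκ : 0 < κ) (hr : 0 ≤ r) (hr' : Ad κ r)
    {P Q : Metric.sphere (0 : EuclideanSpace ℝ (Fin 3)) 1}
    (h : P.1 0 * Q.1 0 + P.1 1 * Q.1 1 + P.1 2 * Q.1 2 = cos (√κ * r)) :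
    angle P.1 Q.1 / √κ = r := by
  have hk : 0 < √κ := Real.sqrt_pos.2 hκ
  rw [div_eq_iff hk.ne', mul_comm]
  exact Real.injOn_cos ⟨angle_nonneg _ _, angle_le_pi _ _⟩ ⟨by positivity, le_of_lt hr'⟩
    ((sph_cos P Q).trans h)

theorem sph_ex {κ a b s t u v : ℝ} (hκ : 0 < κ) (ha : 0 ≤ a) (hb : 0 ≤ b) (hs : 0 ≤ s) (ht : 0 ≤ t)
    (ha' : Ad κ a) (hb' : Ad κ b) (hc : Ad κ (s + t)) (huv : u ^ 2 + v ^ 2 = 1)
    (h : md κ b = mS κ a (s + t) u) :
    ∃ P X Y W : Metric.sphere (0 : EuclideanSpace ℝ (Fin 3)) 1, angle P.1 X.1 / √κ = a ∧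
      angle P.1 Y.1 / √κ = b ∧ angle X.1 Y.1 / √κ = s + t ∧ angle X.1 W.1 / √κ = s ∧
      angle W.1 Y.1 / √κ = t := by
  have hk : 0 < √κ := Real.sqrt_pos.2 hκ
  have hb2 : cos (√κ * b) = cos (√κ * a) * cos (√κ * (s + t)) +
      sin (√κ * a) * sin (√κ * (s + t)) * u := by
    simp only [mS, md_pos' hκ, sn_pos' hκ] at h
    rw [div_mul_div_comm (sin _), Real.mul_self_sqrt hκ.le] at h
    have := hκ.ne'
    field_simp at h
    linarith
  refine ⟨⟨!₂[cos (√κ * a), sin (√κ * a) * u, sin (√κ * a) * v], sph_mem ?_⟩,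
    ⟨!₂[1, 0, 0], sph_mem (by norm_num)⟩,
    ⟨!₂[cos (√κ * (s + t)), sin (√κ * (s + t)), 0], sph_mem ?_⟩,
    ⟨!₂[cos (√κ * s), sin (√κ * s), 0], sph_mem ?_⟩, sph_angle hκ ha ha' ?_, sph_angle hκ hb hb' ?_,
    sph_angle hκ (add_nonneg hs ht) hc ?_, sph_angle hκ hs (hc.mono (by linarith)) ?_,
    sph_angle hκ ht (hc.mono (by linarith)) ?_⟩
  · linear_combination sin_sq_add_cos_sq (√κ * a) + sin (√κ * a) ^ 2 * huv
  · linear_combination sin_sq_add_cos_sq (√κ * (s + t))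
  · linear_combination sin_sq_add_cos_sq (√κ * s)
  · simp
  · simp only [Matrix.cons_val_zero, Matrix.cons_val_one, Matrix.cons_val]
    rw [hb2]
    ring
  · simp
  · simp
  · simp only [Matrix.cons_val_zero, Matrix.cons_val_one, Matrix.cons_val]
    rw [show √κ * t = √κ * (s + t) - √κ * s by ring, cos_sub]
    ring

/-! ### the hyperbolic plane -/

theorem hyp_cosh (P Q : UpperHalfPlane) : cosh (dist P Q) =
    (P.im⁻¹ * ((Q.re ^ 2 + Q.im ^ 2) / Q.im) + (P.re ^ 2 + P.im ^ 2) / P.im * Q.im⁻¹) / 2 -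
      P.re / P.im * (Q.re / Q.im) := by
  rw [UpperHalfPlane.cosh_dist']
  have := P.im_pos.ne'
  have := Q.im_pos.ne'
  field_simp
  ring

theorem hyp_self (P : UpperHalfPlane) :
    P.im⁻¹ * ((P.re ^ 2 + P.im ^ 2) / P.im) - (P.re / P.im) ^ 2 = 1 := by
  have := P.im_pos.ne'
  field_simp
  ring

theorem hyp_st {κ : ℝ} (hκ : κ < 0) (P X Y W : UpperHalfPlane) {s t : ℝ}
    (h3 : dist X Y / √(-κ) = s + t) (h4 : dist X W / √(-κ) = s) (h5 : dist W Y / √(-κ) = t) :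
    sn κ (s + t) * md κ (dist P W / √(-κ)) = sn κ t * (md κ (dist P X / √(-κ)) - md κ s) +
      sn κ s * (md κ (dist P Y / √(-κ)) - md κ t) := by
  have hk : 0 < √(-κ) := Real.sqrt_pos.2 (by linarith)
  rw [div_eq_iff hk.ne', mul_comm] at h3 h4 h5
  have e3 := hyp_cosh X Y
  have e4 := hyp_cosh X W
  have e5 := hyp_cosh W Y
  rw [h3, mul_add, cosh_add] at e3
  rw [h4] at e4
  rw [h5] at e5
  have nX := hyp_self X
  have nY := hyp_self Y
  have nW := hyp_self W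
  have hW : 0 < W.im⁻¹ := inv_pos.2 W.im_pos
  simp only [md_neg' hκ, sn_neg' hκ, mul_div_cancel₀ _ hk.ne', hyp_cosh, mul_add (√(-κ)), sinh_add]
  have q1 := Real.cosh_sq (√(-κ) * s)
  have q2 := Real.cosh_sq (√(-κ) * t)
  generalize sinh (√(-κ) * s) = S at *
  generalize cosh (√(-κ) * s) = C at *
  generalize sinh (√(-κ) * t) = S' at *
  generalize cosh (√(-κ) * t) = C' at *
  generalize (X.re ^ 2 + X.im ^ 2) / X.im = x2 at *
  generalize (Y.re ^ 2 + Y.im ^ 2) / Y.im = y2 at *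
  generalize (W.re ^ 2 + W.im ^ 2) / W.im = w2 at *
  generalize (P.re ^ 2 + P.im ^ 2) / P.im = p2 at *
  generalize X.re / X.im = x1 at *
  generalize Y.re / Y.im = y1 at *
  generalize W.re / W.im = w1 at *
  generalize P.re / P.im = p1 at *
  generalize X.im⁻¹ = x0 at *
  generalize Y.im⁻¹ = y0 at *
  generalize W.im⁻¹ = w0 at *
  generalize P.im⁻¹ = p0 at *
  obtain ⟨v0, hv0⟩ : ∃ v, v = (S * C' + C * S') * w0 - S' * x0 - S * y0 := ⟨_, rfl⟩
  obtain ⟨v1, hv1⟩ : ∃ v, v = (S * C' + C * S') * w1 - S' * x1 - S * y1 := ⟨_, rfl⟩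
  obtain ⟨v2, hv2⟩ : ∃ v, v = (S * C' + C * S') * w2 - S' * x2 - S * y2 := ⟨_, rfl⟩
  have z : v0 * v2 - v1 ^ 2 = 0 := by
    rw [hv0, hv1, hv2]
    linear_combination (S * C' + C * S') ^ 2 * nW + S' ^ 2 * nX + S ^ 2 * nY
      + 2 * (S * C' + C * S') * S' * e4 + 2 * (S * C' + C * S') * S * e5 - 2 * S * S' * e3
      - S' ^ 2 * q1 - S ^ 2 * q2
  have z' : v0 * w2 + v2 * w0 - 2 * v1 * w1 = 0 := by
    rw [hv0, hv1, hv2]
    linear_combination 2 * (S * C' + C * S') * nW + 2 * S' * e4 + 2 * S * e5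
  have z'' : (w0 * v1 - v0 * w1) ^ 2 + v0 ^ 2 = 0 := by
    linear_combination w0 * v0 * z' - w0 ^ 2 * z - v0 ^ 2 * nW
  have z0 : v0 = 0 := pow_eq_zero_iff (two_ne_zero) |>.1
    (le_antisymm (by linarith [sq_nonneg (w0 * v1 - v0 * w1)]) (sq_nonneg v0))
  have z1 : v1 = 0 := by
    rw [z0, zero_mul, zero_sub, neg_eq_zero] at z
    exact pow_eq_zero_iff (two_ne_zero) |>.1 z
  have z2 : v2 = 0 := by
    rw [z0, z1] at z'
    have : v2 * w0 = 0 := by linarith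
    exact (mul_eq_zero.1 this).resolve_right hW.ne'
  rw [hv0] at z0
  rw [hv1] at z1
  rw [hv2] at z2
  have := hκ.ne
  have := hk.ne'
  field_simp
  linear_combination -(p2 * z0) + 2 * p1 * z1 - p0 * z2

theorem hyp_dist {κ r : ℝ} (hκ : κ < 0) (hr : 0 ≤ r) {P Q : UpperHalfPlane}
    (h : (P.re - Q.re) ^ 2 + P.im ^ 2 + Q.im ^ 2 = cosh (√(-κ) * r) * (2 * P.im * Q.im)) :
    dist P Q / √(-κ) = r := by
  have hk : 0 < √(-κ) := Real.sqrt_pos.2 (by linarith)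
  rw [div_eq_iff hk.ne', mul_comm]
  have h1 : cosh (dist P Q) = cosh (√(-κ) * r) := by
    have := P.im_pos
    have := Q.im_pos
    rw [UpperHalfPlane.cosh_dist', div_eq_iff (by positivity), h]
  have h2 := Real.cosh_le_cosh.1 h1.le
  have h3 := Real.cosh_le_cosh.1 h1.ge
  rw [abs_of_nonneg dist_nonneg, abs_of_nonneg (by positivity)] at h2 h3
  exact le_antisymm h2 h3

theorem hyp_ex {κ a b s t u v : ℝ} (hκ : κ < 0) (ha : 0 ≤ a) (hb : 0 ≤ b) (hs : 0 ≤ s) (ht : 0 ≤ t)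
    (huv : u ^ 2 + v ^ 2 = 1) (h : md κ b = mS κ a (s + t) u) :
    ∃ P X Y W : UpperHalfPlane, dist P X / √(-κ) = a ∧ dist P Y / √(-κ) = b ∧
      dist X Y / √(-κ) = s + t ∧ dist X W / √(-κ) = s ∧ dist W Y / √(-κ) = t := by
  have hk : 0 < √(-κ) := Real.sqrt_pos.2 (by linarith)
  have hb2 : cosh (√(-κ) * b) = cosh (√(-κ) * a) * cosh (√(-κ) * (s + t)) -
      sinh (√(-κ) * a) * sinh (√(-κ) * (s + t)) * u := by
    simp only [mS, md_neg' hκ, sn_neg' hκ] at h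
    rw [div_mul_div_comm (sinh _), Real.mul_self_sqrt (by linarith)] at h
    have := hκ.ne
    field_simp at h
    linarith
  have q := Real.cosh_sq (√(-κ) * a)
  have hS : 0 ≤ sinh (√(-κ) * a) := Real.sinh_nonneg_iff.2 (by positivity)
  have hD : 0 < cosh (√(-κ) * a) - u * sinh (√(-κ) * a) := by
    have h1 : u ≤ 1 := by nlinarith
    have h2 := Real.sinh_lt_cosh (√(-κ) * a)
    nlinarith
  have ex : ∀ x : ℝ, 1 + exp x ^ 2 = cosh x * (2 * exp x) := fun x => by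
    rw [Real.cosh_eq, Real.exp_neg]
    have := (Real.exp_pos x).ne'
    field_simp
    ring
  obtain ⟨j, hj0, hj⟩ : ∃ j : ℝ, 0 < j ∧ j * (cosh (√(-κ) * a) - u * sinh (√(-κ) * a)) = 1 :=
    ⟨_, inv_pos.2 hD, inv_mul_cancel₀ hD.ne'⟩
  refine ⟨⟨⟨v * sinh (√(-κ) * a) * j, j⟩, hj0⟩, ⟨⟨0, 1⟩, one_pos⟩,
    ⟨⟨0, exp (√(-κ) * (s + t))⟩, Real.exp_pos _⟩, ⟨⟨0, exp (√(-κ) * s)⟩, Real.exp_pos _⟩,
    hyp_dist hκ ha ?_, hyp_dist hκ hb ?_, hyp_dist hκ (add_nonneg hs ht) ?_, hyp_dist hκ hs ?_,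
    hyp_dist hκ ht ?_⟩ <;> simp only [UpperHalfPlane.re, UpperHalfPlane.im]
  · linear_combination j ^ 2 * sinh (√(-κ) * a) ^ 2 * huv - j ^ 2 * q
      + (j * (cosh (√(-κ) * a) + u * sinh (√(-κ) * a)) - 1) * hj
  · rw [hb2, Real.cosh_eq (√(-κ) * (s + t)), Real.sinh_eq (√(-κ) * (s + t)), Real.exp_neg]
    have hE := mul_inv_cancel₀ (Real.exp_pos (√(-κ) * (s + t))).ne'
    linear_combination j ^ 2 * sinh (√(-κ) * a) ^ 2 * huv - j ^ 2 * q
      + (j * (cosh (√(-κ) * a) + u * sinh (√(-κ) * a)) - exp (√(-κ) * (s + t)) ^ 2) * hj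
      - j * (cosh (√(-κ) * a) + u * sinh (√(-κ) * a)) * hE
  · linear_combination ex (√(-κ) * (s + t))
  · linear_combination ex (√(-κ) * s)
  · rw [mul_add, Real.exp_add]
    linear_combination exp (√(-κ) * s) ^ 2 * ex (√(-κ) * t)

/-- **Dictionary.** `T.Cmp` is the comparison with triangles in the model surface. -/
theorem modelCmp_iff {κ a b s t r : ℝ} (ha : 0 ≤ a) (hb : 0 ≤ b) (hs : 0 ≤ s) (ht : 0 ≤ t)
    (h1 : b ≤ a + (s + t)) (h2 : |a - (s + t)| ≤ b) (hp : √κ * (a + b + (s + t)) < 2 * π)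
    (hr : 0 ≤ r) (hr' : √κ * r ≤ π) (h0 : s + t = 0 → r = a) :
    ModelCmp κ a b s t r ↔ T.Cmp κ a b s t r := by
  have h3 := abs_le.1 h2
  have half : ∀ r, 2 * r ≤ a + b + (s + t) → Ad κ r := fun r hr => by
    unfold Ad
    have := mul_le_mul_of_nonneg_left hr (Real.sqrt_nonneg κ)
    linarith
  have hc := half (s + t) (by linarith)
  obtain ⟨u, v, huv, h⟩ := exists_cos ha hb (add_nonneg hs ht) h1 h2 hp
  unfold ModelCmp
  rcases lt_trichotomy κ 0 with hκ | hκ | hκ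
  · simp only [hκ.ne, hκ.le.not_gt, hκ, IsEmpty.forall_iff, true_and, forall_const]
    have hk : 0 < √(-κ) := Real.sqrt_pos.2 (by linarith)
    refine cmpIn_iff (fun P Q => by positivity) (fun P Q => ?_) (fun P X W hXW => ?_)
      (hyp_ex hκ ha hb hs ht huv h) (fun P X Y W => hyp_st hκ P X Y W) hs ht hc hr hr' h0
    · rw [Real.sqrt_eq_zero'.2 hκ.le, zero_mul]
      exact Real.pi_pos.le
    · rw [dist_eq_zero.1 ((div_eq_zero_iff.1 hXW).resolve_right hk.ne')]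
  · subst hκ
    simp only [lt_self_iff_false, IsEmpty.forall_iff, and_true, forall_const]
    refine cmpIn_iff (fun P Q => dist_nonneg) (fun P Q => ?_) (fun P X W hXW => ?_)
      (plane_ex ha hb hs ht huv h) (fun P X Y W => plane_st P X Y W) hs ht hc hr hr' h0
    · rw [Real.sqrt_zero, zero_mul]
      exact Real.pi_pos.le
    · rw [dist_eq_zero.1 hXW]
  · simp only [hκ.ne', hκ.le.not_gt, hκ, IsEmpty.forall_iff, true_and, forall_const, and_true]
    have hk : 0 < √κ := Real.sqrt_pos.2 hκ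
    refine cmpIn_iff (fun P Q => div_nonneg (angle_nonneg _ _) hk.le) (fun P Q => ?_)
      (fun P X W hXW => ?_)
      (sph_ex hκ ha hb hs ht (half a (by linarith)) (half b (by linarith)) hc huv h)
      (fun P X Y W => sph_st hκ P X Y W) hs ht hc hr hr' h0
    · rw [mul_div_cancel₀ _ hk.ne']
      exact angle_le_pi _ _
    · have e := sph_cos X W
      rw [(div_eq_zero_iff.1 hXW).resolve_right hk.ne', Real.cos_zero] at e
      have nX := sph_self X
      have nW := sph_self W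
      have z : (X.1 0 - W.1 0) ^ 2 + (X.1 1 - W.1 1) ^ 2 + (X.1 2 - W.1 2) ^ 2 = 0 := by
        linear_combination nX + nW + 2 * e
      have p0 := sq_nonneg (X.1 0 - W.1 0)
      have p1 := sq_nonneg (X.1 1 - W.1 1)
      have p2 := sq_nonneg (X.1 2 - W.1 2)
      have z0 := pow_eq_zero_iff (two_ne_zero) |>.1 (le_antisymm (by linarith) p0)
      have z1 := pow_eq_zero_iff (two_ne_zero) |>.1 (le_antisymm (by linarith) p1)
      have z2 := pow_eq_zero_iff (two_ne_zero) |>.1 (le_antisymm (by linarith) p2)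
      have : angle P.1 W.1 = angle P.1 X.1 := by
        refine Real.injOn_cos ⟨angle_nonneg _ _, angle_le_pi _ _⟩
          ⟨angle_nonneg _ _, angle_le_pi _ _⟩ ?_
        rw [sph_cos, sph_cos]
        linear_combination -(P.1 0 * z0) - P.1 1 * z1 - P.1 2 * z2
      simp only [this]

/-- Comparison with triangles in the model surface is `TriCmp`. -/
theorem triModel_iff (M : Type u) [MetricSpace M] (κ : ℝ) : TriModel M κ ↔ TriCmp M κ := by
  refine forall₃_congr fun p x y => forall₃_congr fun α β γ => forall₃_congr fun _ _ hγ =>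
    forall₃_congr fun hp s hs => ?_
  have e : s + (dist x y - s) = dist x y := by ring
  have d1 : dist x (γ s) = s ∧ dist (γ s) y = dist x y - s := by
    have e1 := hγ.2.2 0 ⟨le_rfl, dist_nonneg⟩ s hs
    have e2 := hγ.2.2 s hs _ ⟨dist_nonneg, le_rfl⟩
    rw [hγ.1, zero_sub, abs_neg, abs_of_nonneg hs.1] at e1
    rw [hγ.2.1, abs_sub_comm, abs_of_nonneg (sub_nonneg.2 hs.2)] at e2
    exact ⟨e1, e2⟩
  have t1 := dist_triangle p x (γ s)
  have t2 := dist_triangle_right p (γ s) y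
  refine modelCmp_iff dist_nonneg dist_nonneg hs.1 (sub_nonneg.2 hs.2) ?_ ?_ ?_ dist_nonneg ?_ ?_
  · rw [e]
    exact dist_triangle p x y
  · rw [e, dist_comm x y]
    exact abs_dist_sub_le p y x
  · rwa [e]
  · have := mul_le_mul_of_nonneg_left
      (show 2 * dist p (γ s) ≤ dist p x + dist p y + dist x y by linarith [d1.1, d1.2])
      (Real.sqrt_nonneg κ)
    linarith
  · intro h0
    have h1 : dist x (γ s) = 0 := by linarith [d1.1, hs.1, hs.2]
    rw [← dist_eq_zero.1 h1]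

end Vale.Agent.P233Z
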